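import Vale.Agent.P141.H460.AffK
import Vale.Agent.P141.H677.SkelTF2
import Vale.Agent.P141.H401.CutData

/-!
# P141, line (A), flow part: the births `qB` for the cut families of `H401.CutData`

* `lowG_row_le` : rows of a static cut of a path are at most the rows of the path;
* `cb_mass`, `cA_cap` : local mass of `cb`, cap of `cA`, every cell;
* `cut_agr`, `cut_pack` : agreement off the affected nodes, packing, any offset of the window;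
* `slot_EV` : the energy of a moving slot at the affected nodes, `SlM` : slots constant on cells and
  martingale in `x0`;
* `qB_cut` : the price of the births for a slot with a cap and an energy.
-/

namespace Vale.Agent.P141.H460

open Finset Matrix
open Vale.Agent.P141.PL (Pt iv ix cb cx mem_iv mem_cb card_iv card_cb ix_ix)
open Vale.Agent.P141.PL.H315 (Tri A2)
open Vale.Agent.P141.H48 (US ES BSl sst)
open Vale.Agent.P141.H205 (lowF prL CapS)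
open Vale.Agent.P141.H80 (lowG lowG_off lowG_on)
open Vale.Agent.P141.H401 (mA mb mC qA qB qC cA)
open Vale.Agent.P141.H576 (QD Dd Dd_sst kD)
open Vale.Agent.P141.H352 (In)

noncomputable section

open scoped Classical

set_option linter.unusedSectionVars false

/-! ### Rows of a static cut -/

section rows

variable {κ : Type*} [Fintype κ]

/-- **rows of a static cut of a path** -/
theorem lowG_row_le {Q : ℕ → ℤ → ℤ → Prop}
    {Pr : (k : ℕ) → ℤ → ℤ → Matrix (Vale.Agent.P075.Ix k) (Vale.Agent.P075.Ix k) ℝ}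
    {F : ℕ → ℤ → ℤ → κ → ℝ} {N : ℕ} (ht : ∀ k n m, (Pr k n m)ᵀ = Pr k n m)
    (hi : ∀ k n m, Pr k n m * Pr k n m = Pr k n m) (hQ0 : ∀ n m, Q 0 n m)
    (hF : ∀ k < N, ∀ n m, ¬ Q k n m → ∀ x ∈ iv k n, ∀ y ∈ iv k m, F (k + 1) x y = F k x y) :
    ∀ k < N, ∀ n m, ∀ x ∈ iv k n,
      ∑ y ∈ iv k m, lowG Q Pr F (k + 1) x y ⬝ᵥ lowG Q Pr F (k + 1) x y ≤
        ∑ y ∈ iv k m, F (k + 1) x y ⬝ᵥ F (k + 1) x y := by
  have on : ∀ k n m, Q k n m → ∀ x ∈ iv k n,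
      ∑ y ∈ iv k m, lowG Q Pr F (k + 1) x y ⬝ᵥ lowG Q Pr F (k + 1) x y ≤
        ∑ y ∈ iv k m, F (k + 1) x y ⬝ᵥ F (k + 1) x y := by
    intro k n m hQ x hx
    refine le_trans (le_of_eq ?_) (H205.cut_row (ht k n m) (hi k n m) m (F (k + 1) x))
    refine sum_congr rfl fun y hy => ?_
    rw [lowG_on hQ hx hy]
  intro k
  induction k with
  | zero => exact fun _ n m x hx => on 0 n m (hQ0 n m) x hx
  | succ k ih =>
    intro hk n m x hx
    by_cases hQ : Q (k + 1) n m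
    · exact on (k + 1) n m hQ x hx
    · have e1 : ∀ y ∈ iv (k + 1) m, lowG Q Pr F (k + 1 + 1) x y ⬝ᵥ lowG Q Pr F (k + 1 + 1) x y =
          lowG Q Pr F (k + 1) x y ⬝ᵥ lowG Q Pr F (k + 1) x y := fun y hy => by
        rw [lowG_off hQ hx hy]
      have e2 : ∀ y ∈ iv (k + 1) m, F (k + 1 + 1) x y ⬝ᵥ F (k + 1 + 1) x y =
          F (k + 1) x y ⬝ᵥ F (k + 1) x y := fun y hy => by
        rw [hF (k + 1) hk n m hQ x hx y hy]
      rw [sum_congr rfl e1, sum_congr rfl e2, iv_succ, iv_succ]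
      have hx1 : x ∈ iv k (ix k x) := mem_iv.2 rfl
      exact add_le_add (ih (by omega) (ix k x) (2 * m) x hx1)
        (ih (by omega) (ix k x) (2 * m + 1) x hx1)

theorem lowF_eq_lowG (Q : ℕ → ℤ → ℤ → Prop) (c : ℝ) (F : ℕ → ℤ → ℤ → κ → ℝ) :
    ∀ k, lowF Q c F k = lowG Q (fun k n m => prL k (F (k + 1)) c n m) F k
  | 0 => rfl
  | k + 1 => by
      funext x y
      show (if Q k (ix k x) (ix k y) then H205.cutF c k (F (k + 1)) x y
        else lowF Q c F k x y) = (if Q k (ix k x) (ix k y) then _ else _)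
      rw [lowF_eq_lowG Q c F k]
      rfl

theorem lowF_row_le {Q : ℕ → ℤ → ℤ → Prop} {c : ℝ} {F : ℕ → ℤ → ℤ → κ → ℝ} {N : ℕ}
    (hQ0 : ∀ n m, Q 0 n m)
    (hF : ∀ k < N, ∀ n m, ¬ Q k n m → ∀ x ∈ iv k n, ∀ y ∈ iv k m, F (k + 1) x y = F k x y)
    (k : ℕ) (hk : k < N) (n m : ℤ) (x : ℤ) (hx : x ∈ iv k n) :
      ∑ y ∈ iv k m, lowF Q c F (k + 1) x y ⬝ᵥ lowF Q c F (k + 1) x y ≤
        ∑ y ∈ iv k m, F (k + 1) x y ⬝ᵥ F (k + 1) x y := by
  rw [lowF_eq_lowG Q c F (k + 1)]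
  exact lowG_row_le (fun k n m => H205.lowP_transpose _ _) (fun k n m => H205.lowP_idem _ _) hQ0 hF
    k hk n m x hx

end rows

/-! ### Masses on alive squares -/

theorem A2_sq (a : ℤ × ℤ → ℝ) (j : ℕ) (s t : ℤ) :
    ∑ x ∈ iv j (ix j s), ∑ y ∈ iv j (ix j t), a (x, y) ^ 2 = 4 ^ j * A2 j a s t := by
  unfold PL.H315.A2 PL.H315.avg
  rw [sum_product, card_product]
  have h1 : ((PL.H315.iv j s).card : ℝ) = 2 ^ j := by
    change ((iv j (ix j s)).card : ℝ) = 2 ^ j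
    rw [card_iv]
    push_cast
    rfl
  have h2 : ((PL.H315.iv j t).card : ℝ) = 2 ^ j := by
    change ((iv j (ix j t)).card : ℝ) = 2 ^ j
    rw [card_iv]
    push_cast
    rfl
  push_cast
  rw [h1, h2, ← mul_assoc, show (4 : ℝ) ^ j = 2 ^ j * 2 ^ j by rw [← mul_pow]; norm_num]
  have h3 : (2 : ℝ) ^ j ≠ 0 := by positivity
  rw [mul_inv_cancel₀ (mul_ne_zero h3 h3), one_mul]
  rfl

/-- the mass of an alive square -/
theorem alive_mass {Λ : ℝ} {a : ℤ × ℤ → ℝ} {K j : ℕ} (hj : j ≤ K) {s t : ℤ}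
    (h : ¬ sst Λ a K j s t) :
    ∑ x ∈ iv j (ix j s), ∑ y ∈ iv j (ix j t), a (x, y) ^ 2 ≤ 4 ^ j * (Λ * A2 K a s t) := by
  rw [A2_sq]
  refine mul_le_mul_of_nonneg_left ?_ (by positivity)
  by_contra hc
  push Not at hc
  exact h ⟨j, le_rfl, hj, Or.inl hc⟩

theorem iv_sub_succ (k : ℕ) (x : ℤ) : iv k (ix k x) ⊆ iv (k + 1) (ix (k + 1) x) := by
  intro y hy
  rw [mem_iv] at hy ⊢
  exact H677.ix_le (Nat.le_succ k) hy

/-- the mass of a square with alive parent -/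
theorem alive_mass' {Λ : ℝ} {a : ℤ × ℤ → ℝ} {K k b : ℕ} (hb : b ∈ range 2) (hk : k < K) {s t : ℤ}
    (h : ¬ sst Λ a K (k + b) s t) (hΛ : 0 ≤ Λ) :
    ∑ x ∈ iv k (ix k s), ∑ y ∈ iv k (ix k t), a (x, y) ^ 2 ≤ 4 * Λ * A2 K a s t * 4 ^ k := by
  have h0 := PL.H315.A2_nonneg K a s t
  have hb' := mem_range.1 hb
  have h4 : (0 : ℝ) < 4 ^ k := by positivity
  interval_cases b
  · refine (alive_mass hk.le h).trans ?_
    have h5 : 0 ≤ 4 ^ k * (Λ * A2 K a s t) := by positivity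
    nlinarith
  · refine le_trans ?_ ((alive_mass hk h).trans (le_of_eq ?_))
    · refine (sum_le_sum fun x _ => sum_le_sum_of_subset_of_nonneg (iv_sub_succ k t)
        fun y _ _ => sq_nonneg _).trans ?_
      exact sum_le_sum_of_subset_of_nonneg (iv_sub_succ k s)
        fun x _ _ => sum_nonneg fun y _ => sq_nonneg _
    · rw [pow_succ]
      ring

/-! ### The cut families -/

section fam

variable {ι : Type} [Fintype ι] [DecidableEq ι]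

variable {p : H401.Num} {s r : ℝ} {U : Tri} {K : ℕ}

/-- the static cut of a path vanishes at the time `0` and does not change off the squares -/
theorem mb_agr {n : ℕ} {e cP : ℝ} {F3 : ℕ → Pt → ℝ} {Q3 : ℕ → Pt → Prop}
    (hB : BSl n e cP F3 Q3) (hK : K ≤ n) (u : ℤ → ℤ → ι → ℝ) (x0 : ℤ) :
    ∀ k < K, ∀ n' m, ¬ qB p U K Q3 k (ix k x0) n' m → ∀ x ∈ iv k n', ∀ y ∈ iv k m,
      mb p U K u F3 x0 (k + 1) x y = mb p U K u F3 x0 k x y := by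
  intro k hk n' m hQ x hx y hy
  have h := H576.agree_kD (Dd_sst p.Lm U.1 K) hB (by omega : k < n) hQ hx hy
  unfold H401.mb H677.fb
  rw [← H576.kD_sst]
  rw [h]

theorem mC_agr {n : ℕ} {e cP : ℝ} {F2 : ℕ → Pt → ℝ} {Q2 : ℕ → Pt → Prop}
    (hB : BSl n e cP F2 Q2) (hK : K ≤ n) (v : ℤ → ℤ → ι → ℝ) (x0 : ℤ) :
    ∀ k < K, ∀ n' m, ¬ qC p U K Q2 k (ix k x0) n' m → ∀ z ∈ iv k n', ∀ x ∈ iv k m,
      mC p U K v F2 x0 (k + 1) z x = mC p U K v F2 x0 k z x := by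
  intro k hk n' m hQ z hz x hx
  have h := H576.agree_kD (Dd_sst p.Lm U.2.1 K) hB (by omega : k < n) hQ hx hz
  unfold H401.mC H677.fC
  rw [← H576.kD_sst]
  rw [h]

theorem b1_agr (s r : ℝ) (u : ℤ → ℤ → ι → ℝ) (F3 : ℕ → Pt → ℝ) (Q3 : ℕ → Pt → Prop) (x0 : ℤ)
    (k : ℕ) (n' m : ℤ) (hQ : ¬ qB p U K Q3 k (ix k x0) n' m) (x : ℤ) (hx : x ∈ iv k n') (y : ℤ)
    (hy : y ∈ iv k m) :
    H401.b1 p s r U K u F3 Q3 x0 (k + 1) x y = H401.b1 p s r U K u F3 Q3 x0 k x y :=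
  H205.lowF_off hQ hx hy

theorem cb_agr (s r : ℝ) (u : ℤ → ℤ → ι → ℝ) (F3 : ℕ → Pt → ℝ) (Q3 : ℕ → Pt → Prop) (x0 : ℤ)
    (k : ℕ) (n' m : ℤ) (hQ : ¬ qB p U K Q3 k (ix k x0) n' m) (x : ℤ) (hx : x ∈ iv k n') (y : ℤ)
    (hy : y ∈ iv k m) :
    H401.cb p s r U K u F3 Q3 x0 (k + 1) x y = H401.cb p s r U K u F3 Q3 x0 k x y :=
  lowG_off (Q := fun k n m => qB p U K Q3 k (ix k x0) n m) hQ hx hy

theorem cA_agr (s r : ℝ) (g : ℤ → ℤ → ℝ) (F1 : ℕ → Pt → ℝ) (Q1 : ℕ → Pt → Prop) (x0 : ℤ)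
    (k : ℕ) (n' m : ℤ) (hQ : ¬ qA p U K Q1 k (ix k x0) n' m) (z : ℤ) (hz : z ∈ iv k n') (y : ℤ)
    (hy : y ∈ iv k m) :
    cA p s r U K g F1 Q1 x0 (k + 1) z y = cA p s r U K g F1 Q1 x0 k z y := by
  have h := H205.lowF_off (Q := fun k n m => qA p U K Q1 k (ix k x0) n m) (c := p.th s r ^ 2)
    (F := fun k => H103.un (mA p U K g F1 x0 k)) hQ hz hy
  exact congrFun h ()

theorem qB0 (Q3 : ℕ → Pt → Prop) (i n m : ℤ) : qB p U K Q3 0 i n m := Or.inl rfl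

theorem qA0 (Q1 : ℕ → Pt → Prop) (i n m : ℤ) : qA p U K Q1 0 i n m := Or.inl rfl

/-- **rows of the cut family** -/
theorem cb_row {n : ℕ} {e cP : ℝ} {F3 : ℕ → Pt → ℝ} {Q3 : ℕ → Pt → Prop}
    (hB : BSl n e cP F3 Q3) (hK : K ≤ n) (s r : ℝ) (u : ℤ → ℤ → ι → ℝ) (x0 : ℤ) {k : ℕ}
    (hk : k < K) (n' m : ℤ) {x : ℤ} (hx : x ∈ iv k n') :
    ∑ y ∈ iv k m, H401.cb p s r U K u F3 Q3 x0 (k + 1) x y ⬝ᵥ
        H401.cb p s r U K u F3 Q3 x0 (k + 1) x y ≤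
      ∑ y ∈ iv k m, mb p U K u F3 x0 (k + 1) x y ⬝ᵥ mb p U K u F3 x0 (k + 1) x y := by
  refine (lowG_row_le (fun k n m => H80.prW_tr _ _ _ k n m) (fun k n m => H80.prW_idem _ _ _ k n m)
    (fun n m => qB0 (p := p) (U := U) (K := K) Q3 _ n m) (N := K)
    (fun k _ n m hQ x hx y hy => b1_agr s r u F3 Q3 x0 k n m hQ x hx y hy) k hk n' m x hx).trans ?_
  exact lowF_row_le (fun n m => qB0 (p := p) (U := U) (K := K) Q3 _ n m)
    (mb_agr hB hK u x0) k hk n' m x hx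

theorem cb_zero (s r : ℝ) (u : ℤ → ℤ → ι → ℝ) (F3 : ℕ → Pt → ℝ) (Q3 : ℕ → Pt → Prop) (x0 : ℤ) :
    H401.cb p s r U K u F3 Q3 x0 0 = 0 := rfl

theorem cA_zero (s r : ℝ) (g : ℤ → ℤ → ℝ) (F1 : ℕ → Pt → ℝ) (Q1 : ℕ → Pt → Prop) (x0 : ℤ) :
    cA p s r U K g F1 Q1 x0 0 = 0 := H205.low1_zero

/-- **the local mass of the cut family `b`** on a square with the time above it -/
theorem cb_mass1 {n : ℕ} {e cP : ℝ} {F3 : ℕ → Pt → ℝ} {Q3 : ℕ → Pt → Prop}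
    (hB : BSl n e cP F3 Q3) (hK : K ≤ n) (s r : ℝ) {u : ℤ → ℤ → ι → ℝ} (he : 0 ≤ e)
    (hLm : 0 ≤ p.Lm) {X Y : ℤ}
    (hu : ∀ x ∈ iv K (ix K X), ∀ y ∈ iv K (ix K Y), u x y ⬝ᵥ u x y ≤ U.1 (x, y) ^ 2) {σ : ℝ}
    (hσ : A2 K U.1 X Y ≤ σ) {k : ℕ} (hk : k < K) (i : ℤ) {n' m : ℤ}
    (hn : n' ∈ iv (K - k) (ix K X)) (hm : m ∈ iv (K - k) (ix K Y)) :
    ∑ x0 ∈ iv k i, ∑ x ∈ iv k n', ∑ y ∈ iv k m, H401.cb p s r U K u F3 Q3 x0 (k + 1) x y ⬝ᵥ
      H401.cb p s r U K u F3 Q3 x0 (k + 1) x y ≤ 4 * e * p.Lm * σ * 8 ^ k := by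
  have hσ0 : 0 ≤ σ := (PL.H315.A2_nonneg K U.1 X Y).trans hσ
  have h1 : ∀ x0, ∑ x ∈ iv k n', ∑ y ∈ iv k m, H401.cb p s r U K u F3 Q3 x0 (k + 1) x y ⬝ᵥ
      H401.cb p s r U K u F3 Q3 x0 (k + 1) x y ≤
      ∑ x ∈ iv k n', ∑ y ∈ iv k m,
        mb p U K u F3 x0 (k + 1) x y ⬝ᵥ mb p U K u F3 x0 (k + 1) x y :=
    fun x0 => sum_le_sum fun x hx => cb_row hB hK s r u x0 hk n' m hx
  refine (sum_le_sum fun x0 _ => h1 x0).trans ?_
  have inX : ∀ x ∈ iv k n', x ∈ iv K (ix K X) := by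
    intro x hx
    rw [mem_iv] at hx hn ⊢
    rw [← hn, ← hx, ix_ix, Nat.add_sub_cancel' hk.le]
  have inY : ∀ y ∈ iv k m, y ∈ iv K (ix K Y) := by
    intro y hy
    rw [mem_iv] at hy hm ⊢
    rw [← hm, ← hy, ix_ix, Nat.add_sub_cancel' hk.le]
  -- one point of the square
  have h2 : ∀ x ∈ iv k n', ∀ y ∈ iv k m, ∑ x0 ∈ iv k i,
      mb p U K u F3 x0 (k + 1) x y ⬝ᵥ mb p U K u F3 x0 (k + 1) x y ≤
      (if sst p.Lm U.1 K (k + 1) x y then 0 else e * 2 ^ k * U.1 (x, y) ^ 2) := by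
    intro x hx y hy
    have e1 : ∀ x0 : ℤ, mb p U K u F3 x0 (k + 1) x y ⬝ᵥ mb p U K u F3 x0 (k + 1) x y =
        (if sst p.Lm U.1 K (k + 1) x y then 0 else F3 (k + 1) (x0, x, y) ^ 2 *
          (u x y ⬝ᵥ u x y)) := by
      intro x0
      unfold H401.mb H677.fb
      rw [← H576.kD_sst]
      unfold H576.kD
      by_cases h : sst p.Lm U.1 K (k + 1) x y
      · rw [if_pos (Or.inr h), if_pos h]
        simp
      · rw [if_neg (by push Not; exact ⟨by omega, h⟩), if_neg h, smul_dotProduct,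
          dotProduct_smul, smul_eq_mul, smul_eq_mul]
        ring
    rw [sum_congr rfl fun x0 _ => e1 x0]
    split_ifs with h
    · simp
    · rw [← sum_mul]
      exact mul_le_mul (hB.l0 k (by omega) i x y) (hu x (inX x hx) y (inY y hy))
        (nsq_nonneg _) (by positivity)
  have h3 : ∑ x0 ∈ iv k i, ∑ x ∈ iv k n', ∑ y ∈ iv k m,
      mb p U K u F3 x0 (k + 1) x y ⬝ᵥ mb p U K u F3 x0 (k + 1) x y =
      ∑ x ∈ iv k n', ∑ y ∈ iv k m, ∑ x0 ∈ iv k i,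
        mb p U K u F3 x0 (k + 1) x y ⬝ᵥ mb p U K u F3 x0 (k + 1) x y := by
    rw [sum_comm]
    exact sum_congr rfl fun x _ => sum_comm
  rw [h3]
  refine (sum_le_sum fun x hx => sum_le_sum fun y hy => h2 x hx y hy).trans ?_
  have hx0 : 2 ^ k * n' ∈ iv k n' := by
    rw [mem_iv, H677.ix_two]
  have hy0 : 2 ^ k * m ∈ iv k m := by
    rw [mem_iv, H677.ix_two]
  have hst : ∀ x ∈ iv k n', ∀ y ∈ iv k m, (sst p.Lm U.1 K (k + 1) x y ↔
      sst p.Lm U.1 K (k + 1) (2 ^ k * n') (2 ^ k * m)) := by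
    intro x hx y hy
    refine (Dd_sst p.Lm U.1 K).congr (k + 1) x _ y _ (H677.ix_le (Nat.le_succ k) ?_)
      (H677.ix_le (Nat.le_succ k) ?_)
    · rw [mem_iv.1 hx, mem_iv.1 hx0]
    · rw [mem_iv.1 hy, mem_iv.1 hy0]
  by_cases h : sst p.Lm U.1 K (k + 1) (2 ^ k * n') (2 ^ k * m)
  · refine le_trans (le_of_eq (sum_eq_zero fun x hx => sum_eq_zero fun y hy =>
      if_pos ((hst x hx y hy).2 h))) ?_
    positivity
  · have e2 : ∀ x ∈ iv k n', ∀ y ∈ iv k m, (if sst p.Lm U.1 K (k + 1) x y then (0 : ℝ)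
        else e * 2 ^ k * U.1 (x, y) ^ 2) = e * 2 ^ k * U.1 (x, y) ^ 2 := fun x hx y hy =>
      if_neg fun h' => h ((hst x hx y hy).1 h')
    rw [sum_congr rfl fun x hx => sum_congr rfl fun y hy => e2 x hx y hy]
    simp only [← mul_sum]
    have h4 := alive_mass' (a := U.1) (K := K) (k := k) (b := 1) (by simp) hk h hLm
    rw [mem_iv.1 hx0, mem_iv.1 hy0] at h4
    have h5 : A2 K U.1 (2 ^ k * n') (2 ^ k * m) ≤ σ := by
      refine le_trans (le_of_eq ?_) hσ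
      refine PL.H990.A2_congr U.1 ?_ ?_
      · exact inX _ hx0
      · exact inY _ hy0
    have h6 : (0 : ℝ) ≤ e * 2 ^ k := by positivity
    calc e * 2 ^ k * ∑ x ∈ iv k n', ∑ y ∈ iv k m, U.1 (x, y) ^ 2
        ≤ e * 2 ^ k * (4 * p.Lm * A2 K U.1 (2 ^ k * n') (2 ^ k * m) * 4 ^ k) :=
          mul_le_mul_of_nonneg_left h4 h6
      _ ≤ e * 2 ^ k * (4 * p.Lm * σ * 4 ^ k) := by
          refine mul_le_mul_of_nonneg_left ?_ h6
          refine mul_le_mul_of_nonneg_right ?_ (by positivity)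
          exact mul_le_mul_of_nonneg_left h5 (by positivity)
      _ = 4 * e * p.Lm * σ * 8 ^ k := by
          rw [show (8 : ℝ) ^ k = 2 ^ k * 4 ^ k by rw [← mul_pow]; norm_num]
          ring

/-- **the local mass of the cut family `b`**, both times -/
theorem cb_mass {n : ℕ} {e cP : ℝ} {F3 : ℕ → Pt → ℝ} {Q3 : ℕ → Pt → Prop}
    (hB : BSl n e cP F3 Q3) (hK : K ≤ n) (s r : ℝ) {u : ℤ → ℤ → ι → ℝ} (he : 0 ≤ e)
    (hLm : 0 ≤ p.Lm) {X Y : ℤ}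
    (hu : ∀ x ∈ iv K (ix K X), ∀ y ∈ iv K (ix K Y), u x y ⬝ᵥ u x y ≤ U.1 (x, y) ^ 2) {σ : ℝ}
    (hσ : A2 K U.1 X Y ≤ σ) {k b' : ℕ} (hk : k < K) (hb : b' ∈ range 2) (i : ℤ) {n' m : ℤ}
    (hn : n' ∈ iv (K - k) (ix K X)) (hm : m ∈ iv (K - k) (ix K Y)) :
    ∑ x0 ∈ iv k i, ∑ x ∈ iv k n', ∑ y ∈ iv k m, H401.cb p s r U K u F3 Q3 x0 (k + b') x y ⬝ᵥ
      H401.cb p s r U K u F3 Q3 x0 (k + b') x y ≤ 4 * e * p.Lm * σ * 8 ^ k := by
  have hσ0 : 0 ≤ σ := (PL.H315.A2_nonneg K U.1 X Y).trans hσ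
  have hb2 := mem_range.1 hb
  interval_cases b'
  · rcases Nat.eq_zero_or_pos k with h0 | h0
    · subst h0
      refine le_trans (le_of_eq (sum_eq_zero fun x0 _ => sum_eq_zero fun x _ =>
        sum_eq_zero fun y _ => ?_)) (by positivity)
      rw [Nat.add_zero, cb_zero]
      simp
    · obtain ⟨j, rfl⟩ : ∃ j, k = j + 1 := ⟨k - 1, by omega⟩
      have ch : ∀ (a R : ℤ), a ∈ iv (K - (j + 1)) R → 2 * a ∈ iv (K - j) R ∧
          2 * a + 1 ∈ iv (K - j) R := by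
        intro a R ha
        have e1 : K - j = (K - (j + 1)) + 1 := by omega
        have e2 : ∀ (d : ℕ) (x : ℤ), ix (d + 1) x = ix d (x / 2) := by
          intro d x
          unfold PL.ix
          rw [Int.ediv_ediv_of_nonneg (by norm_num)]
          congr 1
          ring
        rw [e1, mem_iv, mem_iv, e2, e2]
        rw [mem_iv] at ha
        rw [show 2 * a / 2 = a by omega, show (2 * a + 1) / 2 = a by omega]
        exact ⟨ha, ha⟩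
      obtain ⟨n0, n1⟩ := ch n' _ hn
      obtain ⟨m0, m1⟩ := ch m _ hm
      have f := fun (i : ℤ) (a b : ℤ) (ha : a ∈ iv (K - j) (ix K X))
        (hb : b ∈ iv (K - j) (ix K Y)) =>
        cb_mass1 (p := p) hB hK s r he hLm hu hσ (by omega : j < K) i ha hb
      simp only [Nat.add_zero]
      simp only [iv_succ, sum_add_distrib]
      have a1 := f (2 * i) _ _ n0 m0
      have a2 := f (2 * i) _ _ n0 m1
      have a3 := f (2 * i) _ _ n1 m0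
      have a4 := f (2 * i) _ _ n1 m1
      have a5 := f (2 * i + 1) _ _ n0 m0
      have a6 := f (2 * i + 1) _ _ n0 m1
      have a7 := f (2 * i + 1) _ _ n1 m0
      have a8 := f (2 * i + 1) _ _ n1 m1
      rw [show (4 : ℝ) * e * p.Lm * σ * 8 ^ (j + 1) = 8 * (4 * e * p.Lm * σ * 8 ^ j) by
        rw [pow_succ]; ring]
      linarith
  · exact cb_mass1 hB hK s r he hLm hu hσ hk i hn hm

/-- **the cap of the cut family `A`**, both times -/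
theorem cA_cap (s r : ℝ) (g : ℤ → ℤ → ℝ) (F1 : ℕ → Pt → ℝ) (Q1 : ℕ → Pt → Prop) (x0 : ℤ)
    {k b' : ℕ} (hb : b' ∈ range 2) (n' m : ℤ) (w : ℤ → ℝ) :
    ∑ z ∈ iv k n', (∑ y ∈ iv k m, cA p s r U K g F1 Q1 x0 (k + b') z y * w y) ^ 2 ≤
      p.th s r ^ 2 * 4 ^ k * ∑ y ∈ iv k m, w y ^ 2 := by
  have hc : 0 ≤ p.th s r ^ 2 := sq_nonneg _
  have hQ0 : ∀ n m, (fun k n m => qA p U K Q1 k (ix k x0) n m) 0 n m :=
    fun n m => qA0 (p := p) (U := U) (K := K) Q1 _ n m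
  have key : ∀ (j k : ℕ), CapS (p.th s r ^ 2) k k
      (lowF (fun k n m => qA p U K Q1 k (ix k x0) n m) (p.th s r ^ 2)
        (fun k => H103.un (mA p U K g F1 x0 k)) j) n' m →
      ∑ z ∈ iv k n', (∑ y ∈ iv k m, cA p s r U K g F1 Q1 x0 j z y * w y) ^ 2 ≤
        p.th s r ^ 2 * 4 ^ k * ∑ y ∈ iv k m, w y ^ 2 := by
    intro j k h
    have h1 := h w
    rw [show (4 : ℝ) ^ k = 2 ^ k * 2 ^ k by rw [← mul_pow]; norm_num]
    refine le_trans (le_of_eq ?_) h1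
    refine sum_congr rfl fun z _ => ?_
    rw [univ_unique, sum_singleton]
    congr 1
    refine sum_congr rfl fun y _ => ?_
    rw [mul_comm]
    rfl
  have hb2 := mem_range.1 hb
  interval_cases b'
  · rcases Nat.eq_zero_or_pos k with h0 | h0
    · subst h0
      refine le_trans (le_of_eq (sum_eq_zero fun z _ => ?_))
        (mul_nonneg (by positivity) (sum_nonneg fun _ _ => sq_nonneg _))
      rw [Nat.add_zero, cA_zero]
      simp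
    · obtain ⟨j, rfl⟩ : ∃ j, k = j + 1 := ⟨k - 1, by omega⟩
      exact key (j + 1) (j + 1) (H205.capS_four fun n1 _ m1 _ => H205.capS_path hc hQ0 j n1 m1)
  · exact key (k + 1) k (H205.capS_path hc hQ0 k n' m)

/-- the affected nodes of the cut families, offset `o` -/
def cAf (p : H401.Num) (U : Tri) (K : ℕ) (Q1 Q2 Q3 : ℕ → Pt → Prop) (o : ℤ) : ℕ → Pt → Prop :=
  nAff o (fun k m => QD (fun k x y => sst p.Lm U.2.2 K k x y) Q1 k m.1 m.2.1 m.2.2)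
    (fun k m => QD (fun k x y => sst p.Lm U.2.1 K k x y) Q2 k m.1 m.2.1 m.2.2)
    (fun k m => QD (fun k x y => sst p.Lm U.1 K k x y) Q3 k m.1 m.2.1 m.2.2)

/-- **agreement of the cut families off the affected nodes** -/
theorem cut_agr {n : ℕ} {cP e2 : ℝ} {F2 : ℕ → Pt → ℝ} {Q2 : ℕ → Pt → Prop}
    (hB2 : BSl n e2 cP F2 Q2) (hK : K ≤ n) (s r : ℝ) (g : ℤ → ℤ → ℝ) (u v : ℤ → ℤ → ι → ℝ)
    (F1 F3 : ℕ → Pt → ℝ) (Q1 Q3 : ℕ → Pt → Prop) (o : ℤ) :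
    FAgr o K (cAf p U K Q1 Q2 Q3 o) (cA p s r U K g F1 Q1) (H401.cb p s r U K u F3 Q3)
      (mC p U K v F2) := by
  intro k hk x hx
  have h1 : ¬ qA p U K Q1 k (ix k x.1) (ix k x.2.2) (tc o k x) := fun h => hx (Or.inl h)
  have h2 : ¬ qC p U K Q2 k (ix k x.1) (ix k x.2.2) (ix k x.2.1) :=
    fun h => hx (Or.inr (Or.inl h))
  have h3 : ¬ qB p U K Q3 k (ix k x.1) (ix k x.2.1) (tc o k x) :=
    fun h => hx (Or.inr (Or.inr h))
  refine ⟨fun z hz y hy => ?_, fun x' hx' y hy => ?_, fun z hz x' hx' => ?_⟩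
  · exact (cA_agr s r g F1 Q1 x.1 k _ _ h1 z hz y hy).symm
  · exact (cb_agr s r u F3 Q3 x.1 k _ _ h3 x' hx' y hy).symm
  · exact (mC_agr hB2 hK v x.1 k hk _ _ h2 z hz x' hx').symm

/-- the packing number -/
def cPk (cP : ℝ) : ℝ := 21 * (cP + 2) + ((cP + 2) + 21 * (cP + 2))

theorem cut_pack {n : ℕ} {e1 e2 e3 cP : ℝ} {F1 F2 F3 : ℕ → Pt → ℝ} {Q1 Q2 Q3 : ℕ → Pt → Prop}
    (hB1 : BSl n e1 cP F1 Q1) (hB2 : BSl n e2 cP F2 Q2) (hB3 : BSl n e3 cP F3 Q3) (hK : K ≤ n)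
    {o : ℤ} (ho : o ∈ Win) : GPack (cAf p U K Q1 Q2 Q3 o) K (cPk cP) := by
  refine gpack_gen (n := n) ?_ ?_ ?_ ho hK
  · exact fun x0 K' hK' a b => H576.QD_pack (Dd_sst p.Lm U.2.2 K) hB1 x0 hK' a b
  · exact fun x0 K' hK' a b => H576.QD_pack (Dd_sst p.Lm U.2.1 K) hB2 x0 hK' a b
  · exact fun x0 K' hK' a b => H576.QD_pack (Dd_sst p.Lm U.1 K) hB3 x0 hK' a b

/-! ### Moving slots -/

/-- **a moving slot of `x0`**: constant on cells, a martingale of `x0` on every vector -/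
structure SlM (K : ℕ) (S : H677.Sk.Slt ι) : Prop where
  ix0 : ∀ j ≤ K, ∀ x0 y0 z x : ℤ, ix j x0 = ix j y0 → S x0 j z x = S y0 j z x
  mart : ∀ (z x : ℤ) (w : ι → ℝ), Mrt K (fun j m => S (2 ^ j * m) j z x *ᵥ w)

/-- **the energy of a moving slot at the affected nodes** -/
theorem slot_EV {n : ℕ} {ez cP : ℝ} {F2 : ℕ → Pt → ℝ} {Q2 : ℕ → Pt → Prop}
    (hB : BSl n ez cP F2 Q2) (hK : K ≤ n) (hez : 0 ≤ ez) (hLm : 0 ≤ p.Lm)
    {S : H677.Sk.Slt ι} (hS : SlM K S) {kc : ℝ} (hkc : 0 ≤ kc)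
    (hcap : ∀ j ≤ K, ∀ (x0 z x : ℤ) (w : ι → ℝ),
      (S x0 j z x *ᵥ w) ⬝ᵥ (S x0 j z x *ᵥ w) ≤ kc * (w ⬝ᵥ w))
    {v : ℤ → ℤ → ι → ℝ} {X Z : ℤ}
    (hv : ∀ x ∈ iv K (ix K X), ∀ z ∈ iv K (ix K Z), v x z ⬝ᵥ v x z ≤ U.2.1 (x, z) ^ 2) {σ : ℝ}
    (hσ : A2 K U.2.1 X Z ≤ σ) {o : ℤ} (M2 t : ℤ) {Af : ℕ → Pt → Prop} {P : ℝ} (hP0 : 0 ≤ P)
    (hP : GPack Af K P) {h : ℕ} (hh : 1 ≤ h) (hPh : 2 * P ≤ h) (q : ℕ) {b : ℕ}
    (hb : b ∈ range 2) :
    ∑ k ∈ range (K + 1), ∑ x ∈ cb K (t, ix K X, ix K Z),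
      (if fAR o K M2 Af k (cx k x) then
        (S x.1 k x.2.2 x.2.1 *ᵥ mC p U K v F2 x.1 (k + b) x.2.2 x.2.1) ⬝ᵥ
        (S x.1 k x.2.2 x.2.1 *ᵥ mC p U K v F2 x.1 (k + b) x.2.2 x.2.1) else 0) ≤
      (1 + h * q) * ∑ x ∈ cb K (t, ix K X, ix K Z), 2 * ez *
        ((S x.1 0 x.2.2 x.2.1 *ᵥ v x.2.1 x.2.2) ⬝ᵥ (S x.1 0 x.2.2 x.2.1 *ᵥ v x.2.1 x.2.2)) +
      2 * ez * (kc * (4 * p.Lm * σ)) * P * (1 / 2) ^ q * 8 ^ K := by
  have hσ0 : 0 ≤ σ := (PL.H315.A2_nonneg K U.2.1 X Z).trans hσ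
  have hb' := mem_range.1 hb
  set Zf : ℕ → Pt → ℝ := fun k x => if k < K then H677.kF p.Lm U.2.1 K F2 (k + b) (x.1, x.2.1,
    x.2.2) else 0 with hZf
  have hkf : ∀ k q', H677.kF p.Lm U.2.1 K F2 k q' ^ 2 ≤ F2 k q' ^ 2 := by
    intro k q'
    unfold H677.kF
    split_ifs
    · rw [zero_pow two_ne_zero]
      exact sq_nonneg _
    · exact le_rfl
  have hL : Lin K (2 * ez) Zf := by
    intro k hk m x1 x3
    have h2 : (0 : ℝ) ≤ 2 ^ k := by positivity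
    have hpos : 0 ≤ 2 * ez * 2 ^ k := by positivity
    rcases lt_or_ge k K with hkK | hkK
    · have hl : ∀ j < n, ∀ m : ℤ, ∑ x0 ∈ iv j m,
          H677.kF p.Lm U.2.1 K F2 (j + 1) (x0, x1, x3) ^ 2 ≤ ez * 2 ^ j := fun j hj m =>
        (sum_le_sum fun x0 _ => hkf (j + 1) (x0, x1, x3)).trans (hB.l0 j hj m x1 x3)
      simp only [hZf, if_pos hkK]
      interval_cases b
      · rcases Nat.eq_zero_or_pos k with h0 | h0
        · subst h0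
          refine le_trans (le_of_eq (sum_eq_zero fun x0 _ => ?_)) hpos
          unfold H677.kF
          rw [if_pos (Or.inl rfl), zero_pow two_ne_zero]
        · obtain ⟨j, rfl⟩ : ∃ j, k = j + 1 := ⟨k - 1, by omega⟩
          rw [iv_succ]
          have a1 := hl j (by omega) (2 * m)
          have a2 := hl j (by omega) (2 * m + 1)
          have h3 : (0 : ℝ) ≤ 2 ^ j := by positivity
          rw [pow_succ]
          simp only [Nat.add_zero] at *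
          nlinarith
      · refine (hl k (by omega) m).trans ?_
        nlinarith
    · simp only [hZf, if_neg (not_lt.2 hkK)]
      simpa using hpos
  -- the alive nodes
  set Af' : ℕ → Pt → Prop := fun k m => fAR o K M2 Af k m ∧
    ¬ sst p.Lm U.2.1 K (k + b) (2 ^ k * m.2.1) (2 ^ k * m.2.2) with hAf'
  have hcor : ∀ (k : ℕ) (x : Pt), (sst p.Lm U.2.1 K (k + b) (2 ^ k * (cx k x).2.1)
      (2 ^ k * (cx k x).2.2) ↔ sst p.Lm U.2.1 K (k + b) x.2.1 x.2.2) := by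
    intro k x
    refine (Dd_sst p.Lm U.2.1 K).congr (k + b) _ _ _ _ (H677.ix_le (Nat.le_add_right k b) ?_)
      (H677.ix_le (Nat.le_add_right k b) ?_)
    · rw [H677.ix_two]
      rfl
    · rw [H677.ix_two]
      rfl
  have key := slot_aff (A := Af') (K := K) (M := (t, ix K X, ix K Z)) (P := P)
    ((hP.lp (t, ix K X, ix K Z)).mono (A' := Af') fun _ _ h => h.1.1) hP0 hh hPh q
    (L := 2 * ez) (τ := kc * (4 * p.Lm * σ)) (by positivity) (by positivity) hL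
    (V := fun x1 x3 j m => S (2 ^ j * m) j x3 x1 *ᵥ v x1 x3)
    (fun x1 x3 => hS.mart x3 x1 (v x1 x3)) (by
      intro k hk x hx ha
      obtain ⟨ha1, ha2⟩ := ha
      have hkK : k < K := ha1.2.2
      rw [hcor] at ha2
      rw [mem_cb] at hx
      have hx1 : ix K x.2.1 = ix K X := congrArg (fun q : Pt => q.2.1) hx
      have hx2 : ix K x.2.2 = ix K Z := congrArg (fun q : Pt => q.2.2) hx
      have inX : ∀ y ∈ iv k (ix k x.2.1), y ∈ iv K (ix K X) := by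
        intro y hy
        rw [mem_iv] at hy ⊢
        rw [← hx1]
        exact H677.ix_le hk hy
      have inZ : ∀ y ∈ iv k (ix k x.2.2), y ∈ iv K (ix K Z) := by
        intro y hy
        rw [mem_iv] at hy ⊢
        rw [← hx2]
        exact H677.ix_le hk hy
      have h1 : ∀ y1 ∈ iv k (ix k x.2.1), ∀ y3 ∈ iv k (ix k x.2.2),
          (S (2 ^ k * ix k x.1) k y3 y1 *ᵥ v y1 y3) ⬝ᵥ
            (S (2 ^ k * ix k x.1) k y3 y1 *ᵥ v y1 y3) ≤ kc * U.2.1 (y1, y3) ^ 2 := by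
        intro y1 h1 y3 h3
        exact (hcap k hk _ y3 y1 _).trans
          (mul_le_mul_of_nonneg_left (hv y1 (inX y1 h1) y3 (inZ y3 h3)) hkc)
      refine (sum_le_sum fun y1 h1' => sum_le_sum fun y3 h3' => h1 y1 h1' y3 h3').trans ?_
      simp only [← mul_sum]
      have h2 := alive_mass' (a := U.2.1) hb hkK ha2 hLm
      have h5 : A2 K U.2.1 x.2.1 x.2.2 ≤ σ := by
        refine le_trans (le_of_eq ?_) hσ
        exact PL.H990.A2_congr U.2.1 (mem_iv.2 hx1) (mem_iv.2 hx2)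
      have h4 : (0 : ℝ) ≤ 4 ^ k := by positivity
      calc kc * ∑ y1 ∈ iv k (ix k x.2.1), ∑ y3 ∈ iv k (ix k x.2.2), U.2.1 (y1, y3) ^ 2
          ≤ kc * (4 * p.Lm * A2 K U.2.1 x.2.1 x.2.2 * 4 ^ k) :=
            mul_le_mul_of_nonneg_left h2 hkc
        _ ≤ kc * (4 * p.Lm * σ * 4 ^ k) := by
            refine mul_le_mul_of_nonneg_left ?_ hkc
            refine mul_le_mul_of_nonneg_right ?_ h4
            exact mul_le_mul_of_nonneg_left h5 (by positivity)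
        _ = kc * (4 * p.Lm * σ) * 4 ^ k := by ring)
  have hS0 : ∀ (x : Pt), S (2 ^ 0 * x.1) 0 x.2.2 x.2.1 = S x.1 0 x.2.2 x.2.1 := by
    intro x
    rw [pow_zero, one_mul]
  simp only [hS0] at key
  refine le_trans (le_of_eq ?_) key
  refine sum_congr rfl fun k hk => sum_congr rfl fun x _ => ?_
  have hkK : k ≤ K := by
    have := mem_range.1 hk
    omega
  have e0 : S (2 ^ k * ix k x.1) k x.2.2 x.2.1 = S x.1 k x.2.2 x.2.1 :=
    hS.ix0 k hkK _ _ _ _ (H677.ix_two k _)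
  by_cases h1 : fAR o K M2 Af k (cx k x)
  · by_cases h2 : sst p.Lm U.2.1 K (k + b) x.2.1 x.2.2
    · have h3 : ¬ Af' k (cx k x) := fun h => h.2 ((hcor k x).2 h2)
      rw [if_pos h1, if_neg h3]
      have e1 : mC p U K v F2 x.1 (k + b) x.2.2 x.2.1 = 0 := by
        unfold H401.mC H677.fC H677.kF
        rw [if_pos (Or.inr h2), zero_smul]
      rw [e1, mulVec_zero, dotProduct_zero]
    · have h3 : Af' k (cx k x) := ⟨h1, fun h => h2 ((hcor k x).1 h)⟩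
      rw [if_pos h1, if_pos h3, e0]
      have e1 : mC p U K v F2 x.1 (k + b) x.2.2 x.2.1 =
          H677.kF p.Lm U.2.1 K F2 (k + b) (x.1, x.2.1, x.2.2) • v x.2.1 x.2.2 := rfl
      have e2 : Zf k x = H677.kF p.Lm U.2.1 K F2 (k + b) (x.1, x.2.1, x.2.2) := if_pos h1.2.2
      rw [e1, e2, mulVec_smul, smul_dotProduct, dotProduct_smul, smul_eq_mul, smul_eq_mul]
      ring
  · have h3 : ¬ Af' k (cx k x) := fun h => h1 h.1
    rw [if_neg h1, if_neg h3]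

theorem card_rt (M : Pt) : (H677.rt M).card = 3 := by
  unfold H677.rt
  rw [Int.card_Icc]
  omega

theorem ix_neg (k : ℕ) (x : ℤ) : |ix k (-x) + ix k x| ≤ 3 := by
  have d1 := PL.self_mem_iv k (-x)
  have d2 := PL.self_mem_iv k x
  generalize ix k (-x) = a at *
  generalize ix k x = b at *
  unfold PL.iv at *
  rw [mem_Ico] at d1 d2
  have hD : (1 : ℤ) ≤ 2 ^ k := one_le_pow₀ (by norm_num)
  generalize (2 : ℤ) ^ k = D at *
  have hD0 : (0 : ℤ) ≤ D := by omega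
  rw [abs_le]
  constructor
  · by_contra hh
    push Not at hh
    have : D * (a + b) ≤ D * (-4) := mul_le_mul_of_nonneg_left (by omega) hD0
    linarith
  · by_contra hh
    push Not at hh
    have : D * 4 ≤ D * (a + b) := mul_le_mul_of_nonneg_left (by omega) hD0
    linarith

/-- **The births of the cut families with any moving slot.** `kc` the cap, `E` the energy. -/
theorem qB_cut {n : ℕ} {e ez cP : ℝ} {F1 F2 F3 : ℕ → Pt → ℝ} {Q1 Q2 Q3 : ℕ → Pt → Prop}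
    (hB1 : BSl n e cP F1 Q1) (hB2 : BSl n ez cP F2 Q2) (hB3 : BSl n e cP F3 Q3) (hK : K ≤ n)
    (hcP : 0 ≤ cP) (he : 0 ≤ e) (hez : 0 ≤ ez) (hLm : 0 ≤ p.Lm) (s r : ℝ) {x : Pt}
    (g : ℤ → ℤ → ℝ) {u v : ℤ → ℤ → ι → ℝ}
    (hu : ∀ a ∈ iv K (ix K x.1), ∀ y ∈ iv K (ix K x.2.1), u a y ⬝ᵥ u a y ≤ U.1 (a, y) ^ 2)
    (hv : ∀ a ∈ iv K (ix K x.1), ∀ z ∈ iv K (ix K x.2.2), v a z ⬝ᵥ v a z ≤ U.2.1 (a, z) ^ 2)
    {σ : ℝ} (hσu : A2 K U.1 x.1 x.2.1 ≤ σ) (hσv : A2 K U.2.1 x.1 x.2.2 ≤ σ)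
    {S : H677.Sk.Slt ι} (hS : SlM K S) {kc : ℝ} (hkc : 0 ≤ kc)
    (hcap : ∀ j ≤ K, ∀ (x0 z x : ℤ) (w : ι → ℝ),
      (S x0 j z x *ᵥ w) ⬝ᵥ (S x0 j z x *ᵥ w) ≤ kc * (w ⬝ᵥ w)) {E : ℝ}
    (hE : ∀ t ∈ H677.rt (cx K x), ∑ a ∈ cb K (t, ix K x.1, ix K x.2.2),
      ((S a.1 0 a.2.2 a.2.1 *ᵥ v a.2.1 a.2.2) ⬝ᵥ (S a.1 0 a.2.2 a.2.1 *ᵥ v a.2.1 a.2.2)) ≤
        E * 8 ^ K) {h : ℕ} (hh : 1 ≤ h) (hPh : 2 * cPk cP ≤ h) (q : ℕ) :
    H677.Sk.qB K (cx K x) S (cA p s r U K g F1 Q1) (H401.cb p s r U K u F3 Q3)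
      (mC p U K v F2) ≤
      126 * (√(((1 + h * q) * (2 * ez * E) +
        2 * ez * (kc * (4 * p.Lm * σ)) * cPk cP * (1 / 2) ^ q) * 8 ^ K) *
        √(4 * (p.th s r ^ 2) * (4 * e * p.Lm * σ) * (cPk cP * 8 ^ K))) := by
  have hσ0 : 0 ≤ σ := (PL.H315.A2_nonneg K U.1 x.1 x.2.1).trans hσu
  have hP0 : 0 ≤ cPk cP := by
    unfold cPk
    positivity
  have hone : ∀ t ∈ H677.rt (cx K x), ∑ x0 ∈ iv K t, ∑ k ∈ range K, |In K (cx K x)
      (H795.kp (-x0) k) (fun y =>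
        H677.GA (cA p s r U K g F1 Q1 x0) (H401.cb p s r U K u F3 Q3 x0) (mC p U K v F2 x0)
          (S x0) k k y -
        H677.GA (cA p s r U K g F1 Q1 x0) (H401.cb p s r U K u F3 Q3 x0) (mC p U K v F2 x0)
          (S x0) k (k + 1) y)| ≤
      42 * (√(((1 + h * q) * (2 * ez * E) +
        2 * ez * (kc * (4 * p.Lm * σ)) * cPk cP * (1 / 2) ^ q) * 8 ^ K) *
        √(4 * (p.th s r ^ 2) * (4 * e * p.Lm * σ) * (cPk cP * 8 ^ K))) := by
    intro t ht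
    refine kp_births (cx K x) t (c0 := fun x0 => -x0) (fun x0 _ k _ => ix_neg k x0)
      (Af := fun o => cAf p U K Q1 Q2 Q3 o) S
      (fun o _ => cut_agr hB2 hK s r g u v F1 F3 Q1 Q3 o) (P := cPk cP)
      (fun o ho => cut_pack hB1 hB2 hB3 hK ho) (sq_nonneg _) (by positivity) ?_ ?_ ?_
    · intro o _ b' hb' k _ a _ _ w
      exact cA_cap s r g F1 Q1 a.1 hb' _ _ w
    · intro o _ b' hb' k hk a ha hA
      refine cb_mass hB3 hK s r he hLm hu hσu hk hb' _ ?_ hA.2.1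
      rw [mem_cb] at ha
      have h1 : ix K a.2.1 = ix K x.1 := congrArg (fun q : Pt => q.2.1) ha
      rw [mem_iv, ix_ix, Nat.add_sub_cancel' hk.le, h1]
    · intro o ho b' hb'
      have h1 := slot_EV hB2 hK hez hLm hS hkc hcap hv hσv (o := o) (ix K x.2.1) t hP0
        (cut_pack (p := p) (U := U) hB1 hB2 hB3 hK ho) hh hPh q hb'
      refine h1.trans ?_
      simp only [← mul_sum]
      have h2 := hE t ht
      have h3 : (0 : ℝ) ≤ (1 + h * q) * (2 * ez) := by positivity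
      have h4 := mul_le_mul_of_nonneg_left h2 h3
      calc _ = (1 + h * q) * (2 * ez) * ∑ a ∈ cb K (t, ix K x.1, ix K x.2.2),
            ((S a.1 0 a.2.2 a.2.1 *ᵥ v a.2.1 a.2.2) ⬝ᵥ (S a.1 0 a.2.2 a.2.1 *ᵥ v a.2.1 a.2.2)) +
            2 * ez * (kc * (4 * p.Lm * σ)) * cPk cP * (1 / 2) ^ q * 8 ^ K := by ring
        _ ≤ (1 + h * q) * (2 * ez) * (E * 8 ^ K) +
            2 * ez * (kc * (4 * p.Lm * σ)) * cPk cP * (1 / 2) ^ q * 8 ^ K :=
            add_le_add_left h4 _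
        _ = _ := by ring
  unfold H677.Sk.qB
  refine (sum_le_sum hone).trans (le_of_eq ?_)
  rw [sum_const, card_rt, nsmul_eq_mul]
  push_cast
  ring

end fam

end

end Vale.Agent.P141.H460
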