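import Vale.Agent.P141.H460.PBle
import Vale.Agent.P141.H970.SkelG2

/-!
# P141, line (A), flow part: the price of the births of the definite cut families

* `DB` : the definite cut families of `H401.CutData`, `mkDB : MkSt DB`;
* `slg_SlM`, `slg_cap`, `slg_en` : the generations of the slot at class data;
* `num_le` : the numbers of one generation;
* `partF_DB : PartF DB fB`, `cst_fB : CSt fB`.
-/

namespace Vale.Agent.P141.H460

open Finset Matrix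
open Vale.Agent.P141.PL (Pt iv ix cb cx mem_iv mem_cb card_iv card_cb ix_ix)
open Vale.Agent.P141.PL.H315 (Tri A2)
open Vale.Agent.P141.H48 (US ES BSl sst)
open Vale.Agent.P141.H401 (mA mb mC cA Bun PartF MkSt CSt PartX)
open Vale.Agent.P141.H305 (ClsM kapM)
open Vale.Agent.P141.H677 (GT)
open Vale.Agent.P141.H677.Sk (Slt FamA FamV qB fB sl)
open Vale.Agent.P141.H970.SkG (slg kg eg lg kg_pos eg_pos lg_ge PartXg PartRg partF_fB_gen)
open Vale.Agent.P141.H540 (RG)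

noncomputable section

open scoped Classical

set_option linter.unusedSectionVars false

variable {ι : Type} [Fintype ι] [DecidableEq ι]

/-! ### The generations -/

theorem slg_SlM (Al : ℕ → Pt → Prop) (o : ℤ) (K : ℕ) (M : Pt) (sg : ℕ → Pt → ℝ) (l : ℝ)
    (u : ℤ → ℤ → ι → ℝ) (κ : ℕ → ℝ) (γ : ℕ) : SlM K (slg Al o K M sg l u κ γ) := by
  refine ⟨fun j _ x0 y0 z x h => ?_, fun z x w => ?_⟩
  · unfold H970.SkG.slg H540.RG H841.Rm
    refine sum_congr rfl fun i hi => ?_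
    have hi' := (mem_Ico.1 hi).1
    have a0 := H677.ix_le hi' h
    have b0 := H677.ix_le (Nat.le_succ i) a0
    unfold H841.Lm
    rw [b0, show PL.hs (i + 1) x0 = PL.hs (i + 1) y0 by
      unfold PL.hs
      rw [Nat.add_sub_cancel, a0]]
  · exact H540.Rm_mart0 (n := K) _ _ z w

/-- the energy of a slot at the end -/
theorem en_sum {K : ℕ} {S : Slt ι} {t X Z : ℤ} {E σ : ℝ} (hE0 : 0 ≤ E)
    (h : ∀ z, ∀ x1 ∈ iv K (ix K X), ∀ w : ι → ℝ,
      ∑ x0 ∈ iv K t, (S x0 0 z x1 *ᵥ w) ⬝ᵥ (S x0 0 z x1 *ᵥ w) ≤ 2 ^ K * (E * (w ⬝ᵥ w)))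
    {v : ℤ → ℤ → ι → ℝ} {U : ℤ × ℤ → ℝ}
    (hv : ∀ x ∈ iv K (ix K X), ∀ z ∈ iv K (ix K Z), v x z ⬝ᵥ v x z ≤ U (x, z) ^ 2)
    (hσ : A2 K U X Z ≤ σ) :
    ∑ a ∈ cb K (t, ix K X, ix K Z),
      ((S a.1 0 a.2.2 a.2.1 *ᵥ v a.2.1 a.2.2) ⬝ᵥ (S a.1 0 a.2.2 a.2.1 *ᵥ v a.2.1 a.2.2)) ≤
      (E * σ) * 8 ^ K := by
  unfold PL.cb
  rw [sum_product]
  simp only [sum_product]
  rw [sum_comm]
  have h1 : ∀ x1 ∈ iv K (ix K X), ∑ x0 ∈ iv K t, ∑ x3 ∈ iv K (ix K Z),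
      ((S x0 0 x3 x1 *ᵥ v x1 x3) ⬝ᵥ (S x0 0 x3 x1 *ᵥ v x1 x3)) ≤
      ∑ x3 ∈ iv K (ix K Z), 2 ^ K * (E * U (x1, x3) ^ 2) := by
    intro x1 hx1
    rw [sum_comm]
    refine sum_le_sum fun x3 hx3 => (h x3 x1 hx1 (v x1 x3)).trans ?_
    refine mul_le_mul_of_nonneg_left ?_ (by positivity)
    exact mul_le_mul_of_nonneg_left (hv x1 hx1 x3 hx3) hE0
  refine (sum_le_sum h1).trans ?_
  simp only [← mul_sum]
  rw [A2_sq]
  have h8 : (8 : ℝ) ^ K = 2 ^ K * 4 ^ K := by rw [← mul_pow]; norm_num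
  calc (2 : ℝ) ^ K * (E * (4 ^ K * A2 K U X Z)) = (2 ^ K * 4 ^ K * E) * A2 K U X Z := by ring
    _ ≤ (2 ^ K * 4 ^ K * E) * σ := mul_le_mul_of_nonneg_left hσ (by positivity)
    _ = (E * σ) * 8 ^ K := by rw [h8]; ring

/-- **the energy of the generations at class data**, on every vector -/
theorem slg_vec {K : ℕ} {x : Pt} {s r P κ0 : ℝ} {U : Tri} {g : ℤ → ℤ → ℝ}
    {u v : ℤ → ℤ → ι → ℝ} (C : ClsM K x s r P κ0 U g u v) {t l L c e0 : ℝ} (ht : 0 < t)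
    (hr : 1 ≤ r) (hl : 0 < l) (hlr : r * √s ≤ l * (r / t) ^ 2)
    (hm : P / (2 * l) = L / 2 * (t ^ (-c) * (t / r) ^ e0)) (hL : 0 ≤ L)
    {Al : ℕ → Pt → Prop} {o : ℤ} (ho : o = 1 ∨ o = -1) {sg : ℕ → Pt → ℝ}
    (hsg : ∀ k m, |sg k m| ≤ 1) (γ : ℕ) (t0 z x1 : ℤ) (hx1 : x1 ∈ iv K (ix K x.1)) (w : ι → ℝ) :
    ∑ x0 ∈ iv K t0, (slg Al o K (cx K x) sg l u (kg t r 1) γ x0 0 z x1 *ᵥ w) ⬝ᵥ
      (slg Al o K (cx K x) sg l u (kg t r 1) γ x0 0 z x1 *ᵥ w) ≤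
      2 ^ K * (((L + 3780000) * eg c e0 1 t r γ) * (w ⬝ᵥ w)) := by
  have hr0 : 0 < r := by linarith
  have hρ : 0 < r / t := div_pos hr0 ht
  have hκ : ∀ g, 0 < kg t r 1 g := fun g => kg_pos ht hr 1 g
  have hw : 0 ≤ w ⬝ᵥ w := nsq_nonneg w
  have hx : x1 ∈ PL.H315.iv K x.1 := hx1
  have hone : ∀ f : ℤ → ℝ, ∑ t ∈ ({t0} : Finset ℤ), ∑ x0 ∈ iv K t, f x0 =
      ∑ x0 ∈ iv K t0, f x0 := fun f => sum_singleton _ _
  have hmean : ∀ (p : ℤ) (f : ℤ → ℝ), ((2 : ℝ) ^ K)⁻¹ * ∑ y ∈ iv K (ix K p), f y =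
      PL.H315.avg (PL.H315.iv K p) f := by
    intro p f
    unfold PL.H315.avg
    have : ((PL.H315.iv K p).card : ℝ) = 2 ^ K := by
      change ((iv K (ix K p)).card : ℝ) = 2 ^ K
      rw [card_iv]
      push_cast
      rfl
    rw [this]
    rfl
  cases γ with
  | zero =>
    have h0 := H540.RG_end (Al := Al) (o := o) (K := K) (P := cx K x) (sg := sg) (u := u)
      (κ := kg t r 1) hl hsg 0 {t0} z x1 w
    rw [hone] at h0
    refine h0.trans ?_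
    refine mul_le_mul_of_nonneg_left ?_ (by positivity)
    have h1 : w ⬝ᵥ GT u x1 K (cx K x).2.1 *ᵥ w ≤ P * (w ⬝ᵥ w) := by
      rw [H677.GT_form]
      have h2 := C.u_pot x1 hx w
      rw [← hmean] at h2
      exact h2
    have h4 := mul_le_mul_of_nonneg_left h1 (by positivity : (0 : ℝ) ≤ (2 * l)⁻¹)
    have he : 0 ≤ t ^ (-c) * (t / r) ^ e0 :=
      mul_nonneg (Real.rpow_nonneg ht.le _) (Real.rpow_nonneg (by positivity) _)
    refine h4.trans ?_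
    have h5 : (2 * l)⁻¹ * (P * (w ⬝ᵥ w)) = (P / (2 * l)) * (w ⬝ᵥ w) := by
      field_simp
    rw [h5, hm]
    show L / 2 * (t ^ (-c) * (t / r) ^ e0) * (w ⬝ᵥ w) ≤
      (L + 3780000) * (t ^ (-c) * (t / r) ^ e0) * (w ⬝ᵥ w)
    refine mul_le_mul_of_nonneg_right ?_ hw
    exact mul_le_mul_of_nonneg_right (by linarith) he
  | succ γ =>
    have h0 := H540.RG_next (Al := Al) (o := o) (K := K) (P := cx K x) (sg := sg) (u := u)
      (κ := kg t r 1) hl ho hsg hκ γ {t0} z x1 w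
    rw [hone] at h0
    refine h0.trans ?_
    have h1 : (GT u x1 K (cx K x).2.1).trace ≤ r * √s := by
      rw [H677.GT_trace]
      have h2 := C.u_row x1 hx
      rw [← hmean] at h2
      exact h2
    have h2 : (2 * l)⁻¹ * (GT u x1 K (cx K x).2.1).trace ≤ (r / t) ^ 2 / 2 := by
      have h3 := mul_le_mul_of_nonneg_left (h1.trans hlr)
        (by positivity : (0 : ℝ) ≤ (2 * l)⁻¹)
      refine h3.trans (le_of_eq ?_)
      field_simp
    have h6 : (0 : ℝ) < kg t r 1 γ ^ 6 := pow_pos (hκ γ) 6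
    have h5 : 3 * (w ⬝ᵥ w) * (2520000 * (2 ^ K * ((2 * l)⁻¹ *
        (GT u x1 K (cx K x).2.1).trace)) / kg t r 1 γ ^ 6) ≤
        3 * (w ⬝ᵥ w) * (2520000 * (2 ^ K * ((r / t) ^ 2 / 2)) / kg t r 1 γ ^ 6) := by
      refine mul_le_mul_of_nonneg_left ?_ (mul_nonneg (by norm_num) hw)
      refine div_le_div_of_nonneg_right ?_ h6.le
      refine mul_le_mul_of_nonneg_left ?_ (by norm_num)
      exact mul_le_mul_of_nonneg_left h2 (by positivity)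
    refine h5.trans ?_
    have e1 : 3 * (w ⬝ᵥ w) * (2520000 * (2 ^ K * ((r / t) ^ 2 / 2)) / kg t r 1 γ ^ 6) =
        2 ^ K * (3780000 * ((r / t) ^ 2 / kg t r 1 γ ^ 6) * (w ⬝ᵥ w)) := by
      ring
    rw [e1]
    refine mul_le_mul_of_nonneg_left ?_ (by positivity)
    refine mul_le_mul_of_nonneg_right ?_ hw
    show 3780000 * ((r / t) ^ 2 / kg t r 1 γ ^ 6) ≤
      (L + 3780000) * ((r / t) ^ 2 / kg t r 1 γ ^ 6)
    refine mul_le_mul_of_nonneg_right (by linarith) ?_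
    positivity

/-! ### Numbers -/

theorem lam_row' {q : H401.Num} {s r : ℝ} (ht : 0 < q.t) (ht1 : q.t ≤ 1) (he : 0 < q.e0)
    (hr : 1 ≤ r) : r * √s ≤ q.lam s r * (r / q.t) ^ 2 := by
  have hr0 : 0 < r := by linarith
  unfold H401.Num.lam
  have h1 : (1 : ℝ) ≤ q.t ^ (-q.e0) := Real.one_le_rpow_of_pos_of_le_one_of_nonpos ht ht1 (by linarith)
  have h2 : (1 : ℝ) ≤ r ^ q.e0 := Real.one_le_rpow hr he.le
  have e1 : q.t ^ (2 - q.e0) = q.t ^ 2 * q.t ^ (-q.e0) := by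
    rw [show (2 : ℝ) - q.e0 = 2 + -q.e0 by ring, Real.rpow_add ht]
    norm_num
  have e2 : q.t ^ (2 - q.e0) * √s * r ^ q.e0 * (r / q.t) ^ 2 =
      (q.t ^ (-q.e0) * r ^ q.e0 * r) * (r * √s) := by
    rw [e1]
    field_simp
  rw [e2]
  have h3 : (1 : ℝ) ≤ q.t ^ (-q.e0) * r ^ q.e0 * r := by
    have h4 : (1 : ℝ) ≤ q.t ^ (-q.e0) * r ^ q.e0 := by nlinarith
    nlinarith
  exact le_mul_of_one_le_left (by positivity) h3

theorem m_eq' {q : H401.Num} {s r : ℝ} (ht : 0 < q.t) (hs : 0 < s) (hr : 1 ≤ r) :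
    q.L * q.t ^ (2 - q.c) * √s / (2 * q.lam s r) =
      q.L / 2 * (q.t ^ (-q.c) * (q.t / r) ^ q.e0) := by
  have hr0 : 0 < r := by linarith
  have hS : 0 < √s := Real.sqrt_pos.2 hs
  have h1 : 0 < q.t ^ (2 - q.e0) := Real.rpow_pos_of_pos ht _
  have h2 : 0 < r ^ q.e0 := Real.rpow_pos_of_pos hr0 _
  unfold H401.Num.lam
  rw [Real.div_rpow ht.le hr0.le]
  have e1 : q.t ^ (2 - q.c) = q.t ^ (-q.c) * (q.t ^ (2 - q.e0) * q.t ^ q.e0) := by
    rw [← Real.rpow_add ht, ← Real.rpow_add ht]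
    congr 1
    ring
  rw [e1]
  field_simp

/-- a power of two above a number, its exponent a logarithm -/
theorem exists_two_pow {k : ℝ} (hk : 1 ≤ k) :
    ∃ q : ℕ, k ^ 9 ≤ 2 ^ q ∧ (q : ℝ) ≤ 1 + 13 * Real.log k := by
  have hk0 : 0 < k := by linarith
  have h2 : 0 < Real.log 2 := Real.log_pos (by norm_num)
  have h2' : (0.693 : ℝ) < Real.log 2 := by
    have := Real.log_two_gt_d9
    linarith
  have hlk : 0 ≤ Real.log k := Real.log_nonneg hk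
  refine ⟨⌈9 * Real.log k / Real.log 2⌉₊, ?_, ?_⟩
  · have h1 : 9 * Real.log k / Real.log 2 ≤ (⌈9 * Real.log k / Real.log 2⌉₊ : ℝ) := Nat.le_ceil _
    rw [div_le_iff₀ h2] at h1
    have h3 : Real.log (k ^ 9) ≤ Real.log (2 ^ ⌈9 * Real.log k / Real.log 2⌉₊) := by
      rw [Real.log_pow, Real.log_pow]
      push_cast
      linarith
    exact (Real.log_le_log_iff (by positivity) (by positivity)).1 h3
  · have h1 := (Nat.ceil_lt_add_one (div_nonneg (by positivity : (0 : ℝ) ≤ 9 * Real.log k) h2.le)).le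
    refine h1.trans ?_
    have h3 : 9 * Real.log k / Real.log 2 ≤ 13 * Real.log k := by
      rw [div_le_iff₀ h2]
      nlinarith
    linarith

/-- the energy of a generation is at least a power of its cap -/
theorem eg_ge {t r c e0 : ℝ} (ht : 0 < t) (ht1 : t ≤ 1) (hr : 1 ≤ r) (hc : 0 ≤ c)
    (he1 : e0 ≤ 1) : ∀ γ, ((kg t r 1 γ) ^ 6)⁻¹ ≤ eg c e0 1 t r γ := by
  have hr0 : 0 < r := by linarith
  have hρ : 1 ≤ r / t := by
    rw [le_div_iff₀ ht]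
    linarith
  have hρ0 : 0 < r / t := by linarith
  have hk : ∀ γ, 1 ≤ kg t r 1 γ := fun γ => by
    unfold H970.SkG.kg
    rw [Real.rpow_one]
    have : (1 : ℝ) ≤ 2 ^ γ := one_le_pow₀ (by norm_num)
    nlinarith
  intro γ
  cases γ with
  | zero =>
    show ((kg t r 1 0) ^ 6)⁻¹ ≤ t ^ (-c) * (t / r) ^ e0
    have e1 : kg t r 1 0 = r / t := by
      unfold H970.SkG.kg
      rw [Real.rpow_one, pow_zero, mul_one]
    rw [e1]
    have h1 : (1 : ℝ) ≤ t ^ (-c) := Real.one_le_rpow_of_pos_of_le_one_of_nonpos ht ht1 (by linarith)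
    have h2 : (t / r) ^ (1 : ℝ) ≤ (t / r) ^ e0 := by
      refine Real.rpow_le_rpow_of_exponent_ge (div_pos ht hr0) ?_ he1
      rw [div_le_one hr0]
      linarith
    rw [Real.rpow_one] at h2
    have h3 : ((r / t) ^ 6)⁻¹ ≤ t / r := by
      have h4 : (r / t) ≤ (r / t) ^ 6 := le_self_pow₀ hρ (by norm_num)
      have h5 : ((r / t) ^ 6)⁻¹ ≤ (r / t)⁻¹ := inv_anti₀ hρ0 h4
      rwa [inv_div] at h5
    have h6 : 0 ≤ (t / r) ^ e0 := Real.rpow_nonneg (by positivity) _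
    calc ((r / t) ^ 6)⁻¹ ≤ t / r := h3
      _ ≤ (t / r) ^ e0 := h2
      _ ≤ t ^ (-c) * (t / r) ^ e0 := le_mul_of_one_le_left h6 h1
  | succ γ =>
    show ((kg t r 1 (γ + 1)) ^ 6)⁻¹ ≤ (r / t) ^ 2 / (kg t r 1 γ) ^ 6
    have hk0 : 0 < kg t r 1 γ := by linarith [hk γ]
    have e1 : kg t r 1 (γ + 1) = 2 * kg t r 1 γ := by
      unfold H970.SkG.kg
      rw [pow_succ]
      ring
    have h6 : 0 < kg t r 1 γ ^ 6 := by positivity
    rw [e1, mul_pow, mul_inv, div_eq_mul_inv]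
    refine mul_le_mul_of_nonneg_right ?_ (by positivity)
    have h7 : (1 : ℝ) ≤ (r / t) ^ 2 := one_le_pow₀ hρ
    have h8 : ((2 : ℝ) ^ 6)⁻¹ ≤ 1 := by norm_num
    linarith

theorem sqrt_step {X Y C0 T : ℝ} (hX : 0 ≤ X) (hC : 0 ≤ C0) (hT : 0 ≤ T)
    (h : X * Y ≤ C0 * T ^ 2) : 126 * (√X * √Y) ≤ 126 * √C0 * T := by
  rw [← Real.sqrt_mul hX]
  have h9 := Real.sqrt_le_sqrt h
  rw [Real.sqrt_mul hC, Real.sqrt_sq hT] at h9
  linarith

theorem xy_le {X Y Q0 ez s S E G F e Pk a b f z w : ℝ} (hX : X ≤ 26 * Q0 * ez * s * E * G * F)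
    (hY : Y ≤ 16 * e * Pk * (a ^ 2 * f ^ 2 * S) * s * F) (hY0 : 0 ≤ Y) (hQ : 0 ≤ Q0) (hez : 0 ≤ ez)
    (he : 0 ≤ e) (hPk : 0 ≤ Pk) (hs : 0 ≤ s) (hS : 0 ≤ S) (hE : 0 ≤ E) (hG : 1 ≤ G) (hF : 0 ≤ F)
    (hb2 : b ^ 2 = s ^ 2 * S) (hE2 : w ^ 2 = E) (hez2 : z ^ 2 = ez) :
    X * Y ≤ (416 * Q0 * e * Pk) * ((a * b * z * F) * f * (G ^ 1 * w)) ^ 2 := by
  have hG0 : 0 ≤ G := by linarith
  have h0 : 0 ≤ 26 * Q0 * ez * s * E * G * F := by positivity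
  refine (mul_le_mul hX hY hY0 h0).trans ?_
  have h1 : (416 * Q0 * e * Pk) * ((a * b * z * F) * f * (G ^ 1 * w)) ^ 2 =
      (416 * Q0 * e * Pk) * (a ^ 2 * (s ^ 2 * S) * ez * F ^ 2 * f ^ 2 * E) * G ^ 2 := by
    rw [← hb2, ← hE2, ← hez2]
    ring
  have h2 : 26 * Q0 * ez * s * E * G * F * (16 * e * Pk * (a ^ 2 * f ^ 2 * S) * s * F) =
      (416 * Q0 * e * Pk) * (a ^ 2 * (s ^ 2 * S) * ez * F ^ 2 * f ^ 2 * E) * G := by ring
  rw [h1, h2]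
  refine mul_le_mul_of_nonneg_left ?_ (by positivity)
  nlinarith

/-- **the numbers of one generation** -/
theorem num_le {t r s ez e Lm th Ce Pk c d e0 k3 d0 : ℝ} {h : ℕ} (ht : 0 < t) (ht1 : t ≤ 1)
    (hr : 1 ≤ r) (hs : 0 < s) (hez : 0 ≤ ez) (he : 0 ≤ e) (hCe : 0 ≤ Ce) (hPk : 0 ≤ Pk)
    (hc : 0 ≤ c) (he1 : e0 ≤ 1) (hd : 0 < d) (hdd : d ≤ d0) (hd1 : d ≤ 1)
    (hLm : Lm = t ^ (-d)) (hth : th ^ 2 = t ^ (2 - 2 * k3) * √s * r ^ (2 * k3))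
    (γ K : ℕ) : ∃ q : ℕ,
    126 * (√(((1 + h * q) * (2 * ez * ((Ce * eg c e0 1 t r γ) * s)) +
        2 * ez * ((kg t r 1 γ + 1) ^ 2 * (4 * Lm * s)) * Pk * (1 / 2) ^ q) * 8 ^ K) *
        √(4 * (th ^ 2) * (4 * e * Lm * s) * (Pk * 8 ^ K))) ≤
    126 * √(416 * ((1 + h) * Ce + 16 * Pk) * e * Pk) *
      (t ^ (1 - (k3 + d0 / 2)) * s ^ (5 / 4 : ℝ) * √ez * 8 ^ K) * r ^ (k3 + d0 / 2) *
        (lg t r γ ^ 1 * eg c e0 1 t r γ ^ (1 / 2 : ℝ)) := by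
  have hr0 : 0 < r := by linarith
  have hρ : 1 ≤ r / t := by
    rw [le_div_iff₀ ht]
    linarith
  have hρ0 : 0 < r / t := by linarith
  set k : ℝ := kg t r 1 γ with hk
  have hkρ : r / t ≤ k := by
    rw [hk]
    unfold H970.SkG.kg
    rw [Real.rpow_one]
    have : (1 : ℝ) ≤ 2 ^ γ := one_le_pow₀ (by norm_num)
    nlinarith
  have hk1 : 1 ≤ k := hρ.trans hkρ
  have hk0 : 0 < k := by linarith
  set E : ℝ := eg c e0 1 t r γ with hE
  have hE0 : 0 < E := eg_pos ht hr c e0 1 γ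
  have hEk : (k ^ 6)⁻¹ ≤ E := eg_ge ht ht1 hr hc he1 γ
  obtain ⟨q, hq1, hq2⟩ := exists_two_pow hk1
  refine ⟨q, ?_⟩
  have hlog : Real.log k ≤ Real.log (r / t) + γ := by
    rw [hk]
    unfold H970.SkG.kg
    rw [Real.rpow_one, Real.log_mul hρ0.ne' (by positivity), Real.log_pow]
    have h14 : Real.log 2 ≤ 1 := by
      have := Real.log_two_lt_d9
      linarith
    have h15 : (0 : ℝ) ≤ (γ : ℝ) := Nat.cast_nonneg _
    nlinarith
  set G : ℝ := lg t r γ with hG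
  have hG1 : 1 ≤ G := lg_ge ht ht1 hr γ
  have hqG : 1 + (q : ℝ) ≤ 13 * G := by
    rw [hG]
    unfold H970.SkG.lg
    linarith
  have hLm0 : 0 < Lm := by
    rw [hLm]
    exact Real.rpow_pos_of_pos ht _
  have hLk : Lm ≤ k := by
    rw [hLm]
    have h1 : t ^ (-d) ≤ t ^ (-1 : ℝ) := Real.rpow_le_rpow_of_exponent_ge ht ht1 (by linarith)
    have h2 : t ^ (-1 : ℝ) ≤ r / t := by
      rw [Real.rpow_neg_one, div_eq_mul_inv]
      exact le_mul_of_one_le_left (by positivity) hr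
    linarith
  -- the tail
  have htail : (k + 1) ^ 2 * (4 * Lm * s) * (1 / 2) ^ q ≤ 16 * (E * s) := by
    have h1 : (k + 1) ^ 2 ≤ 4 * k ^ 2 := by nlinarith
    have h2 : (1 / 2 : ℝ) ^ q ≤ (k ^ 9)⁻¹ := by
      rw [one_div, inv_pow]
      exact inv_anti₀ (by positivity) hq1
    have h3 : (k + 1) ^ 2 * (4 * Lm * s) ≤ 4 * k ^ 2 * (4 * k * s) := by
      refine mul_le_mul h1 ?_ (by positivity) (by positivity)
      exact mul_le_mul_of_nonneg_right (by linarith) hs.le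
    calc (k + 1) ^ 2 * (4 * Lm * s) * (1 / 2) ^ q
        ≤ 4 * k ^ 2 * (4 * k * s) * (k ^ 9)⁻¹ :=
          mul_le_mul h3 h2 (by positivity) (by positivity)
      _ = 16 * ((k ^ 6)⁻¹ * s) := by
          field_simp
          ring
      _ ≤ 16 * (E * s) := by
          refine mul_le_mul_of_nonneg_left ?_ (by norm_num)
          exact mul_le_mul_of_nonneg_right hEk hs.le
  set Q0 : ℝ := (1 + h) * Ce + 16 * Pk with hQ0
  have hQ00 : 0 ≤ Q0 := by positivity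
  have h8 : (0 : ℝ) < 8 ^ K := by positivity
  have hX : ((1 + h * q) * (2 * ez * ((Ce * E) * s)) +
        2 * ez * ((k + 1) ^ 2 * (4 * Lm * s)) * Pk * (1 / 2) ^ q) * 8 ^ K ≤
      26 * Q0 * ez * s * E * G * 8 ^ K := by
    refine mul_le_mul_of_nonneg_right ?_ h8.le
    have h1 : (1 + h * (q : ℝ)) ≤ (1 + h) * (13 * G) := by
      have hh : (0 : ℝ) ≤ h := Nat.cast_nonneg _
      have hq0 : (0 : ℝ) ≤ q := Nat.cast_nonneg _
      nlinarith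
    have h2 : (1 + h * (q : ℝ)) * (2 * ez * ((Ce * E) * s)) ≤
        (1 + h) * (13 * G) * (2 * ez * ((Ce * E) * s)) :=
      mul_le_mul_of_nonneg_right h1 (by positivity)
    have h3 : 2 * ez * ((k + 1) ^ 2 * (4 * Lm * s)) * Pk * (1 / 2) ^ q ≤
        2 * ez * Pk * (16 * (E * s)) := by
      have h4 : 2 * ez * ((k + 1) ^ 2 * (4 * Lm * s)) * Pk * (1 / 2) ^ q =
          2 * ez * Pk * ((k + 1) ^ 2 * (4 * Lm * s) * (1 / 2) ^ q) := by ring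
      rw [h4]
      exact mul_le_mul_of_nonneg_left htail (by positivity)
    have h5 : 2 * ez * Pk * (16 * (E * s)) ≤ 2 * ez * Pk * (16 * (E * s)) * (13 * G) := by
      refine le_mul_of_one_le_right (by positivity) ?_
      linarith
    calc _ ≤ (1 + h) * (13 * G) * (2 * ez * ((Ce * E) * s)) +
          2 * ez * Pk * (16 * (E * s)) * (13 * G) := by linarith
      _ = 26 * Q0 * ez * s * E * G := by
          rw [hQ0]
          ring
  have hX0 : 0 ≤ ((1 + h * q) * (2 * ez * ((Ce * E) * s)) +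
        2 * ez * ((k + 1) ^ 2 * (4 * Lm * s)) * Pk * (1 / 2) ^ q) * 8 ^ K := by
    positivity
  -- squares
  set a : ℝ := t ^ (1 - (k3 + d0 / 2)) with ha
  set b : ℝ := s ^ (5 / 4 : ℝ) with hb
  set f : ℝ := r ^ (k3 + d0 / 2) with hf
  have ha0 : 0 ≤ a := Real.rpow_nonneg ht.le _
  have hb0 : 0 ≤ b := Real.rpow_nonneg hs.le _
  have hf0 : 0 ≤ f := Real.rpow_nonneg hr0.le _
  have hb2 : b ^ 2 = s ^ 2 * √s := by
    rw [hb, ← Real.rpow_natCast (s ^ (5 / 4 : ℝ)), ← Real.rpow_mul hs.le, Real.sqrt_eq_rpow,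
      ← Real.rpow_natCast s 2, ← Real.rpow_add hs]
    norm_num
  have hE2 : (E ^ (1 / 2 : ℝ)) ^ 2 = E := by
    rw [← Real.sqrt_eq_rpow, Real.sq_sqrt hE0.le]
  have hez2 : √ez ^ 2 = ez := Real.sq_sqrt hez
  have hta : t ^ (2 - 2 * k3) * Lm ≤ a ^ 2 := by
    rw [ha, hLm, ← Real.rpow_natCast (t ^ (1 - (k3 + d0 / 2))), ← Real.rpow_mul ht.le,
      ← Real.rpow_add ht]
    refine Real.rpow_le_rpow_of_exponent_ge ht ht1 ?_
    push_cast
    linarith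
  have hrf : r ^ (2 * k3) ≤ f ^ 2 := by
    rw [hf, ← Real.rpow_natCast (r ^ (k3 + d0 / 2)), ← Real.rpow_mul hr0.le]
    refine Real.rpow_le_rpow_of_exponent_le hr ?_
    push_cast
    linarith
  have hY : 4 * (th ^ 2) * (4 * e * Lm * s) * (Pk * 8 ^ K) ≤
      16 * e * Pk * (a ^ 2 * f ^ 2 * √s) * s * 8 ^ K := by
    rw [hth]
    have h1 : t ^ (2 - 2 * k3) * Lm * (√s * r ^ (2 * k3)) ≤ a ^ 2 * (√s * f ^ 2) := by
      refine mul_le_mul hta ?_ ?_ (sq_nonneg _)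
      · exact mul_le_mul_of_nonneg_left hrf (Real.sqrt_nonneg _)
      · exact mul_nonneg (Real.sqrt_nonneg _) (Real.rpow_nonneg hr0.le _)
    have h2 : (0 : ℝ) ≤ 16 * e * Pk * s * 8 ^ K := by positivity
    have h3 := mul_le_mul_of_nonneg_left h1 h2
    calc _ = 16 * e * Pk * s * 8 ^ K * (t ^ (2 - 2 * k3) * Lm * (√s * r ^ (2 * k3))) := by ring
      _ ≤ 16 * e * Pk * s * 8 ^ K * (a ^ 2 * (√s * f ^ 2)) := h3
      _ = _ := by ring
  have hT0 : 0 ≤ (a * b * √ez * 8 ^ K) * f * (G ^ 1 * E ^ (1 / 2 : ℝ)) := by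
    have : 0 ≤ E ^ (1 / 2 : ℝ) := Real.rpow_nonneg hE0.le _
    have hG0 : 0 ≤ G := by linarith
    have : 0 ≤ √ez := Real.sqrt_nonneg _
    positivity
  have hY0 : 0 ≤ 4 * (th ^ 2) * (4 * e * Lm * s) * (Pk * 8 ^ K) := by positivity
  have hfin := sqrt_step hX0 (by positivity : (0 : ℝ) ≤ 416 * Q0 * e * Pk) hT0
    (xy_le hX hY hY0 hQ00 hez he hPk hs.le (Real.sqrt_nonneg s) hE0.le hG1 h8.le hb2 hE2 hez2)
  refine hfin.trans (le_of_eq ?_)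
  ring

/-! ### The price -/

/-- **The bundle**: the definite cut families. -/
def DB : Bun := fun _ _ _ p n ez F1 F2 F3 _ K _ s r U g u v A b C =>
  ∃ Q1 Q2 Q3 : ℕ → Pt → Prop, BSl n p.e p.cP F1 Q1 ∧ BSl n ez p.cP F2 Q2 ∧
    BSl n p.e p.cP F3 Q3 ∧ A = cA p s r U K g F1 Q1 ∧ b = H401.cb p s r U K u F3 Q3 ∧
    C = mC p U K v F2

theorem mkDB : MkSt DB := by
  unfold MkSt H401.PartQ H401.PartY
  intro a _ _
  refine ⟨1, one_pos, fun e0 _ _ => ⟨1, one_pos, fun k8 _ _ => ⟨1, one_pos, fun k3 _ _ => ?_⟩⟩⟩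
  refine ⟨1, 1, 1, 1, one_pos, one_pos, one_pos, one_pos, fun c _ _ d _ _ Kt e cP L _ _ _ _ =>
    ⟨1, le_rfl, 0, le_rfl, ?_⟩⟩
  intro t _ _ n ez F1 F2 F3 _ _ _ o _ K _ x ι _ _ s r U g u v _ _ _ Q1 Q2 Q3 q1 q2 q3
  exact ⟨Q1, Q2, Q3, q1, q2, q3, rfl, rfl, rfl⟩

/-- **The price of the births of one generation.** -/
theorem partRg_qB : PartRg 1 (1 / 2) 1 DB fun _ι _ _ _o K M R A b C => qB K M R A b C := by
  intro a ha ha1
  refine ⟨1, one_pos, fun e0 he0 he0' => ⟨1, one_pos, fun k8 hk8 hk8' => ⟨e0 / 16, by positivity,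
    fun k3 hk3 hk3' => ?_⟩⟩⟩
  refine ⟨k3 + (e0 / 16) / 2, 1, e0 / 16, by linarith, one_pos, by positivity,
    fun c hc hcc d hd hdd Kt e cP L hK he hcP hL CD hCD => ?_⟩
  set h : ℕ := ⌈2 * cPk cP⌉₊ + 1 with hh
  have hPk : 0 ≤ cPk cP := by
    unfold cPk
    positivity
  have hPh : 2 * cPk cP ≤ (h : ℝ) := by
    rw [hh]
    push_cast
    have := Nat.le_ceil (2 * cPk cP)
    linarith
  refine ⟨126 * √(416 * ((1 + h) * (L + 3780000) + 16 * cPk cP) * e * cPk cP), by positivity, ?_⟩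
  intro t ht ht1 n ez F1 F2 F3 h1 h3 h2 o ho K hKn x ι _ _ s r U g u v hs hr hcls γ hγ A b C hD sg
    hsg
  obtain ⟨Q1, Q2, Q3, q1, q2, q3, rfl, rfl, rfl⟩ := hD
  set p : H401.Num := ⟨a, e0, k8, k3, c, d, Kt, e, cP, L, CD, t⟩ with hp
  have hl : 0 < p.lam s r := H401.Num.lam_pos (p := p) ht hs hr
  have hm := m_eq' (q := p) (s := s) (r := r) ht hs hr
  have hlr := lam_row' (q := p) (s := s) ht ht1 he0 hr
  have hez : 0 ≤ ez := h2.1
  have hd1 : d ≤ 1 := by linarith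
  obtain ⟨q, hq⟩ := num_le (t := t) (r := r) (s := s) (ez := ez) (e := e) (Lm := p.Lm)
    (th := p.th s r) (Ce := L + 3780000) (Pk := cPk cP) (c := c) (d := d) (e0 := e0) (k3 := k3)
    (d0 := e0 / 16) (h := h) ht ht1 hr hs hez (by linarith) (by linarith) hPk hc he0' hd hdd hd1
    rfl (H401.Num.th_sq (p := p) ht hs hr) γ K
  refine le_trans ?_ hq
  have hE0 : 0 ≤ (L + 3780000) * eg c e0 1 t r γ :=
    mul_nonneg (by linarith) (eg_pos ht hr c e0 1 γ).le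
  exact qB_cut (p := p) q1 q2 q3 hKn hcP (by linarith) hez
    (Real.rpow_pos_of_pos ht _).le s r g
    (fun a' ha' y hy => hcls.u_le a' ha' y hy) (fun a' ha' z hz => hcls.v_le a' ha' z hz)
    hcls.U_u2 hcls.U_v2 (slg_SlM (p.al U K) o K (cx K x) sg (p.lam s r) u (kg t r 1) γ)
    (kc := (kg t r 1 γ + 1) ^ 2) (by positivity)
    (fun j hj x0 z x1 w => H540.RG_cap hl ho hsg (fun g' => kg_pos ht hr 1 g') γ hj x0 z x1 w)
    (E := ((L + 3780000) * eg c e0 1 t r γ) * s)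
    (fun t0 _ => en_sum hE0 (fun z x1 hx1 w => slg_vec hcls ht hr hl hlr hm (by linarith) ho hsg γ
      t0 z x1 hx1 w) (fun a' ha' z hz => hcls.v_le a' ha' z hz) hcls.U_v2)
    (by omega) hPh q

/-- **The price of the births.** -/
theorem partF_DB : PartF DB fB := partF_fB_gen (by norm_num) le_rfl partRg_qB

/-- **The price of the births of the definite cut families.** -/
theorem cst_fB : CSt fB := CSt.of_mk mkDB partF_DB

end

end Vale.Agent.P141.H460
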