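import Vale.Agent.P141.H460.AffIn
import Vale.Agent.P141.H677.Fam

/-!
# P141, line (A): the births of the functions in the Abel line, arbitrary families

Letters of `H677.GA`: `A x0 k z y`, `b x0 k x y`, `C x0 k z x`, slot `R x0 k z x`.

* `fam_births` : `∑ |In (p k) (GA k k - GA k (k + 1))|` over the points `x0` of a cell at most
  `2 √EV √Ew`, `EV`, `Ew` bounds of the energies of `R k C (k + b)` and `qK` at the affected nodes;
* `qK_cell`, `qK_aff` : `Ew = κ β P 8 ^ N` from the cap `κ` of `A` and the mass `β` of `b` at the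
  affected nodes;
* `RA_RT`, `fC_slot` : `EV` from `GF_slot` for `C = fC v F2`, `R` the slot of `H677.TF_eq`.
-/

namespace Vale.Agent.P141.H460

open Finset Matrix
open Vale.Agent.P141.PL (Pt iv ix cb cx mem_iv mem_cb card_iv card_cb ix_ix)
open Vale.Agent.P141.H352 (In p)
open Vale.Agent.P141.H103 (qK)

noncomputable section

open scoped Classical

/-! ### Packing -/

/-- local packing in every cell -/
def GPack (A : ℕ → Pt → Prop) (K : ℕ) (P : ℝ) : Prop :=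
  ∀ k ≤ K, ∀ m : Pt, ∑ y ∈ cb k m, ∑ j ∈ range (k + 1),
    (if A j (cx j y) then (1 : ℝ) else 0) ≤ P * 8 ^ k

theorem GPack.lp {A : ℕ → Pt → Prop} {K : ℕ} {P : ℝ} (h : GPack A K P) (M : Pt) :
    LPack A K M P := fun k hk x _ _ => h k hk (cx k x)

theorem GPack.mono {A A' : ℕ → Pt → Prop} {K : ℕ} {P : ℝ} (h : GPack A K P)
    (hA : ∀ k m, A' k m → A k m) : GPack A' K P := by
  intro k hk m
  refine le_trans (sum_le_sum fun y _ => sum_le_sum fun j _ => ?_) (h k hk m)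
  split_ifs with h1 h2
  · exact le_rfl
  · exact absurd (hA _ _ h1) h2
  · exact zero_le_one
  · exact le_rfl

theorem GPack.or {A A' : ℕ → Pt → Prop} {K : ℕ} {P P' : ℝ} (h : GPack A K P)
    (h' : GPack A' K P') : GPack (fun k m => A k m ∨ A' k m) K (P + P') := by
  intro k hk m
  have g1 := h k hk m
  have g2 := h' k hk m
  rw [add_mul]
  refine le_trans ?_ (add_le_add g1 g2)
  rw [← sum_add_distrib]
  refine sum_le_sum fun y _ => ?_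
  rw [← sum_add_distrib]
  refine sum_le_sum fun j _ => ?_
  by_cases a1 : A j (cx j y) <;> by_cases a2 : A' j (cx j y) <;> simp [a1, a2]

/-- the scale `0` -/
theorem gpack_zero (K : ℕ) : GPack (fun k _ => k = 0) K 1 := by
  intro k _ m
  refine le_of_eq_of_le (sum_congr rfl (g := fun _ => (1 : ℝ)) fun y _ => ?_) ?_
  · exact (sum_eq_single_of_mem 0 (mem_range.2 (Nat.succ_pos k))
      (fun j _ hj => if_neg hj)).trans (if_pos rfl)
  · rw [sum_const, card_cb, nsmul_eq_mul]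
    push_cast
    linarith

theorem gpack_aff {n : ℕ} {Q1 Q2 Q3 : ℕ → Pt → Prop} {c1 c2 c3 : ℝ} (h1 : QPack n Q1 c1)
    (h2 : QPack n Q2 c2) (h3 : QPack n Q3 c3) {o : ℤ} (ho : o = 1 ∨ o = -1) {K : ℕ} (hK : K ≤ n) :
    GPack (nAff o Q1 Q2 Q3) K (3 * c1 + (c2 + 3 * c3)) := by
  have g1 : GPack (nA1 o Q1) K (3 * c1) := fun k hk m => pack1 h1 ho (hk.trans hK) m
  have g2 : GPack Q2 K c2 := fun k hk m => pack2 h2 (hk.trans hK) m
  have g3 : GPack (nA3 o Q3) K (3 * c3) := fun k hk m => pack3 h3 ho (hk.trans hK) m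
  exact (g1.or (g2.or g3)).mono fun _ _ h => h

/-! ### The births -/

section fam

variable {κ : Type*} [Fintype κ]

/-- affected nodes below the top, inside the root of `y` -/
def fAR (o : ℤ) (N : ℕ) (M2 : ℤ) (Af : ℕ → Pt → Prop) (k : ℕ) (m : Pt) : Prop :=
  Af k m ∧ o - 2 - m.1 - m.2.1 - m.2.2 ∈ iv (N - k) M2 ∧ k < N

/-- the tied cell of `y` of a point `(x0, x1, x3)` -/
def tc (o : ℤ) (k : ℕ) (x : Pt) : ℤ := o - 2 - ix k x.1 - ix k x.2.1 - ix k x.2.2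

/-- the families do not change off the affected nodes -/
def FAgr (o : ℤ) (N : ℕ) (Af : ℕ → Pt → Prop) (A : ℤ → ℕ → ℤ → ℤ → ℝ)
    (b C : ℤ → ℕ → ℤ → ℤ → κ → ℝ) : Prop :=
  ∀ k < N, ∀ x : Pt, ¬ Af k (cx k x) → H677.Agr (A x.1 k) (A x.1 (k + 1)) (b x.1 k)
    (b x.1 (k + 1)) (C x.1 k) (C x.1 (k + 1)) k (ix k x.2.2, tc o k x, ix k x.2.1)

theorem GA_cell {o : ℤ} (A : ℤ → ℕ → ℤ → ℤ → ℝ) (b C : ℤ → ℕ → ℤ → ℤ → κ → ℝ)
    (R : ℤ → ℕ → ℤ → ℤ → Matrix κ κ ℝ) (x0 x1 x3 : ℤ) (k b' : ℕ) :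
    (2 ^ k : ℝ)⁻¹ * ∑ x2 ∈ iv k (o - 2 - ix k x0 - ix k x1 - ix k x3),
      H677.GA (A x0) (b x0) (C x0) (R x0) k b' (x1, x2, x3) =
      qK (A x0 b') (b x0 b') x3 x1 k (tc o k (x0, x1, x3)) ⬝ᵥ
        R x0 k x3 x1 *ᵥ C x0 b' x3 x1 := by
  unfold H677.GA H103.qK tc
  simp only
  rw [smul_dotProduct, sum_dotProduct, smul_eq_mul]
  congr 1
  exact sum_congr rfl fun x2 _ => by rw [smul_dotProduct, smul_eq_mul]

/-- **The births of the functions, families.** -/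
theorem fam_le {o : ℤ} {N : ℕ} (M : Pt) (t : ℤ) {Af : ℕ → Pt → Prop}
    {A : ℤ → ℕ → ℤ → ℤ → ℝ} {b C : ℤ → ℕ → ℤ → ℤ → κ → ℝ}
    (R : ℤ → ℕ → ℤ → ℤ → Matrix κ κ ℝ) (h : FAgr o N Af A b C) :
    ∑ x0 ∈ iv N t, ∑ k ∈ range N, |In N M (p k (o - 2 - ix k x0)) (fun y =>
        H677.GA (A x0) (b x0) (C x0) (R x0) k k y -
          H677.GA (A x0) (b x0) (C x0) (R x0) k (k + 1) y)| ≤
      ∑ b' ∈ range 2, ∑ k ∈ range (N + 1), ∑ x ∈ cb N (t, M.1, M.2.2),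
        (if fAR o N M.2.1 Af k (cx k x) then
          |qK (A x.1 (k + b')) (b x.1 (k + b')) x.2.2 x.2.1 k (tc o k x) ⬝ᵥ
            R x.1 k x.2.2 x.2.1 *ᵥ C x.1 (k + b') x.2.2 x.2.1| else 0) := by
  have hnn : ∀ (b' k : ℕ) (x : Pt), (0 : ℝ) ≤ (if fAR o N M.2.1 Af k (cx k x) then
      |qK (A x.1 (k + b')) (b x.1 (k + b')) x.2.2 x.2.1 k (tc o k x) ⬝ᵥ
            R x.1 k x.2.2 x.2.1 *ᵥ C x.1 (k + b') x.2.2 x.2.1| else 0) := by
    intro b' k x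
    split_ifs
    · exact abs_nonneg _
    · exact le_rfl
  have hpt : ∀ k ∈ range N, ∀ x0 ∈ iv N t, |In N M (p k (o - 2 - ix k x0)) (fun y =>
        H677.GA (A x0) (b x0) (C x0) (R x0) k k y -
          H677.GA (A x0) (b x0) (C x0) (R x0) k (k + 1) y)| ≤
      ∑ x1 ∈ iv N M.1, ∑ x3 ∈ iv N M.2.2, ∑ b' ∈ range 2,
        (if fAR o N M.2.1 Af k (cx k (x0, x1, x3)) then
          |qK (A x0 (k + b')) (b x0 (k + b')) x3 x1 k (tc o k (x0, x1, x3)) ⬝ᵥ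
            R x0 k x3 x1 *ᵥ C x0 (k + b') x3 x1| else 0) := by
    intro k hk x0 _
    have hk' := mem_range.1 hk
    rw [In_tie hk'.le]
    refine (abs_sum_le_sum_abs _ _).trans (sum_le_sum fun x1 _ => ?_)
    refine (abs_sum_le_sum_abs _ _).trans (sum_le_sum fun x3 _ => ?_)
    by_cases hr : o - 2 - ix k x0 - ix k x1 - ix k x3 ∈ iv (N - k) M.2.1
    · rw [if_pos hr]
      by_cases ha : Af k (cx k (x0, x1, x3))
      · have hA : fAR o N M.2.1 Af k (cx k (x0, x1, x3)) := ⟨ha, hr, hk'⟩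
        simp only [if_pos hA]
        rw [sum_sub_distrib, mul_sub, GA_cell A b C R x0 x1 x3 k (k + 1),
          GA_cell A b C R x0 x1 x3 k k, sum_range_succ, sum_range_succ, sum_range_zero, zero_add,
          Nat.add_zero]
        exact abs_sub _ _
      · have hz : ∑ x2 ∈ iv k (o - 2 - ix k x0 - ix k x1 - ix k x3),
            (H677.GA (A x0) (b x0) (C x0) (R x0) k k (x1, x2, x3) -
              H677.GA (A x0) (b x0) (C x0) (R x0) k (k + 1) (x1, x2, x3)) = 0 := by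
          refine sum_eq_zero fun x2 hx2 => ?_
          obtain ⟨a1, a2, a3⟩ := h k hk' (x0, x1, x3) ha
          unfold H677.GA
          simp only
          have e1 := a1 x3 (PL.self_mem_iv k x3) x2 hx2
          have e2 := a2 x1 (PL.self_mem_iv k x1) x2 hx2
          have e3 := a3 x3 (PL.self_mem_iv k x3) x1 (PL.self_mem_iv k x1)
          simp only at e1 e2 e3
          rw [e1, e2, e3, sub_self]
        rw [hz, mul_zero, abs_zero]
        exact sum_nonneg fun b' _ => hnn b' k (x0, x1, x3)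
    · rw [if_neg hr, abs_zero]
      exact sum_nonneg fun b' _ => hnn b' k (x0, x1, x3)
  refine (sum_le_sum fun x0 hx0 => sum_le_sum fun k hk => hpt k hk x0 hx0).trans ?_
  have e3 : ∀ b' ∈ range 2, ∑ x0 ∈ iv N t, ∑ k ∈ range N, ∑ x1 ∈ iv N M.1, ∑ x3 ∈ iv N M.2.2,
      (if fAR o N M.2.1 Af k (cx k (x0, x1, x3)) then
          |qK (A x0 (k + b')) (b x0 (k + b')) x3 x1 k (tc o k (x0, x1, x3)) ⬝ᵥ
            R x0 k x3 x1 *ᵥ C x0 (k + b') x3 x1| else 0) ≤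
      ∑ k ∈ range (N + 1), ∑ x ∈ cb N (t, M.1, M.2.2),
        (if fAR o N M.2.1 Af k (cx k x) then
          |qK (A x.1 (k + b')) (b x.1 (k + b')) x.2.2 x.2.1 k (tc o k x) ⬝ᵥ
            R x.1 k x.2.2 x.2.1 *ᵥ C x.1 (k + b') x.2.2 x.2.1| else 0) := by
    intro b' _
    rw [sum_comm]
    refine le_trans (le_of_eq ?_) (sum_le_sum_of_subset_of_nonneg
      (range_subset_range.2 (Nat.le_succ N)) fun k _ _ => sum_nonneg fun x _ => hnn b' k x)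
    refine sum_congr rfl fun k _ => ?_
    unfold PL.cb
    rw [sum_product]
    simp only [sum_product]
  refine le_trans (le_of_eq ?_) (sum_le_sum e3)
  have e2 : ∀ f : ℕ → ℝ, ∑ b' ∈ range 2, f b' = f 0 + f 1 := fun f => by
    rw [sum_range_succ, sum_range_succ, sum_range_zero, zero_add]
  simp only [e2, sum_add_distrib]

/-- **The births after Cauchy-Schwarz.** -/
theorem fam_births {o : ℤ} {N : ℕ} (M : Pt) (t : ℤ) {Af : ℕ → Pt → Prop}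
    {A : ℤ → ℕ → ℤ → ℤ → ℝ} {b C : ℤ → ℕ → ℤ → ℤ → κ → ℝ}
    (R : ℤ → ℕ → ℤ → ℤ → Matrix κ κ ℝ) (h : FAgr o N Af A b C) {EV Ew : ℝ}
    (hEV : ∀ b' ∈ range 2, ∑ k ∈ range (N + 1), ∑ x ∈ cb N (t, M.1, M.2.2),
      (if fAR o N M.2.1 Af k (cx k x) then (R x.1 k x.2.2 x.2.1 *ᵥ C x.1 (k + b') x.2.2 x.2.1) ⬝ᵥ
        (R x.1 k x.2.2 x.2.1 *ᵥ C x.1 (k + b') x.2.2 x.2.1) else 0) ≤ EV)
    (hEw : ∀ b' ∈ range 2, ∑ k ∈ range (N + 1), ∑ x ∈ cb N (t, M.1, M.2.2),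
      (if fAR o N M.2.1 Af k (cx k x) then
        qK (A x.1 (k + b')) (b x.1 (k + b')) x.2.2 x.2.1 k (tc o k x) ⬝ᵥ
          qK (A x.1 (k + b')) (b x.1 (k + b')) x.2.2 x.2.1 k (tc o k x) else 0) ≤ Ew) :
    ∑ x0 ∈ iv N t, ∑ k ∈ range N, |In N M (p k (H677.cP o x0 k)) (fun y =>
        H677.GA (A x0) (b x0) (C x0) (R x0) k k y -
          H677.GA (A x0) (b x0) (C x0) (R x0) k (k + 1) y)| ≤ 2 * (√EV * √Ew) := by
  refine (fam_le M t R h).trans ?_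
  have h1 : ∀ b' ∈ range 2, ∑ k ∈ range (N + 1), ∑ x ∈ cb N (t, M.1, M.2.2),
        (if fAR o N M.2.1 Af k (cx k x) then
          |qK (A x.1 (k + b')) (b x.1 (k + b')) x.2.2 x.2.1 k (tc o k x) ⬝ᵥ
            R x.1 k x.2.2 x.2.1 *ᵥ C x.1 (k + b') x.2.2 x.2.1| else 0) ≤ √EV * √Ew := by
    intro b' hb
    have h2 := aff_cs (fAR o N M.2.1 Af) N (t, M.1, M.2.2) (fun _ _ => 1)
      (fun k x => R x.1 k x.2.2 x.2.1 *ᵥ C x.1 (k + b') x.2.2 x.2.1)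
      (fun k x => qK (A x.1 (k + b')) (b x.1 (k + b')) x.2.2 x.2.1 k (tc o k x))
    simp only [one_mul, one_pow] at h2
    refine le_trans (le_of_eq ?_) (h2.trans (mul_le_mul (Real.sqrt_le_sqrt (hEV b' hb))
      (Real.sqrt_le_sqrt (hEw b' hb)) (Real.sqrt_nonneg _) (Real.sqrt_nonneg _)))
    refine sum_congr rfl fun k _ => sum_congr rfl fun x _ => ?_
    rw [dotProduct_comm]
  refine (sum_le_sum h1).trans (le_of_eq ?_)
  rw [sum_const, card_range, nsmul_eq_mul]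
  norm_num

/-- **the energy of `qK` at one node from the cap of `A`** -/
theorem qK_cell {A : ℤ → ℤ → ℝ} (b : ℤ → ℤ → κ → ℝ) {k : ℕ} {c : ℝ} {m1 m2 m3 : ℤ}
    (hA : ∀ w : ℤ → ℝ, ∑ z ∈ iv k m3, (∑ y ∈ iv k m2, A z y * w y) ^ 2 ≤
      c * 4 ^ k * ∑ y ∈ iv k m2, w y ^ 2) :
    ∑ x1 ∈ iv k m1, ∑ x3 ∈ iv k m3, qK A b x3 x1 k m2 ⬝ᵥ qK A b x3 x1 k m2 ≤
      c * ∑ x1 ∈ iv k m1, ∑ y ∈ iv k m2, b x1 y ⬝ᵥ b x1 y := by
  rw [mul_sum]
  refine sum_le_sum fun x1 _ => ?_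
  have e1 : ∀ x3 ∈ iv k m3, qK A b x3 x1 k m2 ⬝ᵥ qK A b x3 x1 k m2 =
      ∑ i, ((2 ^ k : ℝ)⁻¹ * (2 ^ k : ℝ)⁻¹) * (∑ y ∈ iv k m2, A x3 y * b x1 y i) ^ 2 := by
    intro x3 _
    unfold H103.qK dotProduct
    refine sum_congr rfl fun i _ => ?_
    have : (((2 : ℝ) ^ k)⁻¹ • ∑ y ∈ iv k m2, A x3 y • b x1 y) i =
        ((2 : ℝ) ^ k)⁻¹ * ∑ y ∈ iv k m2, A x3 y * b x1 y i := by
      rw [Pi.smul_apply, Finset.sum_apply, smul_eq_mul]
      rfl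
    rw [this]
    ring
  rw [sum_congr rfl e1, sum_comm]
  have e2 : ∑ y ∈ iv k m2, b x1 y ⬝ᵥ b x1 y = ∑ i, ∑ y ∈ iv k m2, b x1 y i ^ 2 := by
    unfold dotProduct
    rw [sum_comm]
    exact sum_congr rfl fun i _ => sum_congr rfl fun y _ => by ring
  rw [e2, mul_sum]
  refine sum_le_sum fun i _ => ?_
  rw [← mul_sum]
  have h1 := hA fun y => b x1 y i
  have h2 : (0 : ℝ) ≤ (2 ^ k : ℝ)⁻¹ * (2 ^ k : ℝ)⁻¹ := by positivity
  refine (mul_le_mul_of_nonneg_left h1 h2).trans (le_of_eq ?_)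
  have h3 : (2 : ℝ) ^ k ≠ 0 := by positivity
  rw [show (4 : ℝ) ^ k = 2 ^ k * 2 ^ k by rw [← mul_pow]; norm_num]
  field_simp

/-- **the energy of `qK` over the affected nodes**: `c` the cap of `A`, `β` the mass of `b` -/
theorem qK_aff {o : ℤ} {N : ℕ} (M : Pt) (t : ℤ) {Af : ℕ → Pt → Prop} {P : ℝ} (hP : GPack Af N P)
    {A : ℤ → ℕ → ℤ → ℤ → ℝ} {b : ℤ → ℕ → ℤ → ℤ → κ → ℝ} {b' : ℕ} {c β : ℝ} (hc : 0 ≤ c)
    (hβ : 0 ≤ β)
    (hA : ∀ k < N, ∀ x ∈ cb N (t, M.1, M.2.2), fAR o N M.2.1 Af k (cx k x) → ∀ w : ℤ → ℝ,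
      ∑ z ∈ iv k (ix k x.2.2), (∑ y ∈ iv k (tc o k x), A x.1 (k + b') z y * w y) ^ 2 ≤
        c * 4 ^ k * ∑ y ∈ iv k (tc o k x), w y ^ 2)
    (hb : ∀ k < N, ∀ x ∈ cb N (t, M.1, M.2.2), fAR o N M.2.1 Af k (cx k x) →
      ∑ x0 ∈ iv k (ix k x.1), ∑ x1 ∈ iv k (ix k x.2.1), ∑ y ∈ iv k (tc o k x),
        b x0 (k + b') x1 y ⬝ᵥ b x0 (k + b') x1 y ≤ β * 8 ^ k) :
    ∑ k ∈ range (N + 1), ∑ x ∈ cb N (t, M.1, M.2.2),
      (if fAR o N M.2.1 Af k (cx k x) then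
        qK (A x.1 (k + b')) (b x.1 (k + b')) x.2.2 x.2.1 k (tc o k x) ⬝ᵥ
          qK (A x.1 (k + b')) (b x.1 (k + b')) x.2.2 x.2.1 k (tc o k x) else 0) ≤
      c * β * (P * 8 ^ N) := by
  have hp : ∑ x ∈ cb N (t, M.1, M.2.2), ∑ k ∈ range (N + 1),
      (if fAR o N M.2.1 Af k (cx k x) then (1 : ℝ) else 0) ≤ P * 8 ^ N :=
    (hP.mono (A' := fAR o N M.2.1 Af) fun _ _ h => h.1) N le_rfl (t, M.1, M.2.2)
  refine wV_sum hp (mul_nonneg hc hβ) (fun k x =>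
    qK (A x.1 (k + b')) (b x.1 (k + b')) x.2.2 x.2.1 k (tc o k x) ⬝ᵥ
      qK (A x.1 (k + b')) (b x.1 (k + b')) x.2.2 x.2.1 k (tc o k x)) ?_
  intro k hk x hx ha
  have hkN : k < N := ha.2.2
  have h2 : ∀ y ∈ cb k (cx k x), y ∈ cb N (t, M.1, M.2.2) := by
    intro y hy
    rw [mem_cb] at hx hy ⊢
    rw [cx_le hk hy]
    exact hx
  have e1 : ∑ y ∈ cb k (cx k x), qK (A y.1 (k + b')) (b y.1 (k + b')) y.2.2 y.2.1 k (tc o k y) ⬝ᵥ
      qK (A y.1 (k + b')) (b y.1 (k + b')) y.2.2 y.2.1 k (tc o k y) =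
      ∑ x0 ∈ iv k (ix k x.1), ∑ x1 ∈ iv k (ix k x.2.1), ∑ x3 ∈ iv k (ix k x.2.2),
        qK (A x0 (k + b')) (b x0 (k + b')) x3 x1 k (tc o k x) ⬝ᵥ
          qK (A x0 (k + b')) (b x0 (k + b')) x3 x1 k (tc o k x) := by
    unfold PL.cb
    rw [sum_product]
    simp only [sum_product]
    refine sum_congr rfl fun x0 h0 => sum_congr rfl fun x1 h1 => sum_congr rfl fun x3 h3 => ?_
    have e : tc o k (x0, x1, x3) = tc o k x := by
      unfold tc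
      rw [mem_iv] at h0 h1 h3
      simp only
      rw [h0, h1, h3]
    rw [e]
  rw [e1]
  have h3 : ∀ x0 ∈ iv k (ix k x.1), ∑ x1 ∈ iv k (ix k x.2.1), ∑ x3 ∈ iv k (ix k x.2.2),
        qK (A x0 (k + b')) (b x0 (k + b')) x3 x1 k (tc o k x) ⬝ᵥ
          qK (A x0 (k + b')) (b x0 (k + b')) x3 x1 k (tc o k x) ≤
      c * ∑ x1 ∈ iv k (ix k x.2.1), ∑ y ∈ iv k (tc o k x),
        b x0 (k + b') x1 y ⬝ᵥ b x0 (k + b') x1 y := by
    intro x0 h0
    refine qK_cell (b x0 (k + b')) ?_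
    have hcx : cx k (x0, x.2.1, x.2.2) = cx k x := by
      unfold PL.cx
      rw [mem_iv.1 h0]
    have hy := h2 (x0, x.2.1, x.2.2) (mem_cb.2 hcx)
    have h4 := hA k hkN (x0, x.2.1, x.2.2) hy (by rw [hcx]; exact ha)
    have e : tc o k (x0, x.2.1, x.2.2) = tc o k x := by
      unfold tc
      simp only
      rw [mem_iv.1 h0]
    rw [e] at h4
    exact h4
  refine (sum_le_sum h3).trans ?_
  rw [← mul_sum]
  calc c * ∑ x0 ∈ iv k (ix k x.1), ∑ x1 ∈ iv k (ix k x.2.1), ∑ y ∈ iv k (tc o k x),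
        b x0 (k + b') x1 y ⬝ᵥ b x0 (k + b') x1 y ≤ c * (β * 8 ^ k) :=
        mul_le_mul_of_nonneg_left (hb k hkN x hx ha) hc
    _ = c * β * 8 ^ k := by ring

end fam

/-! ### The slot of `H677.TF_eq` -/

section slot

variable {ι : Type*} [Fintype ι] [DecidableEq ι]

/-- the slot of `TF_eq` is the slot `RT` of `FlowG` -/
theorem RA_RT (A : ℕ → Pt → Prop) (o : ℤ) (K : ℕ) (M : Pt) (sg : ℕ → Pt → ℝ) (l : ℝ)
    (u : ℤ → ℤ → ι → ℝ) (x0 : ℤ) (j : ℕ) (z x : ℤ) :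
    H677.RA K l (H677.KT l u) (H677.cP o x0) (H677.thA (H677.cP o x0) (H677.sN A o K M x0)
      fun k m => sg k (H677.rv m) * PL.hs k x0) j z x = H677.RT A o K M sg l u j x0 z x := by
  unfold H677.RA H677.RT
  refine sum_congr rfl fun i _ => ?_
  unfold H677.thA H677.thN H677.nd3 H677.my
  simp only
  congr 1
  have e : H677.cP o x0 (i + 1) - ix (i + 1) x - ix (i + 1) z =
      H677.cP o x0 (i + 1) - ix (i + 1) x - ix (i + 1) z := rfl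
  split_ifs
  · ring
  · rfl

/-- **The energy of the moving slot at the births, families**: `C = fC v (fx F2)`. -/
theorem fC_slot {o : ℤ} (A : ℕ → Pt → Prop) {n K : ℕ} (hK : K ≤ n) (M : Pt)
    (sg : ℕ → Pt → ℝ) (l : ℝ) (u v : ℤ → ℤ → ι → ℝ) {Z : ℕ → Pt → ℝ} {Af : ℕ → Pt → Prop}
    {P : ℝ} (hP0 : 0 ≤ P) (hP : GPack Af K P) {e : ℝ} (he : 0 ≤ e)
    (hl0 : ∀ k < n, ∀ m x y : ℤ, ∑ z ∈ iv k m, Z (k + 1) (z, x, y) ^ 2 ≤ e * 2 ^ k)
    (hz0 : Z 0 = 0) (t : ℤ) {h : ℕ} (hh : 1 ≤ h) (hPh : 2 * P ≤ h) (q : ℕ) {τ : ℝ} (hτ : 0 ≤ τ)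
    (hτm : ∀ k ≤ K, ∀ x ∈ cb K (t, M.1, M.2.2), fAR o K M.2.1 Af k (cx k x) →
      ∑ y1 ∈ iv k (ix k x.2.1), ∑ y3 ∈ iv k (ix k x.2.2),
        (VR A o K M sg l u v y1 y3 k (ix k x.1) ⬝ᵥ VR A o K M sg l u v y1 y3 k (ix k x.1)) ≤
        τ * 4 ^ k) {b : ℕ} (hb : b ∈ range 2) :
    ∑ k ∈ range (K + 1), ∑ x ∈ cb K (t, M.1, M.2.2),
      (if fAR o K M.2.1 Af k (cx k x) then
        (H677.RT A o K M sg l u k x.1 x.2.2 x.2.1 *ᵥ H677.fC v Z x.1 (k + b) x.2.2 x.2.1) ⬝ᵥ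
        (H677.RT A o K M sg l u k x.1 x.2.2 x.2.1 *ᵥ H677.fC v Z x.1 (k + b) x.2.2 x.2.1)
        else 0) ≤
      (1 + h * q) * ∑ x ∈ cb K (t, M.1, M.2.2), 2 * e *
        (VR A o K M sg l u v x.2.1 x.2.2 0 x.1 ⬝ᵥ VR A o K M sg l u v x.2.1 x.2.2 0 x.1) +
      2 * e * τ * P * (1 / 2) ^ q * 8 ^ K := by
  have hb' := mem_range.1 hb
  have hL : Lin K (2 * e) (fun k x => if k < K then Z (k + b) x else 0) := by
    intro k hk m x1 x3
    have h2 : (0 : ℝ) ≤ 2 ^ k := by positivity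
    have hpos : 0 ≤ 2 * e * 2 ^ k := by positivity
    rcases lt_or_ge k K with hkK | hkK
    · simp only [if_pos hkK]
      rcases Nat.eq_zero_or_pos (k + b) with h0 | h0
      · rw [h0, hz0]
        simpa using hpos
      · interval_cases b
        · rw [Nat.add_zero] at h0 ⊢
          obtain ⟨j, rfl⟩ : ∃ j, k = j + 1 := ⟨k - 1, by omega⟩
          rw [iv_succ]
          have a1 := hl0 j (by omega) (2 * m) x1 x3
          have a2 := hl0 j (by omega) (2 * m + 1) x1 x3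
          have h3 : (0 : ℝ) ≤ 2 ^ j := by positivity
          rw [pow_succ]
          nlinarith
        · refine (hl0 k (by omega) m x1 x3).trans ?_
          nlinarith
    · simp only [if_neg (not_lt.2 hkK)]
      simpa using hpos
  refine le_trans (le_of_eq ?_) (slot_aff
    ((hP.lp (t, M.1, M.2.2)).mono (A' := fAR o K M.2.1 Af) fun _ _ h => h.1)
    hP0 hh hPh q (by positivity) hτ hL
    (fun x1 x3 => VR_mart A o K M sg l u v x1 x3) hτm)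
  refine sum_congr rfl fun k _ => sum_congr rfl fun x _ => ?_
  split_ifs with h1 h2
  · have e1 : VR A o K M sg l u v x.2.1 x.2.2 k (ix k x.1) =
        H677.RT A o K M sg l u k x.1 x.2.2 x.2.1 *ᵥ v x.2.1 x.2.2 := by
      unfold VR
      rw [H677.RT_ix (j := k) (x0 := 2 ^ k * ix k x.1) (y0 := x.1) (x3 := x.2.2) (y3 := x.2.2)
        x.2.1 (H677.ix_two k _) rfl]
    unfold H677.fC
    rw [mulVec_smul, ← e1, smul_dotProduct, dotProduct_smul, smul_eq_mul, smul_eq_mul]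
    ring
  · exact absurd h1.2.2 h2
  · rfl

end slot

end

end Vale.Agent.P141.H460
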