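import Vale.Agent.P141.H460.AffV
import Vale.Agent.P141.H677.FlowG

/-!
# P141, line (A), item (b): the births of the functions in the Abel line, letters of 352 / 677

* `In_tie` : the form of a plane as a sum over the points `(x1, x3)` and the tied cell of `x2`;
* `births_le` : `∑ |In (p k) (G k k - G k (k + 1))|` at most two sums over the affected nodes, in
  the form of `aff_cs`;
* `births_cs` : the same after Cauchy-Schwarz, slot energies by `slot_aff`;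
* `GF_births` : the term of `H352.abel_id` for `H677.GF`.
-/

namespace Vale.Agent.P141.H460

open Finset Matrix
open Vale.Agent.P141.PL (Pt iv ix cb cx mem_iv mem_cb card_iv card_cb ix_ix)
open Vale.Agent.P141.H352 (In p)

noncomputable section

open scoped Classical

theorem LPack.mono {A A' : ℕ → Pt → Prop} {K : ℕ} {M : Pt} {P : ℝ} (h : LPack A K M P)
    (hA : ∀ k m, A' k m → A k m) : LPack A' K M P := by
  intro k hk x hx ha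
  refine le_trans (sum_le_sum fun y _ => sum_le_sum fun j _ => ?_) (h k hk x hx (hA _ _ ha))
  split_ifs with h1 h2
  · exact le_rfl
  · exact absurd (hA _ _ h1) h2
  · exact zero_le_one
  · exact le_rfl

/-- the form of a plane -/
theorem In_tie {k K : ℕ} (hk : k ≤ K) (M : Pt) (c : ℤ) (f : Pt → ℝ) :
    In K M (p k c) f = ∑ x1 ∈ iv K M.1, ∑ x3 ∈ iv K M.2.2,
      if c - ix k x1 - ix k x3 ∈ iv (K - k) M.2.1 then
        (2 ^ k : ℝ)⁻¹ * ∑ x2 ∈ iv k (c - ix k x1 - ix k x3), f (x1, x2, x3) else 0 := by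
  unfold H352.In PL.cb
  rw [sum_product]
  simp only [sum_product]
  refine sum_congr rfl fun x1 _ => ?_
  rw [sum_comm]
  refine sum_congr rfl fun x3 _ => ?_
  have e1 : ∀ x2 ∈ iv K M.2.1, p k c (x1, x2, x3) * f (x1, x2, x3) =
      if ix k x2 = c - ix k x1 - ix k x3 then (2 ^ k : ℝ)⁻¹ * f (x1, x2, x3) else 0 := by
    intro x2 _
    unfold H352.p
    simp only
    by_cases h : ix k x2 = c - ix k x1 - ix k x3
    · rw [if_pos h, if_pos (by omega)]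
    · rw [if_neg h, if_neg (by omega), zero_mul]
  rw [sum_congr rfl e1, ← sum_filter]
  split_ifs with h
  · have e2 : (iv K M.2.1).filter (fun x2 => ix k x2 = c - ix k x1 - ix k x3) =
        iv k (c - ix k x1 - ix k x3) := by
      ext z
      rw [mem_filter, mem_iv, mem_iv]
      refine ⟨fun h => h.2, fun h' => ⟨?_, h'⟩⟩
      rw [mem_iv] at h
      rw [← h, ← h', ix_ix, Nat.add_sub_cancel' hk]
    rw [e2, mul_sum]
  · refine sum_eq_zero fun z hz => ?_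
    rw [mem_filter] at hz
    refine absurd ?_ h
    rw [← hz.2]
    exact ix_mem hk hz.1

/-- agreement of a path off the affected squares -/
def Agr (K : ℕ) (F : ℕ → Pt → ℝ) (Q : ℕ → Pt → Prop) : Prop :=
  ∀ k < K, ∀ m : Pt, ¬ Q k m → ∀ y ∈ cb k m, F (k + 1) y = F k y

/-- the path with the first entry repeated: the form reads only the scales `k ≥ 1` -/
def fx (F : ℕ → Pt → ℝ) (k : ℕ) : Pt → ℝ := F (max k 1)

theorem fx_pos (F : ℕ → Pt → ℝ) {k : ℕ} (hk : 1 ≤ k) : fx F k = F k := by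
  unfold fx
  rw [max_eq_left hk]

theorem agr_fx {n K : ℕ} (hK : K ≤ n) {F : ℕ → Pt → ℝ} {Q : ℕ → Pt → Prop}
    (h : ∀ k, 1 ≤ k → k < n → ∀ m : Pt, ¬ Q k m → ∀ y ∈ cb k m, F (k + 1) y = F k y) :
    Agr K (fx F) Q := by
  intro k hk m hm y hy
  rcases Nat.eq_zero_or_pos k with rfl | h0
  · rfl
  · rw [fx_pos F h0, fx_pos F (by omega)]
    exact h k h0 (by omega) m hm y hy

section Births

variable {κ : Type*} [Fintype κ]

/-- the vector of a node point -/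
def wV (o : ℤ) (g : ℤ × ℤ → ℝ) (u : ℤ → ℤ → κ → ℝ) (F1 F3 : ℕ → Pt → ℝ) (b k : ℕ) (x : Pt) :
    κ → ℝ :=
  (2 ^ k : ℝ)⁻¹ • ∑ x2 ∈ iv k (o - 2 - ix k x.1 - ix k x.2.1 - ix k x.2.2),
    (F1 (k + b) (x.1, x2, x.2.2) * F3 (k + b) (x.1, x.2.1, x2) * g (x2, x.2.2)) • u x.2.1 x2

/-- the slot at the time `k`, the functions at the time `b` -/
def GV (g : ℤ × ℤ → ℝ) (u : ℤ → ℤ → κ → ℝ) (V : ℤ → ℤ → ℕ → ℤ → κ → ℝ)
    (F1 F2 F3 : ℕ → Pt → ℝ) (x0 : ℤ) (k b : ℕ) (y : Pt) : ℝ :=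
  F1 b (x0, y.2.1, y.2.2) * F2 b (x0, y.1, y.2.2) * F3 b (x0, y.1, y.2.1) * g y.2 *
    (u y.1 y.2.1 ⬝ᵥ V y.1 y.2.2 k (ix k x0))

/-- affected nodes below the top, inside the root of `x2` -/
def nAR (o : ℤ) (K : ℕ) (M2 : ℤ) (Q1 Q2 Q3 : ℕ → Pt → Prop) (k : ℕ) (m : Pt) : Prop :=
  nAff o Q1 Q2 Q3 k m ∧ o - 2 - m.1 - m.2.1 - m.2.2 ∈ iv (K - k) M2 ∧ k < K

theorem GV_cell {o : ℤ} (g : ℤ × ℤ → ℝ) (u : ℤ → ℤ → κ → ℝ) (V : ℤ → ℤ → ℕ → ℤ → κ → ℝ)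
    (F1 F2 F3 : ℕ → Pt → ℝ) (x0 x1 x3 : ℤ) (k b : ℕ) :
    (2 ^ k : ℝ)⁻¹ * ∑ x2 ∈ iv k (o - 2 - ix k x0 - ix k x1 - ix k x3),
      GV g u V F1 F2 F3 x0 k (k + b) (x1, x2, x3) =
      F2 (k + b) (x0, x1, x3) * (V x1 x3 k (ix k x0) ⬝ᵥ wV o g u F1 F3 b k (x0, x1, x3)) := by
  unfold wV GV
  rw [dotProduct_smul, dotProduct_sum, smul_eq_mul]
  simp only [dotProduct_smul, smul_eq_mul]
  rw [mul_left_comm]
  congr 1
  rw [mul_sum]
  refine sum_congr rfl fun x2 _ => ?_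
  rw [dotProduct_comm (V x1 x3 k (ix k x0))]
  ring

/-- **The births of the functions in the Abel line.** -/
theorem births_le {o : ℤ} {K : ℕ} (M : Pt) (t : ℤ) (g : ℤ × ℤ → ℝ) (u : ℤ → ℤ → κ → ℝ)
    (V : ℤ → ℤ → ℕ → ℤ → κ → ℝ) {F1 F2 F3 : ℕ → Pt → ℝ} {Q1 Q2 Q3 : ℕ → Pt → Prop}
    (h1 : Agr K F1 Q1) (h2 : Agr K F2 Q2) (h3 : Agr K F3 Q3) :
    ∑ x0 ∈ iv K t, ∑ k ∈ range K, |In K M (p k (o - 2 - ix k x0)) (fun y =>
        GV g u V F1 F2 F3 x0 k k y - GV g u V F1 F2 F3 x0 k (k + 1) y)| ≤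
      ∑ b ∈ range 2, ∑ k ∈ range (K + 1), ∑ x ∈ cb K (t, M.1, M.2.2),
        (if nAR o K M.2.1 Q1 Q2 Q3 k (cx k x) then
          |F2 (k + b) x * (V x.2.1 x.2.2 k (ix k x.1) ⬝ᵥ wV o g u F1 F3 b k x)| else 0) := by
  have hnn : ∀ (b k : ℕ) (x : Pt), (0 : ℝ) ≤ (if nAR o K M.2.1 Q1 Q2 Q3 k (cx k x) then
      |F2 (k + b) x * (V x.2.1 x.2.2 k (ix k x.1) ⬝ᵥ wV o g u F1 F3 b k x)| else 0) := by
    intro b k x
    split_ifs
    · exact abs_nonneg _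
    · exact le_rfl
  have hpt : ∀ k ∈ range K, ∀ x0 ∈ iv K t, |In K M (p k (o - 2 - ix k x0)) (fun y =>
        GV g u V F1 F2 F3 x0 k k y - GV g u V F1 F2 F3 x0 k (k + 1) y)| ≤
      ∑ x1 ∈ iv K M.1, ∑ x3 ∈ iv K M.2.2, ∑ b ∈ range 2,
        (if nAR o K M.2.1 Q1 Q2 Q3 k (cx k (x0, x1, x3)) then
          |F2 (k + b) (x0, x1, x3) * (V x1 x3 k (ix k x0) ⬝ᵥ
            wV o g u F1 F3 b k (x0, x1, x3))| else 0) := by
    intro k hk x0 _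
    have hk' := mem_range.1 hk
    rw [In_tie hk'.le]
    refine (abs_sum_le_sum_abs _ _).trans (sum_le_sum fun x1 _ => ?_)
    refine (abs_sum_le_sum_abs _ _).trans (sum_le_sum fun x3 _ => ?_)
    by_cases hr : o - 2 - ix k x0 - ix k x1 - ix k x3 ∈ iv (K - k) M.2.1
    · rw [if_pos hr]
      by_cases ha : nAff o Q1 Q2 Q3 k (cx k (x0, x1, x3))
      · have hA : nAR o K M.2.1 Q1 Q2 Q3 k (cx k (x0, x1, x3)) := ⟨ha, hr, hk'⟩
        simp only [if_pos hA]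
        rw [sum_sub_distrib, mul_sub, GV_cell g u V F1 F2 F3 x0 x1 x3 k 1]
        have e0 := GV_cell (o := o) g u V F1 F2 F3 x0 x1 x3 k 0
        rw [Nat.add_zero] at e0
        rw [e0, sum_range_succ, sum_range_succ, sum_range_zero, zero_add, Nat.add_zero]
        exact abs_sub _ _
      · have hz : ∑ x2 ∈ iv k (o - 2 - ix k x0 - ix k x1 - ix k x3),
            (GV g u V F1 F2 F3 x0 k k (x1, x2, x3) -
              GV g u V F1 F2 F3 x0 k (k + 1) (x1, x2, x3)) = 0 := by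
          refine sum_eq_zero fun x2 hx2 => ?_
          rw [mem_iv] at hx2
          unfold nAff nA1 nA3 PL.cx at ha
          simp only [not_or] at ha
          have a1 := h1 k hk' _ ha.1 (x0, x2, x3) (by
            rw [mem_cb]; unfold PL.cx; rw [hx2])
          have a2 := h2 k hk' _ ha.2.1 (x0, x1, x3) (by
            rw [mem_cb]; rfl)
          have a3 := h3 k hk' _ ha.2.2 (x0, x1, x2) (by
            rw [mem_cb]; unfold PL.cx; rw [hx2])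
          unfold GV
          simp only
          rw [a1, a2, a3, sub_self]
        rw [hz, mul_zero, abs_zero]
        exact sum_nonneg fun b _ => hnn b k (x0, x1, x3)
    · rw [if_neg hr, abs_zero]
      exact sum_nonneg fun b _ => hnn b k (x0, x1, x3)
  refine (sum_le_sum fun x0 hx0 => sum_le_sum fun k hk => hpt k hk x0 hx0).trans ?_
  have e3 : ∀ b ∈ range 2, ∑ x0 ∈ iv K t, ∑ k ∈ range K, ∑ x1 ∈ iv K M.1, ∑ x3 ∈ iv K M.2.2,
      (if nAR o K M.2.1 Q1 Q2 Q3 k (cx k (x0, x1, x3)) then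
          |F2 (k + b) (x0, x1, x3) * (V x1 x3 k (ix k x0) ⬝ᵥ
            wV o g u F1 F3 b k (x0, x1, x3))| else 0) ≤
      ∑ k ∈ range (K + 1), ∑ x ∈ cb K (t, M.1, M.2.2),
        (if nAR o K M.2.1 Q1 Q2 Q3 k (cx k x) then
          |F2 (k + b) x * (V x.2.1 x.2.2 k (ix k x.1) ⬝ᵥ wV o g u F1 F3 b k x)| else 0) := by
    intro b _
    rw [sum_comm]
    refine le_trans (le_of_eq ?_) (sum_le_sum_of_subset_of_nonneg
      (range_subset_range.2 (Nat.le_succ K)) fun k _ _ => sum_nonneg fun x _ => hnn b k x)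
    refine sum_congr rfl fun k _ => ?_
    unfold PL.cb
    rw [sum_product]
    simp only [sum_product]
  refine le_trans (le_of_eq ?_) (sum_le_sum e3)
  have e2 : ∀ f : ℕ → ℝ, ∑ b ∈ range 2, f b = f 0 + f 1 := fun f => by
    rw [sum_range_succ, sum_range_succ, sum_range_zero, zero_add]
  simp only [e2, sum_add_distrib]

/-- **The births after Cauchy-Schwarz**: `E2` bounds the energies of the slot, see `slot_aff`. -/
theorem births_cs {o : ℤ} {K : ℕ} (M : Pt) (t : ℤ) (g : ℤ × ℤ → ℝ) (u : ℤ → ℤ → κ → ℝ)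
    (V : ℤ → ℤ → ℕ → ℤ → κ → ℝ) {F1 F2 F3 : ℕ → Pt → ℝ} {Q1 Q2 Q3 : ℕ → Pt → Prop}
    (h1 : Agr K F1 Q1) (h2 : Agr K F2 Q2) (h3 : Agr K F3 Q3) {EV Ew : ℝ}
    (hEV : ∀ b ∈ range 2, ∑ k ∈ range (K + 1), ∑ x ∈ cb K (t, M.1, M.2.2),
      (if nAR o K M.2.1 Q1 Q2 Q3 k (cx k x) then F2 (k + b) x ^ 2 *
        (V x.2.1 x.2.2 k (ix k x.1) ⬝ᵥ V x.2.1 x.2.2 k (ix k x.1)) else 0) ≤ EV)
    (hEw : ∀ b ∈ range 2, ∑ k ∈ range (K + 1), ∑ x ∈ cb K (t, M.1, M.2.2),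
      (if nAR o K M.2.1 Q1 Q2 Q3 k (cx k x) then
        wV o g u F1 F3 b k x ⬝ᵥ wV o g u F1 F3 b k x else 0) ≤ Ew) :
    ∑ x0 ∈ iv K t, ∑ k ∈ range K, |In K M (p k (o - 2 - ix k x0)) (fun y =>
        GV g u V F1 F2 F3 x0 k k y - GV g u V F1 F2 F3 x0 k (k + 1) y)| ≤
      2 * (√EV * √Ew) := by
  refine (births_le M t g u V h1 h2 h3).trans ?_
  have h : ∀ b ∈ range 2, ∑ k ∈ range (K + 1), ∑ x ∈ cb K (t, M.1, M.2.2),
        (if nAR o K M.2.1 Q1 Q2 Q3 k (cx k x) then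
          |F2 (k + b) x * (V x.2.1 x.2.2 k (ix k x.1) ⬝ᵥ wV o g u F1 F3 b k x)| else 0) ≤
      √EV * √Ew := by
    intro b hb
    refine (aff_cs (nAR o K M.2.1 Q1 Q2 Q3) K (t, M.1, M.2.2) (fun k x => F2 (k + b) x)
      (fun k x => V x.2.1 x.2.2 k (ix k x.1)) (fun k x => wV o g u F1 F3 b k x)).trans ?_
    exact mul_le_mul (Real.sqrt_le_sqrt (hEV b hb)) (Real.sqrt_le_sqrt (hEw b hb))
      (Real.sqrt_nonneg _) (Real.sqrt_nonneg _)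
  refine (sum_le_sum h).trans (le_of_eq ?_)
  rw [sum_const, card_range, nsmul_eq_mul]
  norm_num

/-- the energy of the vectors from a bound at every affected node -/
theorem wV_sum {A : ℕ → Pt → Prop} {K : ℕ} {M : Pt} {P : ℝ}
    (hp : ∑ x ∈ cb K M, ∑ k ∈ range (K + 1), (if A k (cx k x) then (1 : ℝ) else 0) ≤ P * 8 ^ K)
    {T : ℝ} (hT0 : 0 ≤ T) (f : ℕ → Pt → ℝ)
    (hT : ∀ k ≤ K, ∀ x ∈ cb K M, A k (cx k x) → ∑ y ∈ cb k (cx k x), f k y ≤ T * 8 ^ k) :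
    ∑ k ∈ range (K + 1), ∑ x ∈ cb K M, (if A k (cx k x) then f k x else 0) ≤
      T * (P * 8 ^ K) := by
  have h1 : ∀ k ∈ range (K + 1), ∑ x ∈ cb K M, (if A k (cx k x) then f k x else 0) ≤
      ∑ x ∈ cb K M, (if A k (cx k x) then T else 0) := by
    intro k hk
    have hk' : k ≤ K := by rw [mem_range] at hk; omega
    refine cell_le hk' M (fun x => A k (cx k x)) ?_ _ _ ?_
    · intro x y e h
      rw [← e]
      exact h
    · intro x hx h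
      rw [sum_const, card_cb, nsmul_eq_mul]
      push_cast
      rw [mul_comm]
      exact hT k hk' x hx h
  refine (sum_le_sum h1).trans ?_
  refine le_trans (le_of_eq ?_) (mul_le_mul_of_nonneg_left hp hT0)
  rw [sum_comm, mul_sum]
  refine sum_congr rfl fun x _ => ?_
  rw [mul_sum]
  refine sum_congr rfl fun k _ => ?_
  split_ifs <;> simp

/-- the energies of a path on the lines of `x0`, functions at the times `k` and `k + 1` -/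
theorem lin_path {n K : ℕ} (hK : K ≤ n) {e : ℝ} {F : ℕ → Pt → ℝ} (he : 0 ≤ e)
    (h : ∀ k < n, ∀ m x y : ℤ, ∑ z ∈ iv k m, F (k + 1) (z, x, y) ^ 2 ≤ e * 2 ^ k)
    {b : ℕ} (hb : b ∈ range 2) :
    Lin K (2 * e) (fun k x => if k < K then fx F (k + b) x else 0) := by
  intro k hk m x1 x3
  have h2 : (0 : ℝ) ≤ 2 ^ k := by positivity
  have hb' := mem_range.1 hb
  have hpos : 0 ≤ 2 * e * 2 ^ k := by positivity
  rcases lt_or_ge k K with hkK | hkK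
  · simp only [if_pos hkK]
    rcases Nat.eq_zero_or_pos (k + b) with h0 | h0
    · have hk0 : k = 0 := by omega
      have hb0 : b = 0 := by omega
      subst hk0 hb0
      have := h 0 (by omega) m x1 x3
      change ∑ x0 ∈ iv 0 m, F (0 + 1) (x0, x1, x3) ^ 2 ≤ 2 * e * 2 ^ 0
      refine this.trans ?_
      nlinarith
    · rw [fx_pos F h0]
      interval_cases b
      · rw [Nat.add_zero] at h0 ⊢
        obtain ⟨j, rfl⟩ : ∃ j, k = j + 1 := ⟨k - 1, by omega⟩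
        rw [iv_succ]
        have a1 := h j (by omega) (2 * m) x1 x3
        have a2 := h j (by omega) (2 * m + 1) x1 x3
        have h3 : (0 : ℝ) ≤ 2 ^ j := by positivity
        rw [pow_succ]
        nlinarith
      · refine (h k (by omega) m x1 x3).trans ?_
        nlinarith
  · simp only [if_neg (not_lt.2 hkK)]
    simpa using hpos

theorem vec_cs {β : Type*} (s : Finset β) (a c : β → ℝ) (w : β → κ → ℝ) :
    (∑ z ∈ s, (a z * c z) • w z) ⬝ᵥ (∑ z ∈ s, (a z * c z) • w z) ≤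
      (∑ z ∈ s, a z ^ 2) * ∑ z ∈ s, c z ^ 2 * (w z ⬝ᵥ w z) := by
  have e1 : ∑ z ∈ s, c z ^ 2 * (w z ⬝ᵥ w z) = ∑ i, ∑ z ∈ s, (c z * w z i) ^ 2 := by
    unfold dotProduct
    rw [sum_comm]
    refine sum_congr rfl fun z _ => ?_
    rw [mul_sum]
    exact sum_congr rfl fun i _ => by ring
  rw [e1, mul_sum]
  unfold dotProduct
  refine sum_le_sum fun i _ => ?_
  have h := sum_mul_sq_le_sq_mul_sq s a (fun z => c z * w z i)
  have e2 : (∑ z ∈ s, (a z * c z) • w z) i = ∑ z ∈ s, a z * (c z * w z i) := by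
    rw [Finset.sum_apply]
    exact sum_congr rfl fun z _ => by simp only [Pi.smul_apply, smul_eq_mul]; ring
  rw [e2, ← sq]
  exact h

/-- **the energy of the vectors at one node** -/
theorem wV_cell (o : ℤ) (g : ℤ × ℤ → ℝ) (u : ℤ → ℤ → κ → ℝ) (F1 F3 : ℕ → Pt → ℝ) (b k : ℕ)
    (m : Pt) :
    ∑ x ∈ cb k m, wV o g u F1 F3 b k x ⬝ᵥ wV o g u F1 F3 b k x ≤
      ∑ x0 ∈ iv k m.1,
        ((2 ^ k : ℝ)⁻¹ * ∑ x3 ∈ iv k m.2.2, ∑ x2 ∈ iv k (o - 2 - m.1 - m.2.1 - m.2.2),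
          (F1 (k + b) (x0, x2, x3) * g (x2, x3)) ^ 2) *
        ((2 ^ k : ℝ)⁻¹ * ∑ x1 ∈ iv k m.2.1, ∑ x2 ∈ iv k (o - 2 - m.1 - m.2.1 - m.2.2),
          F3 (k + b) (x0, x1, x2) ^ 2 * (u x1 x2 ⬝ᵥ u x1 x2)) := by
  unfold PL.cb
  rw [sum_product]
  simp only [sum_product]
  refine sum_le_sum fun x0 h0 => ?_
  have e0 : ∀ (c : ℝ) (f h : ℤ → ℝ), (c * ∑ x3 ∈ iv k m.2.2, f x3) * (c * ∑ x1 ∈ iv k m.2.1, h x1) =
      ∑ x1 ∈ iv k m.2.1, ∑ x3 ∈ iv k m.2.2, c * c * (f x3 * h x1) := by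
    intro c f h
    rw [mul_mul_mul_comm, sum_mul_sum, sum_comm, mul_sum]
    exact sum_congr rfl fun x1 _ => by rw [mul_sum]
  rw [e0]
  refine sum_le_sum fun x1 h1 => sum_le_sum fun x3 h3 => ?_
  rw [mem_iv] at h0 h1 h3
  unfold wV
  simp only
  rw [h0, h1, h3, smul_dotProduct, dotProduct_smul, smul_eq_mul, smul_eq_mul]
  have h := vec_cs (iv k (o - 2 - m.1 - m.2.1 - m.2.2))
    (fun x2 => F1 (k + b) (x0, x2, x3) * g (x2, x3)) (fun x2 => F3 (k + b) (x0, x1, x2))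
    (fun x2 => u x1 x2)
  have e1 : ∑ x2 ∈ iv k (o - 2 - m.1 - m.2.1 - m.2.2),
      (F1 (k + b) (x0, x2, x3) * F3 (k + b) (x0, x1, x2) * g (x2, x3)) • u x1 x2 =
      ∑ x2 ∈ iv k (o - 2 - m.1 - m.2.1 - m.2.2),
      ((F1 (k + b) (x0, x2, x3) * g (x2, x3)) * F3 (k + b) (x0, x1, x2)) • u x1 x2 :=
    sum_congr rfl fun x2 _ => by rw [mul_right_comm]
  rw [e1]
  have h2 : (0 : ℝ) ≤ (2 ^ k : ℝ)⁻¹ := by positivity
  rw [← mul_assoc]
  exact mul_le_mul_of_nonneg_left h (mul_nonneg h2 h2)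

end Births

/-! ### The term of the Abel line for `H677.GF` -/

section GF

variable {ι : Type*} [Fintype ι] [DecidableEq ι]

/-- the moving slot of `H677.GF` -/
def VR (A : ℕ → Pt → Prop) (o : ℤ) (K : ℕ) (M : Pt) (sg : ℕ → Pt → ℝ) (l : ℝ)
    (u v : ℤ → ℤ → ι → ℝ) (x1 x3 : ℤ) (k : ℕ) (m : ℤ) : ι → ℝ :=
  H677.RT A o K M sg l u k (2 ^ k * m) x3 x1 *ᵥ v x1 x3

theorem VR_mart (A : ℕ → Pt → Prop) (o : ℤ) (K : ℕ) (M : Pt) (sg : ℕ → Pt → ℝ) (l : ℝ)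
    (u v : ℤ → ℤ → ι → ℝ) (x1 x3 : ℤ) : Mrt K (VR A o K M sg l u v x1 x3) :=
  H677.RT_mart0 x3 x1 (v x1 x3)

theorem GF_GV (A : ℕ → Pt → Prop) (o : ℤ) (K : ℕ) (M : Pt) (sg : ℕ → Pt → ℝ) (l : ℝ)
    (g : ℤ × ℤ → ℝ) (u v : ℤ → ℤ → ι → ℝ) (F1 F2 F3 : ℕ → Pt → ℝ) (x0 : ℤ) (k b : ℕ) (y : Pt) :
    H677.GF A o K M sg l g u v F1 F2 F3 x0 k b y =
      GV g u (VR A o K M sg l u v) F1 F2 F3 x0 k b y := by
  unfold H677.GF GV VR
  rw [H677.RT_ix (j := k) (x0 := 2 ^ k * ix k x0) (y0 := x0) (x3 := y.2.2) (y3 := y.2.2) y.1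
    (H677.ix_two k _) rfl]

/-- the form reads only the scales `b ≥ 1` of the functions -/
theorem GF_fx (A : ℕ → Pt → Prop) (o : ℤ) (K : ℕ) (M : Pt) (sg : ℕ → Pt → ℝ) (l : ℝ)
    (g : ℤ × ℤ → ℝ) (u v : ℤ → ℤ → ι → ℝ) (F1 F2 F3 : ℕ → Pt → ℝ) (x0 : ℤ) (a : ℕ) {b : ℕ}
    (hb : 1 ≤ b) (y : Pt) :
    H677.GF A o K M sg l g u v (fx F1) (fx F2) (fx F3) x0 a b y =
      H677.GF A o K M sg l g u v F1 F2 F3 x0 a b y := by
  unfold H677.GF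
  rw [fx_pos F1 hb, fx_pos F2 hb, fx_pos F3 hb]

/-- **The births of the functions, letters of `H352.abel_id` and `H677.GF`.** -/
theorem GF_births {o : ℤ} (A : ℕ → Pt → Prop) {K : ℕ} (M : Pt) (sg : ℕ → Pt → ℝ) (l : ℝ)
    (g : ℤ × ℤ → ℝ) (u v : ℤ → ℤ → ι → ℝ) {F1 F2 F3 : ℕ → Pt → ℝ} {Q1 Q2 Q3 : ℕ → Pt → Prop}
    (h1 : Agr K F1 Q1) (h2 : Agr K F2 Q2) (h3 : Agr K F3 Q3) (t : ℤ) {EV Ew : ℝ}
    (hEV : ∀ b ∈ range 2, ∑ k ∈ range (K + 1), ∑ x ∈ cb K (t, M.1, M.2.2),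
      (if nAR o K M.2.1 Q1 Q2 Q3 k (cx k x) then F2 (k + b) x ^ 2 *
        (VR A o K M sg l u v x.2.1 x.2.2 k (ix k x.1) ⬝ᵥ
          VR A o K M sg l u v x.2.1 x.2.2 k (ix k x.1)) else 0) ≤ EV)
    (hEw : ∀ b ∈ range 2, ∑ k ∈ range (K + 1), ∑ x ∈ cb K (t, M.1, M.2.2),
      (if nAR o K M.2.1 Q1 Q2 Q3 k (cx k x) then
        wV o g u F1 F3 b k x ⬝ᵥ wV o g u F1 F3 b k x else 0) ≤ Ew) :
    ∑ x0 ∈ iv K t, ∑ k ∈ range K, |In K M (p k (H677.cP o x0 k)) (fun y =>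
        H677.GF A o K M sg l g u v F1 F2 F3 x0 k k y -
          H677.GF A o K M sg l g u v F1 F2 F3 x0 k (k + 1) y)| ≤ 2 * (√EV * √Ew) := by
  simp only [GF_GV]
  exact births_cs M t g u (VR A o K M sg l u v) h1 h2 h3 hEV hEw

/-- **The energy of the moving slot at the births**, `slot_aff` for `H677.RT`. -/
theorem GF_slot {o : ℤ} (ho : o = 1 ∨ o = -1) (A : ℕ → Pt → Prop) {n K : ℕ} (hK : K ≤ n) (M : Pt)
    (sg : ℕ → Pt → ℝ) (l : ℝ) (u v : ℤ → ℤ → ι → ℝ) {F2 : ℕ → Pt → ℝ}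
    {Q1 Q2 Q3 : ℕ → Pt → Prop} {c1 c2 c3 : ℝ} (hc1 : 0 ≤ c1) (hc2 : 0 ≤ c2) (hc3 : 0 ≤ c3)
    (q1 : QPack n Q1 c1) (q2 : QPack n Q2 c2) (q3 : QPack n Q3 c3) {e : ℝ} (he : 0 ≤ e)
    (hl0 : ∀ k < n, ∀ m x y : ℤ, ∑ z ∈ iv k m, F2 (k + 1) (z, x, y) ^ 2 ≤ e * 2 ^ k) (t : ℤ)
    {h : ℕ} (hh : 1 ≤ h) (hPh : 2 * (3 * c1 + c2 + 3 * c3) ≤ h) (q : ℕ) {τ : ℝ} (hτ : 0 ≤ τ)
    (hτm : ∀ k ≤ K, ∀ x ∈ cb K (t, M.1, M.2.2), nAR o K M.2.1 Q1 Q2 Q3 k (cx k x) →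
      ∑ y1 ∈ iv k (ix k x.2.1), ∑ y3 ∈ iv k (ix k x.2.2),
        (VR A o K M sg l u v y1 y3 k (ix k x.1) ⬝ᵥ VR A o K M sg l u v y1 y3 k (ix k x.1)) ≤
        τ * 4 ^ k) {b : ℕ} (hb : b ∈ range 2) :
    ∑ k ∈ range (K + 1), ∑ x ∈ cb K (t, M.1, M.2.2),
      (if nAR o K M.2.1 Q1 Q2 Q3 k (cx k x) then fx F2 (k + b) x ^ 2 *
        (VR A o K M sg l u v x.2.1 x.2.2 k (ix k x.1) ⬝ᵥ
          VR A o K M sg l u v x.2.1 x.2.2 k (ix k x.1)) else 0) ≤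
      (1 + h * q) * ∑ x ∈ cb K (t, M.1, M.2.2), 2 * e *
        (VR A o K M sg l u v x.2.1 x.2.2 0 x.1 ⬝ᵥ VR A o K M sg l u v x.2.1 x.2.2 0 x.1) +
      2 * e * τ * (3 * c1 + c2 + 3 * c3) * (1 / 2) ^ q * 8 ^ K := by
  refine le_trans (le_of_eq ?_) (slot_aff
    ((lpack_aff q1 q2 q3 ho hK (t, M.1, M.2.2)).mono fun _ _ h => h.1)
    (by positivity) hh hPh q (by positivity) hτ (lin_path hK he hl0 hb)
    (fun x1 x3 => VR_mart A o K M sg l u v x1 x3) hτm)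
  refine sum_congr rfl fun k _ => sum_congr rfl fun x _ => ?_
  split_ifs with h1 h2
  · rfl
  · exact absurd h1.2.2 h2
  · rfl

end GF

end

end Vale.Agent.P141.H460
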