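import Vale.Agent.P141.H460.AffFam
import Vale.Agent.P141.H795.Grid
import Vale.Agent.P141.H795.KFact

/-!
# P141, line (A), (P2): the births of the functions with the kernels of the shifted grids

* `KK_rep` : the kernel is the mean over the shifts `s` of plane profiles on the shifted cells;
* `mul_le`, `mul_births` : births with a bounded multiplier supported on the near planes;
* `qK_mul` : energy of the vectors, the multiplier depends on `x3` through a shifted cell only;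
* `kp_births` : the term of `H795.abel_grid`.
* `gpack_gen` : packing of the affected nodes of any offset in the window `Win`, constant `21`.
* `fC_slot2` : `fC_slot` with the offset of the affected nodes different from the true tie.
-/

namespace Vale.Agent.P141.H460

open Finset Matrix
open Vale.Agent.P141.PL (Pt iv ix cb cx mem_iv mem_cb card_iv card_cb ix_ix)
open Vale.Agent.P141.H352 (In p)
open Vale.Agent.P141.H103 (qK)
open Vale.Agent.P141.H795 (KK V3 kp)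

noncomputable section

open scoped Classical

/-! ### Packing, any offset -/

/-- the cells of a plane of offset in the window lie over `21` cells -/
theorem tie_win {o : ℤ} (ho : o ∈ Icc (-8 : ℤ) 12) {d : ℕ} {M0 M1 M3 m0 b : ℤ} (h0 : m0 ∈ iv d M0)
    (hb : b ∈ iv d M3) (φ : ℤ → ℝ) (hφ : ∀ r, 0 ≤ φ r) :
    ∑ a ∈ iv d M1, φ (o - 2 - m0 - a - b) ≤
      ∑ i ∈ range 21, ∑ r ∈ iv d (-(M0 + M1 + M3) - 10 + (i : ℤ)), φ r := by
  have h1 : ∑ a ∈ iv d M1, φ (o - 2 - m0 - a - b) =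
      ∑ r ∈ (iv d M1).image (fun a => o - 2 - m0 - a - b), φ r := by
    rw [sum_image]
    intro a _ a' _ h
    simp only at h
    omega
  have h2 : ∑ i ∈ range 21, ∑ r ∈ iv d (-(M0 + M1 + M3) - 10 + (i : ℤ)), φ r =
      ∑ r ∈ (range 21).biUnion (fun i => iv d (-(M0 + M1 + M3) - 10 + (i : ℤ))), φ r := by
    rw [sum_biUnion]
    intro i _ j _ hij
    rw [Function.onFun, disjoint_left]
    intro r hr hr'
    rw [mem_iv] at hr hr'
    apply hij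
    have : -(M0 + M1 + M3) - 10 + (i : ℤ) = -(M0 + M1 + M3) - 10 + (j : ℤ) := hr.symm.trans hr'
    omega
  rw [h1, h2]
  refine sum_le_sum_of_subset_of_nonneg ?_ fun r _ _ => hφ r
  intro r hr
  obtain ⟨a, ha, rfl⟩ := mem_image.1 hr
  rw [mem_biUnion]
  have he := PL.self_mem_iv d (o - 2 - m0 - a - b)
  have hq : -10 ≤ ix d (o - 2 - m0 - a - b) + (M0 + M1 + M3) ∧
      ix d (o - 2 - m0 - a - b) + (M0 + M1 + M3) ≤ 10 := by
    generalize ix d (o - 2 - m0 - a - b) = q at he ⊢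
    unfold PL.iv at h0 hb ha he
    rw [mem_Ico] at h0 hb ha he
    rw [mem_Icc] at ho
    have hD : (1 : ℤ) ≤ 2 ^ d := one_le_pow₀ (by norm_num)
    generalize (2 : ℤ) ^ d = D at *
    constructor
    · by_contra hc
      push Not at hc
      have h3 : D * (q + (M0 + M1 + M3) + 4) ≤ D * (-7) :=
        mul_le_mul_of_nonneg_left (by omega) (by omega)
      nlinarith
    · by_contra hc
      push Not at hc
      have h3 : D * 11 ≤ D * (q + (M0 + M1 + M3)) :=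
        mul_le_mul_of_nonneg_left (by omega) (by omega)
      nlinarith
  refine ⟨(ix d (o - 2 - m0 - a - b) + (M0 + M1 + M3) + 10).toNat, ?_, ?_⟩
  · rw [mem_range]
    omega
  · rw [mem_iv, Int.toNat_of_nonneg (by omega)]
    ring

/-- local packing of the nodes over the squares of `F1`, any offset of the window -/
theorem pack1g {n : ℕ} {Q : ℕ → Pt → Prop} {cP : ℝ} (hQ : QPack n Q cP) {o : ℤ}
    (ho : o ∈ Icc (-8 : ℤ) 12) {k : ℕ} (hk : k ≤ n) (m : Pt) :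
    ∑ y ∈ cb k m, ∑ j ∈ range (k + 1), (if nA1 o Q j (cx j y) then (1 : ℝ) else 0) ≤
      21 * cP * 8 ^ k := by
  have key : ∀ y0 ∈ iv k m.1, ∑ y1 ∈ iv k m.2.1, ∑ y3 ∈ iv k m.2.2, ∑ j ∈ range (k + 1),
      (if nA1 o Q j (cx j (y0, y1, y3)) then (1 : ℝ) else 0) ≤ 21 * cP * 4 ^ k := by
    intro y0 hy0
    have e1 : ∑ y1 ∈ iv k m.2.1, ∑ y3 ∈ iv k m.2.2, ∑ j ∈ range (k + 1),
        (if nA1 o Q j (cx j (y0, y1, y3)) then (1 : ℝ) else 0) =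
        ∑ j ∈ range (k + 1), ∑ b ∈ iv (k - j) m.2.2, ∑ a ∈ iv (k - j) m.2.1,
          (if Q j (ix j y0, o - 2 - ix j y0 - a - b, b) then (4 : ℝ) ^ j else 0) := by
      rw [sum_congr rfl fun y1 _ => sum_comm, sum_comm]
      refine sum_congr rfl fun j hj => ?_
      have hj' : j ≤ k := by rw [mem_range] at hj; omega
      have e2 : ∀ y1 ∈ iv k m.2.1, ∑ y3 ∈ iv k m.2.2,
          (if nA1 o Q j (cx j (y0, y1, y3)) then (1 : ℝ) else 0) =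
          2 ^ j * ∑ b ∈ iv (k - j) m.2.2,
            (if Q j (ix j y0, o - 2 - ix j y0 - ix j y1 - b, b) then (1 : ℝ) else 0) := by
        intro y1 _
        rw [← iv_const hj' m.2.2
          (fun b => if Q j (ix j y0, o - 2 - ix j y0 - ix j y1 - b, b) then (1 : ℝ) else 0)]
        rfl
      rw [sum_congr rfl e2, iv_const hj' m.2.1 (fun a => 2 ^ j * ∑ b ∈ iv (k - j) m.2.2,
        (if Q j (ix j y0, o - 2 - ix j y0 - a - b, b) then (1 : ℝ) else 0)), mul_sum, sum_comm,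
        sum_comm]
      simp only [mul_sum]
      rw [sum_comm]
      refine sum_congr rfl fun b _ => sum_congr rfl fun a _ => ?_
      rw [show (4 : ℝ) ^ j = 2 ^ j * 2 ^ j by rw [← mul_pow]; norm_num]
      split_ifs <;> ring
    rw [e1]
    have h1 : ∀ j ∈ range (k + 1), ∑ b ∈ iv (k - j) m.2.2, ∑ a ∈ iv (k - j) m.2.1,
        (if Q j (ix j y0, o - 2 - ix j y0 - a - b, b) then (4 : ℝ) ^ j else 0) ≤
        ∑ i ∈ range 21, ∑ r ∈ iv (k - j) (-(m.1 + m.2.1 + m.2.2) - 10 + (i : ℤ)),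
          ∑ b ∈ iv (k - j) m.2.2, (if Q j (ix j y0, r, b) then (4 : ℝ) ^ j else 0) := by
      intro j hj
      have hj' : j ≤ k := by rw [mem_range] at hj; omega
      refine (sum_le_sum fun b hb => tie_win ho (ix_mem hj' hy0) hb
        (fun r => if Q j (ix j y0, r, b) then (4 : ℝ) ^ j else 0)
        (fun r => by split_ifs <;> positivity)).trans (le_of_eq ?_)
      rw [sum_comm]
      exact sum_congr rfl fun i _ => sum_comm
    refine (sum_le_sum h1).trans ?_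
    rw [sum_comm]
    refine (sum_le_sum fun i _ => hQ y0 k hk _ _).trans (le_of_eq ?_)
    rw [sum_const, card_range]
    simp
    ring
  unfold PL.cb
  rw [sum_product]
  simp only [sum_product]
  refine (sum_le_sum key).trans (le_of_eq ?_)
  rw [sum_const, card_iv, nsmul_eq_mul]
  push_cast
  rw [show (8 : ℝ) ^ k = 2 ^ k * 4 ^ k by rw [← mul_pow]; norm_num]
  ring

/-- local packing of the nodes over the squares of `F3`, any offset of the window -/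
theorem pack3g {n : ℕ} {Q : ℕ → Pt → Prop} {cP : ℝ} (hQ : QPack n Q cP) {o : ℤ}
    (ho : o ∈ Icc (-8 : ℤ) 12) {k : ℕ} (hk : k ≤ n) (m : Pt) :
    ∑ y ∈ cb k m, ∑ j ∈ range (k + 1), (if nA3 o Q j (cx j y) then (1 : ℝ) else 0) ≤
      21 * cP * 8 ^ k := by
  have key : ∀ y0 ∈ iv k m.1, ∑ y1 ∈ iv k m.2.1, ∑ y3 ∈ iv k m.2.2, ∑ j ∈ range (k + 1),
      (if nA3 o Q j (cx j (y0, y1, y3)) then (1 : ℝ) else 0) ≤ 21 * cP * 4 ^ k := by
    intro y0 hy0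
    have e1 : ∑ y1 ∈ iv k m.2.1, ∑ y3 ∈ iv k m.2.2, ∑ j ∈ range (k + 1),
        (if nA3 o Q j (cx j (y0, y1, y3)) then (1 : ℝ) else 0) =
        ∑ j ∈ range (k + 1), ∑ a ∈ iv (k - j) m.2.1, ∑ b ∈ iv (k - j) m.2.2,
          (if Q j (ix j y0, a, o - 2 - ix j y0 - b - a) then (4 : ℝ) ^ j else 0) := by
      rw [sum_congr rfl fun y1 _ => sum_comm, sum_comm]
      refine sum_congr rfl fun j hj => ?_
      have hj' : j ≤ k := by rw [mem_range] at hj; omega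
      have e2 : ∀ y1 ∈ iv k m.2.1, ∑ y3 ∈ iv k m.2.2,
          (if nA3 o Q j (cx j (y0, y1, y3)) then (1 : ℝ) else 0) =
          2 ^ j * ∑ b ∈ iv (k - j) m.2.2,
            (if Q j (ix j y0, ix j y1, o - 2 - ix j y0 - ix j y1 - b) then (1 : ℝ) else 0) := by
        intro y1 _
        rw [← iv_const hj' m.2.2
          (fun b => if Q j (ix j y0, ix j y1, o - 2 - ix j y0 - ix j y1 - b)
            then (1 : ℝ) else 0)]
        rfl
      rw [sum_congr rfl e2, iv_const hj' m.2.1 (fun a => 2 ^ j * ∑ b ∈ iv (k - j) m.2.2,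
        (if Q j (ix j y0, a, o - 2 - ix j y0 - a - b) then (1 : ℝ) else 0)), mul_sum]
      simp only [mul_sum]
      refine sum_congr rfl fun a _ => sum_congr rfl fun b _ => ?_
      rw [show (4 : ℝ) ^ j = 2 ^ j * 2 ^ j by rw [← mul_pow]; norm_num,
        show o - 2 - ix j y0 - b - a = o - 2 - ix j y0 - a - b by ring]
      split_ifs <;> ring
    rw [e1]
    have h1 : ∀ j ∈ range (k + 1), ∑ a ∈ iv (k - j) m.2.1, ∑ b ∈ iv (k - j) m.2.2,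
        (if Q j (ix j y0, a, o - 2 - ix j y0 - b - a) then (4 : ℝ) ^ j else 0) ≤
        ∑ i ∈ range 21, ∑ a ∈ iv (k - j) m.2.1,
          ∑ r ∈ iv (k - j) (-(m.1 + m.2.2 + m.2.1) - 10 + (i : ℤ)),
            (if Q j (ix j y0, a, r) then (4 : ℝ) ^ j else 0) := by
      intro j hj
      have hj' : j ≤ k := by rw [mem_range] at hj; omega
      refine (sum_le_sum fun a ha => tie_win ho (ix_mem hj' hy0) ha
        (fun r => if Q j (ix j y0, a, r) then (4 : ℝ) ^ j else 0)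
        (fun r => by split_ifs <;> positivity)).trans (le_of_eq ?_)
      rw [sum_comm]
    refine (sum_le_sum h1).trans ?_
    rw [sum_comm]
    refine (sum_le_sum fun i _ => hQ y0 k hk _ _).trans (le_of_eq ?_)
    rw [sum_const, card_range]
    simp
    ring
  unfold PL.cb
  rw [sum_product]
  simp only [sum_product]
  refine (sum_le_sum key).trans (le_of_eq ?_)
  rw [sum_const, card_iv, nsmul_eq_mul]
  push_cast
  rw [show (8 : ℝ) ^ k = 2 ^ k * 4 ^ k by rw [← mul_pow]; norm_num]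
  ring

/-- **packing of the affected nodes, any offset of the window** -/
theorem gpack_gen {n : ℕ} {Q1 Q2 Q3 : ℕ → Pt → Prop} {c1 c2 c3 : ℝ} (h1 : QPack n Q1 c1)
    (h2 : QPack n Q2 c2) (h3 : QPack n Q3 c3) {o : ℤ} (ho : o ∈ Icc (-8 : ℤ) 12) {K : ℕ}
    (hK : K ≤ n) : GPack (nAff o Q1 Q2 Q3) K (21 * c1 + (c2 + 21 * c3)) := by
  have g1 : GPack (nA1 o Q1) K (21 * c1) := fun k hk m => pack1g h1 ho (hk.trans hK) m
  have g2 : GPack Q2 K c2 := fun k hk m => pack2 h2 (hk.trans hK) m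
  have g3 : GPack (nA3 o Q3) K (21 * c3) := fun k hk m => pack3g h3 ho (hk.trans hK) m
  exact (g1.or (g2.or g3)).mono fun _ _ h => h

/-! ### The kernel as a mean over shifts -/

theorem mean_rs (k N : ℕ) (h : k ≤ N) (x : ℤ) (g : ℤ → ℝ) :
    ((2 : ℝ) ^ k)⁻¹ * ∑ v ∈ range (2 ^ k), g v =
      ((2 : ℝ) ^ N)⁻¹ * ∑ s ∈ range (2 ^ N), g (2 ^ k * (1 + ix k (x - s)) - 1 - (x - s)) := by
  have h1 := H795.sum_res k N h x fun v => g (2 ^ k - 1 - v)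
  have h2 : ∑ v ∈ range (2 ^ k), g (v : ℤ) = ∑ v ∈ range (2 ^ k), g (2 ^ k - 1 - (v : ℤ)) := by
    rw [← sum_range_reflect]
    refine sum_congr rfl fun v hv => ?_
    rw [mem_range] at hv
    congr 1
    rw [Nat.sub_sub, Nat.cast_sub (by omega)]
    push_cast
    ring
  have h3 : ∑ s ∈ range (2 ^ N), g (2 ^ k * (1 + ix k (x - (s : ℤ))) - 1 - (x - (s : ℤ))) =
      ∑ s ∈ range (2 ^ N), g (2 ^ k - 1 - (x - (s : ℤ)) % 2 ^ k) := by
    refine sum_congr rfl fun s _ => ?_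
    congr 1
    have h4 := Int.mul_ediv_add_emod (x - s) (2 ^ k)
    unfold PL.ix
    linarith
  rw [h2, h3, h1, ← mul_assoc]
  congr 1
  have e : (2 : ℝ) ^ N = 2 ^ k * 2 ^ (N - k) := by rw [← pow_add, Nat.add_sub_cancel' h]
  rw [e]
  have h5 : (2 : ℝ) ^ k ≠ 0 := by positivity
  have h6 : (2 : ℝ) ^ (N - k) ≠ 0 := by positivity
  field_simp

/-- the profile of the plane of the shift `s` -/
def pf (c : ℤ) (k : ℕ) (s x : Pt) : ℝ :=
  V3 (ix k (c + 3 - s.1 - s.2.1 - s.2.2) - 3 - ix k (x.1 - s.1) - ix k (x.2.1 - s.2.1) -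
    ix k (x.2.2 - s.2.2))

theorem mean3 (N : ℕ) (h : ℤ → ℤ → ℤ → ℝ) :
    ((2 : ℝ) ^ N)⁻¹ * ∑ s1 ∈ range (2 ^ N), ((2 : ℝ) ^ N)⁻¹ * ∑ s2 ∈ range (2 ^ N),
      ((2 : ℝ) ^ N)⁻¹ * ∑ s3 ∈ range (2 ^ N), h s1 s2 s3 =
    ((8 : ℝ) ^ N)⁻¹ * ∑ s ∈ cb N 0, h s.1 s.2.1 s.2.2 := by
  have e8 : ((8 : ℝ) ^ N)⁻¹ = ((2 : ℝ) ^ N)⁻¹ * (((2 : ℝ) ^ N)⁻¹ * ((2 : ℝ) ^ N)⁻¹) := by
    rw [show (8 : ℝ) ^ N = 2 ^ N * (2 ^ N * 2 ^ N) by rw [← mul_pow, ← mul_pow]; norm_num]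
    rw [mul_inv, mul_inv]
  have e1 : ∑ s ∈ cb N 0, h s.1 s.2.1 s.2.2 = ∑ s1 ∈ range (2 ^ N), ∑ s2 ∈ range (2 ^ N),
      ∑ s3 ∈ range (2 ^ N), h s1 s2 s3 := by
    unfold PL.cb
    rw [sum_product]
    simp only [sum_product]
    change ∑ s1 ∈ iv N 0, ∑ s2 ∈ iv N 0, ∑ s3 ∈ iv N 0, h s1 s2 s3 = _
    rw [← H795.sum_range_iv N fun s1 => ∑ s2 ∈ iv N 0, ∑ s3 ∈ iv N 0, h s1 s2 s3]
    refine sum_congr rfl fun s1 _ => ?_
    rw [← H795.sum_range_iv N fun s2 => ∑ s3 ∈ iv N 0, h s1 s2 s3]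
    refine sum_congr rfl fun s2 _ => ?_
    rw [← H795.sum_range_iv N fun s3 => h s1 s2 s3]
  rw [e1, e8]
  simp only [mul_sum]
  refine sum_congr rfl fun s1 _ => sum_congr rfl fun s2 _ => sum_congr rfl fun s3 _ => ?_
  ring

/-- **The kernel is a mean over the shifts.** -/
theorem KK_rep {k N : ℕ} (h : k ≤ N) (c : ℤ) (x : Pt) :
    kp c k x = ((8 : ℝ) ^ N)⁻¹ * ∑ s ∈ cb N 0, ((2 : ℝ) ^ k)⁻¹ * pf c k s x := by
  unfold H795.kp
  rw [H795.KK_eq, mean_rs k N h x.1 fun v1 : ℤ => ((2 : ℝ) ^ k)⁻¹ * ∑ v2 ∈ range (2 ^ k),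
    ((2 : ℝ) ^ k)⁻¹ * ∑ v3 ∈ range (2 ^ k), ((2 : ℝ) ^ k)⁻¹ *
      V3 (ix k (c - x.1 - x.2.1 - x.2.2 - v1 - (v2 : ℤ) - (v3 : ℤ)))]
  have t2 : ∀ u : ℤ, ((2 : ℝ) ^ k)⁻¹ * ∑ v2 ∈ range (2 ^ k), ((2 : ℝ) ^ k)⁻¹ *
      ∑ v3 ∈ range (2 ^ k), ((2 : ℝ) ^ k)⁻¹ *
        V3 (ix k (c - x.1 - x.2.1 - x.2.2 - u - (v2 : ℤ) - (v3 : ℤ))) =
      ((2 : ℝ) ^ N)⁻¹ * ∑ s2 ∈ range (2 ^ N), ((2 : ℝ) ^ N)⁻¹ * ∑ s3 ∈ range (2 ^ N),
        ((2 : ℝ) ^ k)⁻¹ * V3 (ix k (c - x.1 - x.2.1 - x.2.2 - u -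
          (2 ^ k * (1 + ix k (x.2.1 - (s2 : ℤ))) - 1 - (x.2.1 - (s2 : ℤ))) -
          (2 ^ k * (1 + ix k (x.2.2 - (s3 : ℤ))) - 1 - (x.2.2 - (s3 : ℤ))))) := by
    intro u
    rw [mean_rs k N h x.2.1 fun v2 : ℤ => ((2 : ℝ) ^ k)⁻¹ * ∑ v3 ∈ range (2 ^ k),
      ((2 : ℝ) ^ k)⁻¹ * V3 (ix k (c - x.1 - x.2.1 - x.2.2 - u - v2 - (v3 : ℤ)))]
    congr 1
    refine sum_congr rfl fun s2 _ => ?_
    rw [mean_rs k N h x.2.2 fun v3 : ℤ => ((2 : ℝ) ^ k)⁻¹ *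
      V3 (ix k (c - x.1 - x.2.1 - x.2.2 - u -
        (2 ^ k * (1 + ix k (x.2.1 - (s2 : ℤ))) - 1 - (x.2.1 - (s2 : ℤ))) - v3))]
  simp only [t2]
  rw [← mean3 N fun s1 s2 s3 => ((2 : ℝ) ^ k)⁻¹ * pf c k (s1, s2, s3) x]
  congr 1
  refine sum_congr rfl fun s1 _ => ?_
  congr 1
  refine sum_congr rfl fun s2 _ => ?_
  congr 1
  refine sum_congr rfl fun s3 _ => ?_
  unfold pf
  simp only
  have e : c - x.1 - x.2.1 - x.2.2 - (2 ^ k * (1 + ix k (x.1 - s1)) - 1 - (x.1 - s1)) -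
      (2 ^ k * (1 + ix k (x.2.1 - s2)) - 1 - (x.2.1 - s2)) -
      (2 ^ k * (1 + ix k (x.2.2 - s3)) - 1 - (x.2.2 - s3)) =
      (c + 3 - s1 - s2 - s3) + (-3 - ix k (x.1 - s1) - ix k (x.2.1 - s2) -
        ix k (x.2.2 - s3)) * 2 ^ k := by
    ring
  rw [e, H795.ix_add_mul]
  congr 2
  ring

theorem abs_pf (c : ℤ) (k : ℕ) (s x : Pt) : |pf c k s x| ≤ 4 / 3 := H795.abs_V3 _

/-- the offset of a point -/
def wn (x0 : ℤ) (k : ℕ) (y : Pt) : ℤ := ix k x0 + ix k y.1 + ix k y.2.1 + ix k y.2.2 + 2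

/-- the window of the offsets -/
def Win : Finset ℤ := Icc (-8) 12

/-- **support of the profiles** -/
theorem pf_ne {c x0 : ℤ} {k : ℕ} (hc : |ix k c + ix k x0| ≤ 3) {s y : Pt} (h : pf c k s y ≠ 0) :
    wn x0 k y ∈ Win := by
  have h1 := H795.V3_ne h
  rw [abs_le] at hc
  have d0 := PL.self_mem_iv k (c + 3 - s.1 - s.2.1 - s.2.2)
  have d1 := PL.self_mem_iv k (y.1 - s.1)
  have d2 := PL.self_mem_iv k (y.2.1 - s.2.1)
  have d3 := PL.self_mem_iv k (y.2.2 - s.2.2)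
  have g0 := PL.self_mem_iv k c
  have g1 := PL.self_mem_iv k y.1
  have g2 := PL.self_mem_iv k y.2.1
  have g3 := PL.self_mem_iv k y.2.2
  unfold wn Win
  generalize ix k (c + 3 - s.1 - s.2.1 - s.2.2) = E at *
  generalize ix k (y.1 - s.1) = a1 at *
  generalize ix k (y.2.1 - s.2.1) = a2 at *
  generalize ix k (y.2.2 - s.2.2) = a3 at *
  generalize ix k c = C at *
  generalize ix k y.1 = X1 at *
  generalize ix k y.2.1 = X2 at *
  generalize ix k y.2.2 = X3 at *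
  unfold PL.iv at *
  rw [mem_Ico] at d0 d1 d2 d3 g0 g1 g2 g3
  have hD : (1 : ℤ) ≤ 2 ^ k := one_le_pow₀ (by norm_num)
  generalize (2 : ℤ) ^ k = D at *
  have hD0 : (0 : ℤ) ≤ D := by omega
  have u1 : D * (E - 2) ≤ D * (a1 + a2 + a3) := mul_le_mul_of_nonneg_left (by omega) hD0
  have u2 : D * (a1 + a2 + a3) ≤ D * E := mul_le_mul_of_nonneg_left (by omega) hD0
  have l1 : X1 + X2 + X3 ≤ C + 3 := by
    by_contra hh
    push Not at hh
    have h3 : D * (C + 4) ≤ D * (X1 + X2 + X3) := mul_le_mul_of_nonneg_left (by omega) hD0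
    linarith
  have l2 : C - 6 ≤ X1 + X2 + X3 := by
    by_contra hh
    push Not at hh
    have h3 : D * (X1 + X2 + X3) ≤ D * (C - 7) := mul_le_mul_of_nonneg_left (by omega) hD0
    linarith
  rw [mem_Icc]
  omega

/-! ### A multiplier supported on the near planes -/

theorem iv_slice {k N : ℕ} (hk : k ≤ N) (R r : ℤ) (f : ℤ → ℝ) :
    ∑ x ∈ iv N R, (if ix k x = r then f x else 0) =
      if r ∈ iv (N - k) R then ∑ x ∈ iv k r, f x else 0 := by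
  rw [← sum_filter]
  split_ifs with h
  · refine sum_congr ?_ fun _ _ => rfl
    ext z
    rw [mem_filter, mem_iv, mem_iv]
    refine ⟨fun h => h.2, fun h' => ⟨?_, h'⟩⟩
    rw [mem_iv] at h
    rw [← h, ← h', ix_ix, Nat.add_sub_cancel' hk]
  · refine sum_eq_zero fun z hz => ?_
    rw [mem_filter] at hz
    refine absurd ?_ h
    rw [← hz.2]
    exact ix_mem hk hz.1

theorem win_sum {k N : ℕ} (hk : k ≤ N) (R e : ℤ) (f : ℤ → ℝ)
    (hf : ∀ x, f x ≠ 0 → e + ix k x + 2 ∈ Win) :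
    ∑ x ∈ iv N R, f x = ∑ o ∈ Win,
      if o - 2 - e ∈ iv (N - k) R then ∑ x ∈ iv k (o - 2 - e), f x else 0 := by
  have h1 : ∀ o ∈ Win, (if o - 2 - e ∈ iv (N - k) R then ∑ x ∈ iv k (o - 2 - e), f x else 0) =
      ∑ x ∈ iv N R, (if ix k x = o - 2 - e then f x else 0) :=
    fun o _ => (iv_slice hk R (o - 2 - e) f).symm
  rw [sum_congr rfl h1, sum_comm]
  refine sum_congr rfl fun x _ => ?_
  by_cases hx : f x = 0
  · rw [hx]
    simp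
  · have h2 := hf x hx
    rw [sum_eq_single_of_mem (e + ix k x + 2) h2 fun o _ ho => if_neg fun h => ho (by omega),
      if_pos (by ring)]

section mul

variable {κ : Type*} [Fintype κ]

/-- the vector of a node point with the multiplier `φ` -/
def wM (φ : ℤ → ℕ → Pt → ℝ) (A : ℤ → ℕ → ℤ → ℤ → ℝ) (b : ℤ → ℕ → ℤ → ℤ → κ → ℝ) (o : ℤ)
    (b' k : ℕ) (x : Pt) : κ → ℝ :=
  qK (fun z y => φ x.1 k (x.2.1, y, z) * A x.1 (k + b') z y) (b x.1 (k + b')) x.2.2 x.2.1 k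
    (tc o k x)

theorem mul_cell (φ : ℤ → ℕ → Pt → ℝ) (A : ℤ → ℕ → ℤ → ℤ → ℝ) (b C : ℤ → ℕ → ℤ → ℤ → κ → ℝ)
    (R : ℤ → ℕ → ℤ → ℤ → Matrix κ κ ℝ) (o x0 x1 x3 : ℤ) (k b' : ℕ) :
    ∑ x2 ∈ iv k (tc o k (x0, x1, x3)), (2 ^ k : ℝ)⁻¹ * φ x0 k (x1, x2, x3) *
      H677.GA (A x0) (b x0) (C x0) (R x0) k (k + b') (x1, x2, x3) =
      wM φ A b o b' k (x0, x1, x3) ⬝ᵥ R x0 k x3 x1 *ᵥ C x0 (k + b') x3 x1 := by
  unfold wM H677.GA H103.qK
  simp only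
  rw [smul_dotProduct, sum_dotProduct, smul_eq_mul, mul_sum]
  refine sum_congr rfl fun x2 _ => ?_
  rw [smul_dotProduct, smul_eq_mul]
  ring

/-- **The births with a multiplier.** -/
theorem mul_le {N : ℕ} (M : Pt) (t : ℤ) {φ : ℤ → ℕ → Pt → ℝ}
    (hφ : ∀ x0 ∈ iv N t, ∀ k < N, ∀ y, φ x0 k y ≠ 0 → wn x0 k y ∈ Win) {Af : ℤ → ℕ → Pt → Prop}
    {A : ℤ → ℕ → ℤ → ℤ → ℝ} {b C : ℤ → ℕ → ℤ → ℤ → κ → ℝ}
    (R : ℤ → ℕ → ℤ → ℤ → Matrix κ κ ℝ) (h : ∀ o ∈ Win, FAgr o N (Af o) A b C) :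
    ∑ x0 ∈ iv N t, ∑ k ∈ range N, |∑ y ∈ cb N M, (2 ^ k : ℝ)⁻¹ * φ x0 k y *
        (H677.GA (A x0) (b x0) (C x0) (R x0) k k y -
          H677.GA (A x0) (b x0) (C x0) (R x0) k (k + 1) y)| ≤
      ∑ o ∈ Win, ∑ b' ∈ range 2, ∑ k ∈ range (N + 1), ∑ x ∈ cb N (t, M.1, M.2.2),
        (if fAR o N M.2.1 (Af o) k (cx k x) then
          |wM φ A b o b' k x ⬝ᵥ R x.1 k x.2.2 x.2.1 *ᵥ C x.1 (k + b') x.2.2 x.2.1| else 0) := by
  have hnn : ∀ (o : ℤ) (b' k : ℕ) (x : Pt), (0 : ℝ) ≤ (if fAR o N M.2.1 (Af o) k (cx k x) then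
      |wM φ A b o b' k x ⬝ᵥ R x.1 k x.2.2 x.2.1 *ᵥ C x.1 (k + b') x.2.2 x.2.1| else 0) := by
    intro o b' k x
    split_ifs
    · exact abs_nonneg _
    · exact le_rfl
  have hpt : ∀ k ∈ range N, ∀ x0 ∈ iv N t, |∑ y ∈ cb N M, (2 ^ k : ℝ)⁻¹ * φ x0 k y *
        (H677.GA (A x0) (b x0) (C x0) (R x0) k k y -
          H677.GA (A x0) (b x0) (C x0) (R x0) k (k + 1) y)| ≤
      ∑ x1 ∈ iv N M.1, ∑ x3 ∈ iv N M.2.2, ∑ o ∈ Win, ∑ b' ∈ range 2,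
        (if fAR o N M.2.1 (Af o) k (cx k (x0, x1, x3)) then
          |wM φ A b o b' k (x0, x1, x3) ⬝ᵥ R x0 k x3 x1 *ᵥ C x0 (k + b') x3 x1| else 0) := by
    intro k hk x0 hx0
    have hk' := mem_range.1 hk
    unfold PL.cb
    rw [sum_product]
    simp only [sum_product]
    refine (abs_sum_le_sum_abs _ _).trans (sum_le_sum fun x1 _ => ?_)
    rw [sum_comm]
    refine (abs_sum_le_sum_abs _ _).trans (sum_le_sum fun x3 _ => ?_)
    rw [win_sum hk'.le M.2.1 (ix k x0 + ix k x1 + ix k x3) (fun x2 => (2 ^ k : ℝ)⁻¹ *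
      φ x0 k (x1, x2, x3) * (H677.GA (A x0) (b x0) (C x0) (R x0) k k (x1, x2, x3) -
          H677.GA (A x0) (b x0) (C x0) (R x0) k (k + 1) (x1, x2, x3))) (fun x2 h2 => by
        have h3 : φ x0 k (x1, x2, x3) ≠ 0 := by
          intro h0
          apply h2
          rw [h0, mul_zero, zero_mul]
        have h4 := hφ x0 hx0 k hk' _ h3
        unfold wn at h4
        simp only at h4
        rw [show ix k x0 + ix k x1 + ix k x3 + ix k x2 + 2 =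
          ix k x0 + ix k x1 + ix k x2 + ix k x3 + 2 by ring]
        exact h4)]
    refine (abs_sum_le_sum_abs _ _).trans (sum_le_sum fun o ho => ?_)
    have hte : o - 2 - (ix k x0 + ix k x1 + ix k x3) = tc o k (x0, x1, x3) := by
      unfold tc
      ring
    rw [hte]
    by_cases hr : tc o k (x0, x1, x3) ∈ iv (N - k) M.2.1
    · rw [if_pos hr]
      by_cases ha : Af o k (cx k (x0, x1, x3))
      · have hA : fAR o N M.2.1 (Af o) k (cx k (x0, x1, x3)) := ⟨ha, hr, hk'⟩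
        simp only [if_pos hA]
        have e0 := mul_cell φ A b C R o x0 x1 x3 k 0
        have e1 := mul_cell φ A b C R o x0 x1 x3 k 1
        rw [Nat.add_zero] at e0
        simp only [mul_sub]
        rw [sum_sub_distrib, e0, e1, sum_range_succ, sum_range_succ, sum_range_zero, zero_add,
          Nat.add_zero]
        exact abs_sub _ _
      · have hz : ∑ x2 ∈ iv k (tc o k (x0, x1, x3)), (2 ^ k : ℝ)⁻¹ * φ x0 k (x1, x2, x3) *
            (H677.GA (A x0) (b x0) (C x0) (R x0) k k (x1, x2, x3) -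
              H677.GA (A x0) (b x0) (C x0) (R x0) k (k + 1) (x1, x2, x3)) = 0 := by
          refine sum_eq_zero fun x2 hx2 => ?_
          obtain ⟨a1, a2, a3⟩ := h o ho k hk' (x0, x1, x3) ha
          unfold H677.GA
          simp only
          have e1 := a1 x3 (PL.self_mem_iv k x3) x2 hx2
          have e2 := a2 x1 (PL.self_mem_iv k x1) x2 hx2
          have e3 := a3 x3 (PL.self_mem_iv k x3) x1 (PL.self_mem_iv k x1)
          simp only at e1 e2 e3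
          rw [e1, e2, e3, sub_self, mul_zero]
        rw [hz, abs_zero]
        exact sum_nonneg fun b' _ => hnn o b' k (x0, x1, x3)
    · rw [if_neg hr, abs_zero]
      exact sum_nonneg fun b' _ => hnn o b' k (x0, x1, x3)
  refine (sum_le_sum fun x0 hx0 => sum_le_sum fun k hk => hpt k hk x0 hx0).trans ?_
  have e3 : ∀ o ∈ Win, ∀ b' ∈ range 2, ∑ x0 ∈ iv N t, ∑ k ∈ range N, ∑ x1 ∈ iv N M.1,
      ∑ x3 ∈ iv N M.2.2, (if fAR o N M.2.1 (Af o) k (cx k (x0, x1, x3)) then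
          |wM φ A b o b' k (x0, x1, x3) ⬝ᵥ R x0 k x3 x1 *ᵥ C x0 (k + b') x3 x1| else 0) ≤
      ∑ k ∈ range (N + 1), ∑ x ∈ cb N (t, M.1, M.2.2),
        (if fAR o N M.2.1 (Af o) k (cx k x) then
          |wM φ A b o b' k x ⬝ᵥ R x.1 k x.2.2 x.2.1 *ᵥ C x.1 (k + b') x.2.2 x.2.1| else 0) := by
    intro o _ b' _
    rw [sum_comm]
    refine le_trans (le_of_eq ?_) (sum_le_sum_of_subset_of_nonneg
      (range_subset_range.2 (Nat.le_succ N)) fun k _ _ => sum_nonneg fun x _ => hnn o b' k x)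
    refine sum_congr rfl fun k _ => ?_
    unfold PL.cb
    rw [sum_product]
    simp only [sum_product]
  refine le_trans (le_of_eq ?_) (sum_le_sum fun o ho => sum_le_sum (e3 o ho))
  have s1 : ∀ (x0 : ℤ) (k : ℕ) (f : ℤ → ℤ → ℤ → ℕ → ℝ), ∑ x1 ∈ iv N M.1, ∑ x3 ∈ iv N M.2.2,
      ∑ o ∈ Win, ∑ b' ∈ range 2, f x1 x3 o b' =
      ∑ o ∈ Win, ∑ b' ∈ range 2, ∑ x1 ∈ iv N M.1, ∑ x3 ∈ iv N M.2.2, f x1 x3 o b' := by
    intro x0 k f
    have t1 : ∀ x1 ∈ iv N M.1, ∑ x3 ∈ iv N M.2.2, ∑ o ∈ Win, ∑ b' ∈ range 2, f x1 x3 o b' =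
        ∑ o ∈ Win, ∑ b' ∈ range 2, ∑ x3 ∈ iv N M.2.2, f x1 x3 o b' := by
      intro x1 _
      rw [sum_comm]
      exact sum_congr rfl fun o _ => sum_comm
    rw [sum_congr rfl t1, sum_comm]
    exact sum_congr rfl fun o _ => sum_comm
  have s2 : ∀ f : ℤ → ℕ → ℤ → ℕ → ℝ, ∑ x0 ∈ iv N t, ∑ k ∈ range N, ∑ o ∈ Win, ∑ b' ∈ range 2,
      f x0 k o b' = ∑ o ∈ Win, ∑ b' ∈ range 2, ∑ x0 ∈ iv N t, ∑ k ∈ range N, f x0 k o b' := by
    intro f
    have t1 : ∀ x0 ∈ iv N t, ∑ k ∈ range N, ∑ o ∈ Win, ∑ b' ∈ range 2, f x0 k o b' =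
        ∑ o ∈ Win, ∑ b' ∈ range 2, ∑ k ∈ range N, f x0 k o b' := by
      intro x0 _
      rw [sum_comm]
      exact sum_congr rfl fun o _ => sum_comm
    rw [sum_congr rfl t1, sum_comm]
    exact sum_congr rfl fun o _ => sum_comm
  rw [← s2]
  refine sum_congr rfl fun x0 _ => sum_congr rfl fun k _ => ?_
  exact s1 x0 k _

/-! ### The energy of the vectors -/

/-- one row -/
theorem qK_row {A : ℤ → ℤ → ℝ} (b : ℤ → ℤ → κ → ℝ) (ψ : ℤ → ℝ) {B : ℝ} (hψ : ∀ y, ψ y ^ 2 ≤ B)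
    {k : ℕ} {c : ℝ} (hc : 0 ≤ c) {m2 m3 : ℤ} (hA : ∀ w : ℤ → ℝ,
      ∑ z ∈ iv k m3, (∑ y ∈ iv k m2, A z y * w y) ^ 2 ≤ c * 4 ^ k * ∑ y ∈ iv k m2, w y ^ 2)
    (x1 : ℤ) :
    ∑ x3 ∈ iv k m3, qK (fun z y => ψ y * A z y) b x3 x1 k m2 ⬝ᵥ
      qK (fun z y => ψ y * A z y) b x3 x1 k m2 ≤
      c * (B * ∑ y ∈ iv k m2, b x1 y ⬝ᵥ b x1 y) := by
  have e1 : ∀ x3 ∈ iv k m3, qK (fun z y => ψ y * A z y) b x3 x1 k m2 ⬝ᵥ
      qK (fun z y => ψ y * A z y) b x3 x1 k m2 =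
      ∑ i, ((2 ^ k : ℝ)⁻¹ * (2 ^ k : ℝ)⁻¹) *
        (∑ y ∈ iv k m2, A x3 y * (ψ y * b x1 y i)) ^ 2 := by
    intro x3 _
    unfold H103.qK dotProduct
    refine sum_congr rfl fun i _ => ?_
    have : (((2 : ℝ) ^ k)⁻¹ • ∑ y ∈ iv k m2, (ψ y * A x3 y) • b x1 y) i =
        ((2 : ℝ) ^ k)⁻¹ * ∑ y ∈ iv k m2, A x3 y * (ψ y * b x1 y i) := by
      rw [Pi.smul_apply, Finset.sum_apply, smul_eq_mul]
      congr 1
      refine sum_congr rfl fun y _ => ?_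
      rw [Pi.smul_apply, smul_eq_mul]
      ring
    rw [this]
    ring
  rw [sum_congr rfl e1, sum_comm]
  have e2 : B * ∑ y ∈ iv k m2, b x1 y ⬝ᵥ b x1 y = ∑ i, ∑ y ∈ iv k m2, B * b x1 y i ^ 2 := by
    unfold dotProduct
    rw [sum_comm, mul_sum]
    refine sum_congr rfl fun y _ => ?_
    rw [mul_sum]
    exact sum_congr rfl fun i _ => by ring
  rw [e2, mul_sum]
  refine sum_le_sum fun i _ => ?_
  rw [← mul_sum]
  have h1 := hA fun y => ψ y * b x1 y i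
  have h2 : (0 : ℝ) ≤ (2 ^ k : ℝ)⁻¹ * (2 ^ k : ℝ)⁻¹ := by positivity
  have h4 : ∑ y ∈ iv k m2, (ψ y * b x1 y i) ^ 2 ≤ ∑ y ∈ iv k m2, B * b x1 y i ^ 2 :=
    sum_le_sum fun y _ => by
      rw [mul_pow]
      exact mul_le_mul_of_nonneg_right (hψ y) (sq_nonneg _)
  refine (mul_le_mul_of_nonneg_left h1 h2).trans ?_
  have h3 : (2 : ℝ) ^ k ≠ 0 := by positivity
  have e4 : (2 ^ k : ℝ)⁻¹ * (2 ^ k : ℝ)⁻¹ * (c * 4 ^ k * ∑ y ∈ iv k m2, (ψ y * b x1 y i) ^ 2) =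
      c * ∑ y ∈ iv k m2, (ψ y * b x1 y i) ^ 2 := by
    rw [show (4 : ℝ) ^ k = 2 ^ k * 2 ^ k by rw [← mul_pow]; norm_num]
    field_simp
  rw [e4]
  exact mul_le_mul_of_nonneg_left h4 hc

/-- two classes of shifted cells in a cell -/
theorem two_cells (k : ℕ) (s m z : ℤ) (hz : z ∈ iv k m) :
    ix k (z - s) = ix k (2 ^ k * m - s) ∨ ix k (z - s) = ix k (2 ^ k * m + 2 ^ k - 1 - s) := by
  have d1 := PL.self_mem_iv k (z - s)
  have d2 := PL.self_mem_iv k (2 ^ k * m - s)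
  have d3 := PL.self_mem_iv k (2 ^ k * m + 2 ^ k - 1 - s)
  generalize ix k (z - s) = a at *
  generalize ix k (2 ^ k * m - s) = a1 at *
  generalize ix k (2 ^ k * m + 2 ^ k - 1 - s) = a2 at *
  unfold PL.iv at *
  rw [mem_Ico] at d1 d2 d3 hz
  have hD : (1 : ℤ) ≤ 2 ^ k := one_le_pow₀ (by norm_num)
  generalize (2 : ℤ) ^ k = D at *
  generalize D * m = p at *
  have hD0 : (0 : ℤ) ≤ D := by omega
  have h1 : a1 ≤ a := by
    by_contra hh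
    push Not at hh
    have : D * (a + 1) ≤ D * a1 := mul_le_mul_of_nonneg_left (by omega) hD0
    linarith
  have h2 : a ≤ a2 := by
    by_contra hh
    push Not at hh
    have : D * (a2 + 1) ≤ D * a := mul_le_mul_of_nonneg_left (by omega) hD0
    linarith
  have h3 : a2 ≤ a1 + 1 := by
    by_contra hh
    push Not at hh
    have : D * (a1 + 2) ≤ D * a2 := mul_le_mul_of_nonneg_left (by omega) hD0
    linarith
  omega

/-- **the energy of the vectors at one node**, the multiplier depends on `x3` through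
`ix k (x3 - s)` -/
theorem wM_cell {φ : ℤ → ℕ → Pt → ℝ} (hφ : ∀ x0 k y, |φ x0 k y| ≤ 4 / 3) {s : ℤ}
    (hdep : ∀ x0 k x1 y z z', ix k (z - s) = ix k (z' - s) →
      φ x0 k (x1, y, z) = φ x0 k (x1, y, z')) (A : ℤ → ℕ → ℤ → ℤ → ℝ)
    (b : ℤ → ℕ → ℤ → ℤ → κ → ℝ) {o : ℤ} {b' k : ℕ} {c : ℝ} (hc : 0 ≤ c) {x0 m1 m2 m3 : ℤ}
    (hm : o - 2 - ix k x0 - m1 - m3 = m2)
    (hA : ∀ w : ℤ → ℝ, ∑ z ∈ iv k m3, (∑ y ∈ iv k m2, A x0 (k + b') z y * w y) ^ 2 ≤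
      c * 4 ^ k * ∑ y ∈ iv k m2, w y ^ 2) :
    ∑ x1 ∈ iv k m1, ∑ x3 ∈ iv k m3, wM φ A b o b' k (x0, x1, x3) ⬝ᵥ
      wM φ A b o b' k (x0, x1, x3) ≤
      4 * c * ∑ x1 ∈ iv k m1, ∑ y ∈ iv k m2, b x0 (k + b') x1 y ⬝ᵥ b x0 (k + b') x1 y := by
  rw [mul_sum]
  refine sum_le_sum fun x1 h1 => ?_
  set z0 : ℤ := 2 ^ k * m3 with hz0
  set z1 : ℤ := 2 ^ k * m3 + 2 ^ k - 1 with hz1
  have hsq : ∀ z' y, φ x0 k (x1, y, z') ^ 2 ≤ 16 / 9 := by
    intro z' y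
    have := hφ x0 k (x1, y, z')
    rw [abs_le] at this
    nlinarith
  have e1 : ∀ x3 ∈ iv k m3, wM φ A b o b' k (x0, x1, x3) ⬝ᵥ wM φ A b o b' k (x0, x1, x3) ≤
      qK (fun z y => φ x0 k (x1, y, z0) * A x0 (k + b') z y) (b x0 (k + b')) x3 x1 k m2 ⬝ᵥ
        qK (fun z y => φ x0 k (x1, y, z0) * A x0 (k + b') z y) (b x0 (k + b')) x3 x1 k m2 +
      qK (fun z y => φ x0 k (x1, y, z1) * A x0 (k + b') z y) (b x0 (k + b')) x3 x1 k m2 ⬝ᵥ
        qK (fun z y => φ x0 k (x1, y, z1) * A x0 (k + b') z y) (b x0 (k + b')) x3 x1 k m2 := by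
    intro x3 h3
    have ht : tc o k (x0, x1, x3) = m2 := by
      unfold tc
      rw [mem_iv] at h1 h3
      simp only
      rw [h1, h3, hm]
    have key : ∀ z', ix k (x3 - s) = ix k (z' - s) → wM φ A b o b' k (x0, x1, x3) =
        qK (fun z y => φ x0 k (x1, y, z') * A x0 (k + b') z y) (b x0 (k + b')) x3 x1 k m2 := by
      intro z' hz'
      unfold wM H103.qK
      rw [ht]
      congr 1
      refine sum_congr rfl fun y _ => ?_
      simp only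
      rw [hdep x0 k x1 y x3 z' hz']
    rcases two_cells k s m3 x3 h3 with h | h
    · rw [key z0 h]
      exact le_add_of_nonneg_right (nsq_nonneg _)
    · rw [key z1 h]
      exact le_add_of_nonneg_left (nsq_nonneg _)
  refine (sum_le_sum e1).trans ?_
  rw [sum_add_distrib]
  have r0 := qK_row (b x0 (k + b')) (fun y => φ x0 k (x1, y, z0)) (hsq z0) hc hA x1
  have r1 := qK_row (b x0 (k + b')) (fun y => φ x0 k (x1, y, z1)) (hsq z1) hc hA x1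
  have hb : 0 ≤ ∑ y ∈ iv k m2, b x0 (k + b') x1 y ⬝ᵥ b x0 (k + b') x1 y :=
    sum_nonneg fun y _ => nsq_nonneg _
  have hcb := mul_nonneg hc hb
  nlinarith

/-- **the energy of the vectors over the affected nodes** -/
theorem wM_aff {o : ℤ} {N : ℕ} (M : Pt) (t : ℤ) {Af : ℕ → Pt → Prop} {P : ℝ} (hP : GPack Af N P)
    {φ : ℤ → ℕ → Pt → ℝ} (hφ : ∀ x0 k y, |φ x0 k y| ≤ 4 / 3) {s : ℤ}
    (hdep : ∀ x0 k x1 y z z', ix k (z - s) = ix k (z' - s) →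
      φ x0 k (x1, y, z) = φ x0 k (x1, y, z'))
    {A : ℤ → ℕ → ℤ → ℤ → ℝ} {b : ℤ → ℕ → ℤ → ℤ → κ → ℝ} {b' : ℕ} {c β : ℝ} (hc : 0 ≤ c)
    (hβ : 0 ≤ β)
    (hA : ∀ k < N, ∀ x ∈ cb N (t, M.1, M.2.2), fAR o N M.2.1 Af k (cx k x) → ∀ w : ℤ → ℝ,
      ∑ z ∈ iv k (ix k x.2.2), (∑ y ∈ iv k (tc o k x), A x.1 (k + b') z y * w y) ^ 2 ≤
        c * 4 ^ k * ∑ y ∈ iv k (tc o k x), w y ^ 2)
    (hb : ∀ k < N, ∀ x ∈ cb N (t, M.1, M.2.2), fAR o N M.2.1 Af k (cx k x) →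
      ∑ x0 ∈ iv k (ix k x.1), ∑ x1 ∈ iv k (ix k x.2.1), ∑ y ∈ iv k (tc o k x),
        b x0 (k + b') x1 y ⬝ᵥ b x0 (k + b') x1 y ≤ β * 8 ^ k) :
    ∑ k ∈ range (N + 1), ∑ x ∈ cb N (t, M.1, M.2.2),
      (if fAR o N M.2.1 Af k (cx k x) then
        wM φ A b o b' k x ⬝ᵥ wM φ A b o b' k x else 0) ≤ 4 * c * β * (P * 8 ^ N) := by
  have hp : ∑ x ∈ cb N (t, M.1, M.2.2), ∑ k ∈ range (N + 1),
      (if fAR o N M.2.1 Af k (cx k x) then (1 : ℝ) else 0) ≤ P * 8 ^ N :=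
    (hP.mono (A' := fAR o N M.2.1 Af) fun _ _ h => h.1) N le_rfl (t, M.1, M.2.2)
  refine wV_sum hp (by positivity) (fun k x => wM φ A b o b' k x ⬝ᵥ wM φ A b o b' k x) ?_
  intro k hk x hx ha
  have hkN : k < N := ha.2.2
  have h2 : ∀ y ∈ cb k (cx k x), y ∈ cb N (t, M.1, M.2.2) := by
    intro y hy
    rw [mem_cb] at hx hy ⊢
    rw [cx_le hk hy]
    exact hx
  unfold PL.cb
  rw [sum_product]
  simp only [sum_product]
  change ∑ x0 ∈ iv k (ix k x.1), ∑ x1 ∈ iv k (ix k x.2.1), ∑ x3 ∈ iv k (ix k x.2.2), _ ≤ _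
  have h3 : ∀ x0 ∈ iv k (ix k x.1), ∑ x1 ∈ iv k (ix k x.2.1), ∑ x3 ∈ iv k (ix k x.2.2),
        wM φ A b o b' k (x0, x1, x3) ⬝ᵥ wM φ A b o b' k (x0, x1, x3) ≤
      4 * c * ∑ x1 ∈ iv k (ix k x.2.1), ∑ y ∈ iv k (tc o k x),
        b x0 (k + b') x1 y ⬝ᵥ b x0 (k + b') x1 y := by
    intro x0 h0
    have hcx : cx k (x0, x.2.1, x.2.2) = cx k x := by
      unfold PL.cx
      rw [mem_iv.1 h0]
    have hy := h2 (x0, x.2.1, x.2.2) (mem_cb.2 hcx)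
    have h4 := hA k hkN (x0, x.2.1, x.2.2) hy (by rw [hcx]; exact ha)
    have e : tc o k (x0, x.2.1, x.2.2) = tc o k x := by
      unfold tc
      simp only
      rw [mem_iv.1 h0]
    rw [e] at h4
    refine wM_cell hφ hdep A b hc ?_ h4
    unfold tc
    rw [mem_iv.1 h0]
  refine (sum_le_sum h3).trans ?_
  rw [← mul_sum]
  calc 4 * c * ∑ x0 ∈ iv k (ix k x.1), ∑ x1 ∈ iv k (ix k x.2.1), ∑ y ∈ iv k (tc o k x),
        b x0 (k + b') x1 y ⬝ᵥ b x0 (k + b') x1 y ≤ 4 * c * (β * 8 ^ k) :=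
        mul_le_mul_of_nonneg_left (hb k hkN x hx ha) (by positivity)
    _ = 4 * c * β * 8 ^ k := by ring

/-- **(P2) The births of the functions with the kernels of the shifted grids.** -/
theorem kp_births {N : ℕ} (M : Pt) (t : ℤ) {c0 : ℤ → ℤ}
    (hc0 : ∀ x0 ∈ iv N t, ∀ k < N, |ix k (c0 x0) + ix k x0| ≤ 3) {Af : ℤ → ℕ → Pt → Prop}
    {A : ℤ → ℕ → ℤ → ℤ → ℝ} {b C : ℤ → ℕ → ℤ → ℤ → κ → ℝ}
    (R : ℤ → ℕ → ℤ → ℤ → Matrix κ κ ℝ) (h : ∀ o ∈ Win, FAgr o N (Af o) A b C) {P : ℝ}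
    (hP : ∀ o ∈ Win, GPack (Af o) N P) {c β EV : ℝ} (hc : 0 ≤ c) (hβ : 0 ≤ β)
    (hA : ∀ o ∈ Win, ∀ b' ∈ range 2, ∀ k < N, ∀ x ∈ cb N (t, M.1, M.2.2),
      fAR o N M.2.1 (Af o) k (cx k x) → ∀ w : ℤ → ℝ,
      ∑ z ∈ iv k (ix k x.2.2), (∑ y ∈ iv k (tc o k x), A x.1 (k + b') z y * w y) ^ 2 ≤
        c * 4 ^ k * ∑ y ∈ iv k (tc o k x), w y ^ 2)
    (hb : ∀ o ∈ Win, ∀ b' ∈ range 2, ∀ k < N, ∀ x ∈ cb N (t, M.1, M.2.2),
      fAR o N M.2.1 (Af o) k (cx k x) →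
      ∑ x0 ∈ iv k (ix k x.1), ∑ x1 ∈ iv k (ix k x.2.1), ∑ y ∈ iv k (tc o k x),
        b x0 (k + b') x1 y ⬝ᵥ b x0 (k + b') x1 y ≤ β * 8 ^ k)
    (hEV : ∀ o ∈ Win, ∀ b' ∈ range 2, ∑ k ∈ range (N + 1), ∑ x ∈ cb N (t, M.1, M.2.2),
      (if fAR o N M.2.1 (Af o) k (cx k x) then
        (R x.1 k x.2.2 x.2.1 *ᵥ C x.1 (k + b') x.2.2 x.2.1) ⬝ᵥ
        (R x.1 k x.2.2 x.2.1 *ᵥ C x.1 (k + b') x.2.2 x.2.1) else 0) ≤ EV) :
    ∑ x0 ∈ iv N t, ∑ k ∈ range N, |In N M (kp (c0 x0) k) (fun y =>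
        H677.GA (A x0) (b x0) (C x0) (R x0) k k y -
          H677.GA (A x0) (b x0) (C x0) (R x0) k (k + 1) y)| ≤
      42 * (√EV * √(4 * c * β * (P * 8 ^ N))) := by
  set B : ℝ := 42 * (√EV * √(4 * c * β * (P * 8 ^ N))) with hB
  have hs : ∀ s ∈ cb N 0, ∑ x0 ∈ iv N t, ∑ k ∈ range N, |∑ y ∈ cb N M, (2 ^ k : ℝ)⁻¹ *
      pf (c0 x0) k s y * (H677.GA (A x0) (b x0) (C x0) (R x0) k k y -
          H677.GA (A x0) (b x0) (C x0) (R x0) k (k + 1) y)| ≤ B := by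
    intro s _
    have hb1 : ∀ x0 k y, |(fun (x0 : ℤ) (k : ℕ) (y : Pt) => pf (c0 x0) k s y) x0 k y| ≤ 4 / 3 :=
      fun x0 k y => abs_pf _ _ _ _
    have hdep : ∀ x0 k x1 y z z', ix k (z - s.2.2) = ix k (z' - s.2.2) →
        (fun (x0 : ℤ) (k : ℕ) (y : Pt) => pf (c0 x0) k s y) x0 k (x1, y, z) =
        (fun (x0 : ℤ) (k : ℕ) (y : Pt) => pf (c0 x0) k s y) x0 k (x1, y, z') := by
      intro x0 k x1 y z z' hz
      unfold pf
      simp only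
      rw [hz]
    refine (mul_le M t (φ := fun x0 k y => pf (c0 x0) k s y)
      (fun x0 hx0 k hk y hy => pf_ne (hc0 x0 hx0 k hk) hy) R h).trans ?_
    have hone : ∀ o ∈ Win, ∀ b' ∈ range 2, ∑ k ∈ range (N + 1), ∑ x ∈ cb N (t, M.1, M.2.2),
        (if fAR o N M.2.1 (Af o) k (cx k x) then
          |wM (fun x0 k y => pf (c0 x0) k s y) A b o b' k x ⬝ᵥ
            R x.1 k x.2.2 x.2.1 *ᵥ C x.1 (k + b') x.2.2 x.2.1| else 0) ≤
        √EV * √(4 * c * β * (P * 8 ^ N)) := by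
      intro o ho b' hb'
      have h2 := aff_cs (fAR o N M.2.1 (Af o)) N (t, M.1, M.2.2) (fun _ _ => 1)
        (fun k x => R x.1 k x.2.2 x.2.1 *ᵥ C x.1 (k + b') x.2.2 x.2.1)
        (fun k x => wM (fun x0 k y => pf (c0 x0) k s y) A b o b' k x)
      simp only [one_mul, one_pow] at h2
      have h3 := wM_aff M t (hP o ho) hb1 hdep (A := A) (b := b) (b' := b') hc hβ
        (hA o ho b' hb') (hb o ho b' hb')
      refine le_trans (le_of_eq ?_) (h2.trans (mul_le_mul (Real.sqrt_le_sqrt (hEV o ho b' hb'))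
        (Real.sqrt_le_sqrt h3) (Real.sqrt_nonneg _) (Real.sqrt_nonneg _)))
      refine sum_congr rfl fun k _ => sum_congr rfl fun x _ => ?_
      rw [dotProduct_comm]
    refine (sum_le_sum fun o ho => sum_le_sum (hone o ho)).trans (le_of_eq ?_)
    have hcard : Win.card = 21 := rfl
    rw [sum_const, sum_const, card_range, nsmul_eq_mul, nsmul_eq_mul, hcard, hB]
    push_cast
    ring
  have hpt : ∀ x0 ∈ iv N t, ∀ k ∈ range N, |In N M (kp (c0 x0) k) (fun y =>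
        H677.GA (A x0) (b x0) (C x0) (R x0) k k y -
          H677.GA (A x0) (b x0) (C x0) (R x0) k (k + 1) y)| ≤
      ((8 : ℝ) ^ N)⁻¹ * ∑ s ∈ cb N 0, |∑ y ∈ cb N M, (2 ^ k : ℝ)⁻¹ *
        pf (c0 x0) k s y * (H677.GA (A x0) (b x0) (C x0) (R x0) k k y -
          H677.GA (A x0) (b x0) (C x0) (R x0) k (k + 1) y)| := by
    intro x0 _ k hk
    rw [mem_range] at hk
    unfold H352.In
    have e1 : ∀ y ∈ cb N M, kp (c0 x0) k y * (H677.GA (A x0) (b x0) (C x0) (R x0) k k y -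
          H677.GA (A x0) (b x0) (C x0) (R x0) k (k + 1) y) =
        ((8 : ℝ) ^ N)⁻¹ * ∑ s ∈ cb N 0, (2 ^ k : ℝ)⁻¹ * pf (c0 x0) k s y *
          (H677.GA (A x0) (b x0) (C x0) (R x0) k k y -
          H677.GA (A x0) (b x0) (C x0) (R x0) k (k + 1) y) := by
      intro y _
      rw [KK_rep hk.le, mul_assoc, sum_mul]
    rw [sum_congr rfl e1, ← mul_sum, sum_comm, abs_mul, abs_of_nonneg (by positivity)]
    exact mul_le_mul_of_nonneg_left (abs_sum_le_sum_abs _ _) (by positivity)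
  refine (sum_le_sum fun x0 hx0 => sum_le_sum (hpt x0 hx0)).trans ?_
  simp only [← mul_sum]
  have e2 : ∑ x0 ∈ iv N t, ∑ k ∈ range N, ∑ s ∈ cb N 0, |∑ y ∈ cb N M, (2 ^ k : ℝ)⁻¹ *
        pf (c0 x0) k s y * (H677.GA (A x0) (b x0) (C x0) (R x0) k k y -
          H677.GA (A x0) (b x0) (C x0) (R x0) k (k + 1) y)| =
      ∑ s ∈ cb N 0, ∑ x0 ∈ iv N t, ∑ k ∈ range N, |∑ y ∈ cb N M, (2 ^ k : ℝ)⁻¹ *
        pf (c0 x0) k s y * (H677.GA (A x0) (b x0) (C x0) (R x0) k k y -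
          H677.GA (A x0) (b x0) (C x0) (R x0) k (k + 1) y)| := by
    rw [sum_congr rfl fun x0 _ => sum_comm, sum_comm]
  rw [e2]
  refine (mul_le_mul_of_nonneg_left (sum_le_sum hs) (by positivity)).trans (le_of_eq ?_)
  rw [sum_const, card_cb, nsmul_eq_mul]
  push_cast
  have h8 : (8 : ℝ) ^ N ≠ 0 := by positivity
  field_simp

end mul

section slot

variable {ι : Type*} [Fintype ι] [DecidableEq ι]

/-- **The energy of the moving slot at the births, families**: `C = fC v Z`; `o` the true tie,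
`o'` the offset of the affected nodes. -/
theorem fC_slot2 (o : ℤ) {o' : ℤ} (A : ℕ → Pt → Prop) {n K : ℕ} (hK : K ≤ n) (M : Pt)
    (sg : ℕ → Pt → ℝ) (l : ℝ) (u v : ℤ → ℤ → ι → ℝ) {Z : ℕ → Pt → ℝ} {Af : ℕ → Pt → Prop}
    {P : ℝ} (hP0 : 0 ≤ P) (hP : GPack Af K P) {e : ℝ} (he : 0 ≤ e)
    (hl0 : ∀ k < n, ∀ m x y : ℤ, ∑ z ∈ iv k m, Z (k + 1) (z, x, y) ^ 2 ≤ e * 2 ^ k)
    (hz0 : Z 0 = 0) (t : ℤ) {h : ℕ} (hh : 1 ≤ h) (hPh : 2 * P ≤ h) (q : ℕ) {τ : ℝ} (hτ : 0 ≤ τ)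
    (hτm : ∀ k ≤ K, ∀ x ∈ cb K (t, M.1, M.2.2), fAR o' K M.2.1 Af k (cx k x) →
      ∑ y1 ∈ iv k (ix k x.2.1), ∑ y3 ∈ iv k (ix k x.2.2),
        (VR A o K M sg l u v y1 y3 k (ix k x.1) ⬝ᵥ VR A o K M sg l u v y1 y3 k (ix k x.1)) ≤
        τ * 4 ^ k) {b : ℕ} (hb : b ∈ range 2) :
    ∑ k ∈ range (K + 1), ∑ x ∈ cb K (t, M.1, M.2.2),
      (if fAR o' K M.2.1 Af k (cx k x) then
        (H677.RT A o K M sg l u k x.1 x.2.2 x.2.1 *ᵥ H677.fC v Z x.1 (k + b) x.2.2 x.2.1) ⬝ᵥ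
        (H677.RT A o K M sg l u k x.1 x.2.2 x.2.1 *ᵥ H677.fC v Z x.1 (k + b) x.2.2 x.2.1)
        else 0) ≤
      (1 + h * q) * ∑ x ∈ cb K (t, M.1, M.2.2), 2 * e *
        (VR A o K M sg l u v x.2.1 x.2.2 0 x.1 ⬝ᵥ VR A o K M sg l u v x.2.1 x.2.2 0 x.1) +
      2 * e * τ * P * (1 / 2) ^ q * 8 ^ K := by
  have hb' := mem_range.1 hb
  have hL : Lin K (2 * e) (fun k x => if k < K then Z (k + b) x else 0) := by
    intro k hk m x1 x3
    have h2 : (0 : ℝ) ≤ 2 ^ k := by positivity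
    have hpos : 0 ≤ 2 * e * 2 ^ k := by positivity
    rcases lt_or_ge k K with hkK | hkK
    · simp only [if_pos hkK]
      rcases Nat.eq_zero_or_pos (k + b) with h0 | h0
      · rw [h0, hz0]
        simpa using hpos
      · interval_cases b
        · rw [Nat.add_zero] at h0 ⊢
          obtain ⟨j, rfl⟩ : ∃ j, k = j + 1 := ⟨k - 1, by omega⟩
          rw [iv_succ]
          have a1 := hl0 j (by omega) (2 * m) x1 x3
          have a2 := hl0 j (by omega) (2 * m + 1) x1 x3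
          have h3 : (0 : ℝ) ≤ 2 ^ j := by positivity
          rw [pow_succ]
          nlinarith
        · refine (hl0 k (by omega) m x1 x3).trans ?_
          nlinarith
    · simp only [if_neg (not_lt.2 hkK)]
      simpa using hpos
  refine le_trans (le_of_eq ?_) (slot_aff
    ((hP.lp (t, M.1, M.2.2)).mono (A' := fAR o' K M.2.1 Af) fun _ _ h => h.1)
    hP0 hh hPh q (by positivity) hτ hL
    (fun x1 x3 => VR_mart A o K M sg l u v x1 x3) hτm)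
  refine sum_congr rfl fun k _ => sum_congr rfl fun x _ => ?_
  split_ifs with h1 h2
  · have e1 : VR A o K M sg l u v x.2.1 x.2.2 k (ix k x.1) =
        H677.RT A o K M sg l u k x.1 x.2.2 x.2.1 *ᵥ v x.2.1 x.2.2 := by
      unfold VR
      rw [H677.RT_ix (j := k) (x0 := 2 ^ k * ix k x.1) (y0 := x.1) (x3 := x.2.2) (y3 := x.2.2)
        x.2.1 (H677.ix_two k _) rfl]
    unfold H677.fC
    rw [mulVec_smul, ← e1, smul_dotProduct, dotProduct_smul, smul_eq_mul, smul_eq_mul]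
    ring
  · exact absurd h1.2.2 h2
  · rfl

end slot

end

end Vale.Agent.P141.H460
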