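import Vale.Agent.P141.PL.Defs

/-!
# P141, line (A), item (b): the moving slot at the affected nodes

Points `x = (x0, x1, x3)`, cells `cb k m`, `cx k x`.  `A k m` : the cell `(k, m)` is affected.

* `tree_aff` : sum over the affected cells of `f k` from Jensen (`hJ`: sum of `f k` on the cell at
  most the sum of `F`), a local bound (`hT`) and the local packing of the affected cells; the first
  `1 + h q` affected cells above a point cost `(1 + h q) SUM F`, the others `T P 2^-q 8^K`;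
* `pack1`, `pack2`, `pack3`, `lpack_aff` : local packing of the affected nodes from the packing of the squares of
  the three faces at fixed `x0`, real ties;
* `jensen`, `slot_aff` : the moving slot `Z_k V_k`, `V` a martingale in `x0`;
* `aff_cs` : Cauchy-Schwarz over the affected nodes with any vectors `w`.
-/

namespace Vale.Agent.P141.H460

open Finset
open Vale.Agent.P141.PL (Pt iv ix cb cx mem_iv mem_cb card_iv card_cb ix_ix)

noncomputable section

open scoped Classical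

/-! ### Cells -/

theorem ix_le {j k : ℕ} (h : j ≤ k) {x y : ℤ} (e : ix j x = ix j y) : ix k x = ix k y := by
  have h1 : ∀ z : ℤ, ix k z = ix (k - j) (ix j z) := fun z => by
    rw [ix_ix, Nat.add_sub_cancel' h]
  rw [h1, h1, e]

theorem cx_le {j k : ℕ} (h : j ≤ k) {x y : Pt} (e : cx j x = cx j y) : cx k x = cx k y := by
  unfold PL.cx at e ⊢
  simp only [Prod.mk.injEq] at e ⊢
  exact ⟨ix_le h e.1, ix_le h e.2.1, ix_le h e.2.2⟩

/-- comparison cell by cell -/
theorem cell_le {k K : ℕ} (hk : k ≤ K) (M : Pt) (E : Pt → Prop) [DecidablePred E]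
    (hE : ∀ x y, cx k x = cx k y → E x → E y) (a b : Pt → ℝ)
    (h : ∀ x ∈ cb K M, E x → ∑ y ∈ cb k (cx k x), a y ≤ ∑ y ∈ cb k (cx k x), b y) :
    ∑ x ∈ cb K M, (if E x then a x else 0) ≤ ∑ x ∈ cb K M, (if E x then b x else 0) := by
  have hm : ∀ x ∈ cb K M, cx k x ∈ (cb K M).image (cx k) := fun x hx => mem_image_of_mem _ hx
  rw [← sum_fiberwise_of_maps_to hm, ← sum_fiberwise_of_maps_to hm]
  refine sum_le_sum fun m hmm => ?_
  obtain ⟨x, hx, rfl⟩ := mem_image.1 hmm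
  have e : (cb K M).filter (fun y => cx k y = cx k x) = cb k (cx k x) := by
    ext y
    rw [mem_filter, mem_cb, mem_cb]
    refine ⟨fun h => h.2, fun h => ⟨?_, h⟩⟩
    rw [cx_le hk h]
    exact mem_cb.1 hx
  rw [e]
  by_cases hx' : E x
  · have e1 : ∀ c : Pt → ℝ, ∑ y ∈ cb k (cx k x), (if E y then c y else 0) =
        ∑ y ∈ cb k (cx k x), c y := fun c =>
      sum_congr rfl fun y hy => if_pos (hE x y (mem_cb.1 hy).symm hx')
    rw [e1, e1]
    exact h x hx hx'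
  · have e1 : ∀ c : Pt → ℝ, ∑ y ∈ cb k (cx k x), (if E y then c y else 0) = 0 := fun c =>
      sum_eq_zero fun y hy => if_neg fun hy' => hx' (hE y x (mem_cb.1 hy) hy')
    rw [e1, e1]

/-! ### The index of an affected cell -/

/-- number of the affected cells of scale `j`, `k ≤ j ≤ K`, over the point `x` -/
def ct (A : ℕ → Pt → Prop) (K k : ℕ) (x : Pt) : ℕ := ((Icc k K).filter fun j => A j (cx j x)).card

theorem ct_cx (A : ℕ → Pt → Prop) (K : ℕ) {k : ℕ} {x y : Pt} (e : cx k x = cx k y) :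
    ct A K k x = ct A K k y := by
  unfold ct
  congr 1
  refine filter_congr fun j hj => ?_
  rw [cx_le (mem_Icc.1 hj).1 e]

theorem ct_anti (A : ℕ → Pt → Prop) (K : ℕ) {k l : ℕ} (h : k ≤ l) (x : Pt) :
    ct A K l x ≤ ct A K k x :=
  card_le_card (filter_subset_filter _ (Icc_subset_Icc_left h))

theorem ct_lt (A : ℕ → Pt → Prop) (K : ℕ) {k l : ℕ} (h : k < l) (hk : k ≤ K) {x : Pt}
    (ha : A k (cx k x)) : ct A K l x < ct A K k x := by
  refine card_lt_card ⟨filter_subset_filter _ (Icc_subset_Icc_left h.le), fun hs => ?_⟩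
  have := hs (mem_filter.2 ⟨mem_Icc.2 ⟨le_refl k, hk⟩, ha⟩)
  have h2 := (mem_Icc.1 (mem_filter.1 this).1).1
  omega

theorem ct_pos (A : ℕ → Pt → Prop) (K : ℕ) {k : ℕ} (hk : k ≤ K) {x : Pt}
    (ha : A k (cx k x)) : 1 ≤ ct A K k x :=
  card_pos.2 ⟨k, mem_filter.2 ⟨mem_Icc.2 ⟨le_refl k, hk⟩, ha⟩⟩

/-- the affected scales over a point with index at most `I` -/
theorem card_le_I (A : ℕ → Pt → Prop) (K I : ℕ) (x : Pt) :
    ((range (K + 1)).filter fun k => A k (cx k x) ∧ ct A K k x ≤ I).card ≤ I := by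
  have h1 : Set.InjOn (fun k => ct A K k x)
      (((range (K + 1)).filter fun k => A k (cx k x) ∧ ct A K k x ≤ I : Finset ℕ) : Set ℕ) := by
    intro k hk l hl e
    rw [mem_coe, mem_filter, mem_range] at hk hl
    simp only at e
    rcases lt_trichotomy k l with h | h | h
    · have := ct_lt A K h (by omega) hk.2.1
      omega
    · exact h
    · have := ct_lt A K h (by omega) hl.2.1
      omega
  rw [← card_image_of_injOn h1]
  have h2 : ((range (K + 1)).filter fun k => A k (cx k x) ∧ ct A K k x ≤ I).image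
      (fun k => ct A K k x) ⊆ Icc 1 I := by
    intro i hi
    obtain ⟨k, hk, rfl⟩ := mem_image.1 hi
    rw [mem_filter, mem_range] at hk
    exact mem_Icc.2 ⟨ct_pos A K (by omega) hk.2.1, hk.2.2⟩
  refine (card_le_card h2).trans ?_
  simp

/-- every index up to the total number is attained -/
theorem ct_exists (A : ℕ → Pt → Prop) (K : ℕ) (x : Pt) {i : ℕ} (hi : 1 ≤ i) :
    ∀ k, i ≤ ct A K k x → ∃ l, k ≤ l ∧ l ≤ K ∧ A l (cx l x) ∧ ct A K l x = i := by
  have key : ∀ d k, K + 1 - k = d → i ≤ ct A K k x →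
      ∃ l, k ≤ l ∧ l ≤ K ∧ A l (cx l x) ∧ ct A K l x = i := by
    intro d
    induction d with
    | zero =>
      intro k hk h
      have : ct A K k x = 0 := by
        unfold ct
        rw [Icc_eq_empty (by omega), filter_empty, card_empty]
      omega
    | succ d ih =>
      intro k hk h
      by_cases h1 : i ≤ ct A K (k + 1) x
      · obtain ⟨l, h2, h3⟩ := ih (k + 1) (by omega) h1
        exact ⟨l, by omega, h3⟩
      · have hkK : k ≤ K := by omega
        have e : Icc k K = insert k (Icc (k + 1) K) := by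
          ext j
          simp only [mem_Icc, mem_insert]
          omega
        have e2 : ct A K k x ≤ ct A K (k + 1) x + if A k (cx k x) then 1 else 0 := by
          unfold ct
          rw [e, filter_insert]
          split_ifs with ha
          · exact card_insert_le _ _
          · exact le_rfl
        by_cases ha : A k (cx k x)
        · rw [if_pos ha] at e2
          exact ⟨k, le_rfl, hkK, ha, by omega⟩
        · rw [if_neg ha] at e2
          omega
  exact fun k => key _ k rfl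

/-- the points with at least `I` affected cells -/
def big (A : ℕ → Pt → Prop) (K : ℕ) (M : Pt) (I : ℕ) : Finset Pt :=
  (cb K M).filter fun x => I ≤ ct A K 0 x

/-- number of the affected scales with index more than `I` -/
def ovr (A : ℕ → Pt → Prop) (K I : ℕ) (x : Pt) : ℕ :=
  ((range (K + 1)).filter fun k => A k (cx k x) ∧ I < ct A K k x).card

theorem ovr_ge (A : ℕ → Pt → Prop) (K I : ℕ) (x : Pt) : ct A K 0 x ≤ I + ovr A K I x := by
  have e : ct A K 0 x =
      ((range (K + 1)).filter fun k => A k (cx k x) ∧ ct A K k x ≤ I).card + ovr A K I x := by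
    unfold ct ovr
    rw [← card_union_of_disjoint]
    · congr 1
      ext k
      simp only [mem_union, mem_filter, mem_range, mem_Icc]
      constructor
      · rintro ⟨h1, h2⟩
        rcases le_or_gt ((Icc k K).filter fun j => A j (cx j x)).card I with h | h
        · exact Or.inl ⟨by omega, h2, h⟩
        · exact Or.inr ⟨by omega, h2, h⟩
      · rintro (⟨h1, h2, _⟩ | ⟨h1, h2, _⟩) <;> exact ⟨⟨by omega, by omega⟩, h2⟩
    · rw [disjoint_left]
      intro k h1 h2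
      rw [mem_filter] at h1 h2
      exact absurd h1.2.2 (not_le.2 h2.2.2)
  have := card_le_I A K I x
  omega

/-- the affected scales of index more than `I` lie below the one of index `I` -/
theorem ovr_le (A : ℕ → Pt → Prop) (K : ℕ) {I : ℕ} (hI : 1 ≤ I) (x : Pt) :
    (ovr A K I x : ℝ) ≤ ∑ k ∈ range (K + 1), (if A k (cx k x) ∧ ct A K k x = I then
      ∑ j ∈ range (k + 1), (if A j (cx j x) then (1 : ℝ) else 0) else 0) := by
  have h0 : ∀ k ∈ range (K + 1), (0 : ℝ) ≤ (if A k (cx k x) ∧ ct A K k x = I then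
      ∑ j ∈ range (k + 1), (if A j (cx j x) then (1 : ℝ) else 0) else 0) := by
    intro k _
    split_ifs
    · exact sum_nonneg fun j _ => by split_ifs <;> norm_num
    · exact le_rfl
  rcases Nat.eq_zero_or_pos (ovr A K I x) with h | h
  · rw [h, Nat.cast_zero]
    exact sum_nonneg h0
  · obtain ⟨k, hk⟩ := card_pos.1 h
    rw [mem_filter, mem_range] at hk
    obtain ⟨l, h1, h2, h3, h4⟩ := ct_exists A K x hI k (by omega)
    refine le_trans ?_ (single_le_sum h0 (mem_range.2 (by omega : l < K + 1)))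
    rw [if_pos ⟨h3, h4⟩, sum_boole]
    norm_cast
    refine card_le_card fun j hj => ?_
    rw [mem_filter, mem_range] at hj
    rw [mem_filter, mem_range]
    refine ⟨?_, hj.2.1⟩
    by_contra hc
    have := ct_anti A K (by omega : l ≤ j) x
    omega

section Tree

variable {A : ℕ → Pt → Prop} {K : ℕ} {M : Pt} {P : ℝ}

/-- local packing of the affected cells: inside an affected cell -/
def LPack (A : ℕ → Pt → Prop) (K : ℕ) (M : Pt) (P : ℝ) : Prop :=
  ∀ k ≤ K, ∀ x ∈ cb K M, A k (cx k x) → ∑ y ∈ cb k (cx k x), ∑ j ∈ range (k + 1),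
    (if A j (cx j y) then (1 : ℝ) else 0) ≤ P * 8 ^ k

theorem ovr_sum (hp : LPack A K M P) (hP : 0 ≤ P) {I : ℕ} (hI : 1 ≤ I) :
    ∑ x ∈ cb K M, (ovr A K I x : ℝ) ≤ P * (big A K M I).card := by
  refine (sum_le_sum fun x _ => ovr_le A K hI x).trans ?_
  rw [sum_comm]
  have h1 : ∀ k ∈ range (K + 1), ∑ x ∈ cb K M, (if A k (cx k x) ∧ ct A K k x = I then
      ∑ j ∈ range (k + 1), (if A j (cx j x) then (1 : ℝ) else 0) else 0) ≤
      ∑ x ∈ cb K M, (if A k (cx k x) ∧ ct A K k x = I then P else 0) := by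
    intro k hk
    have hk' : k ≤ K := by rw [mem_range] at hk; omega
    refine cell_le hk' M (fun x => A k (cx k x) ∧ ct A K k x = I) ?_ _ _ ?_
    · intro x y e h
      rw [← e, ← ct_cx A K e]
      exact h
    · intro x hx h
      rw [sum_const, card_cb, nsmul_eq_mul]
      push_cast
      rw [mul_comm]
      exact hp k hk' x hx h.1
  refine (sum_le_sum h1).trans ?_
  rw [sum_comm]
  have h2 : ∀ x ∈ cb K M, ∑ k ∈ range (K + 1), (if A k (cx k x) ∧ ct A K k x = I then P else 0) ≤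
      if I ≤ ct A K 0 x then P else 0 := by
    intro x _
    rw [← sum_filter, sum_const, nsmul_eq_mul]
    have h3 : ((range (K + 1)).filter fun k => A k (cx k x) ∧ ct A K k x = I).card ≤ 1 := by
      rw [card_le_one]
      intro k hk l hl
      rw [mem_filter, mem_range] at hk hl
      rcases lt_trichotomy k l with h | h | h
      · have := ct_lt A K h (by omega) hk.2.1
        omega
      · exact h
      · have := ct_lt A K h (by omega) hl.2.1
        omega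
    split_ifs with h
    · have : (((range (K + 1)).filter fun k => A k (cx k x) ∧ ct A K k x = I).card : ℝ) ≤ 1 := by
        exact_mod_cast h3
      nlinarith
    · have : ((range (K + 1)).filter fun k => A k (cx k x) ∧ ct A K k x = I) = ∅ := by
        rw [filter_eq_empty_iff]
        intro k _ hk
        have := ct_anti A K (Nat.zero_le k) x
        omega
      rw [this, card_empty, Nat.cast_zero, zero_mul]
  refine (sum_le_sum h2).trans ?_
  unfold big
  rw [← sum_filter, sum_const, nsmul_eq_mul, mul_comm]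

/-- the points with many affected cells are few -/
theorem big_half (hp : LPack A K M P) (hP : 0 ≤ P) {h : ℕ} (hh : 1 ≤ h) (hPh : 2 * P ≤ h) {I : ℕ}
    (hI : 1 ≤ I) : ((big A K M (I + h)).card : ℝ) ≤ 1 / 2 * (big A K M I).card := by
  have h1 : (h : ℝ) * (big A K M (I + h)).card ≤ ∑ x ∈ cb K M, (ovr A K I x : ℝ) := by
    have h2 : (h : ℝ) * (big A K M (I + h)).card = ∑ x ∈ big A K M (I + h), (h : ℝ) := by
      rw [sum_const, nsmul_eq_mul, mul_comm]
    rw [h2]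
    refine (sum_le_sum fun x hx => ?_).trans
      (sum_le_sum_of_subset_of_nonneg (filter_subset _ _) fun _ _ _ => Nat.cast_nonneg _)
    have := ovr_ge A K I x
    have h3 := (mem_filter.1 hx).2
    exact_mod_cast (by omega : h ≤ ovr A K I x)
  have h4 := h1.trans (ovr_sum hp hP hI)
  have h5 : (1 : ℝ) ≤ h := by exact_mod_cast hh
  have h6 : (0 : ℝ) ≤ (big A K M I).card := Nat.cast_nonneg _
  have h7 : (h : ℝ) * (big A K M (I + h)).card ≤ h * (1 / 2 * (big A K M I).card) := by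
    refine h4.trans ?_
    nlinarith
  exact le_of_mul_le_mul_left h7 (by linarith)

theorem big_pow (hp : LPack A K M P) (hP : 0 ≤ P) {h : ℕ} (hh : 1 ≤ h) (hPh : 2 * P ≤ h) (q : ℕ) :
    ((big A K M (1 + h * q)).card : ℝ) ≤ (1 / 2) ^ q * 8 ^ K := by
  induction q with
  | zero =>
    rw [pow_zero, one_mul]
    have := card_le_card (filter_subset (fun x => 1 + h * 0 ≤ ct A K 0 x) (cb K M))
    rw [card_cb] at this
    unfold big
    exact_mod_cast this
  | succ q ih =>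
    have h1 := big_half hp hP hh hPh (I := 1 + h * q) (by omega)
    rw [show 1 + h * q + h = 1 + h * (q + 1) by ring] at h1
    refine h1.trans ?_
    rw [pow_succ]
    linarith

/-- **The affected cells, abstract.** -/
theorem tree_aff (hp : LPack A K M P) (hP : 0 ≤ P) {h : ℕ} (hh : 1 ≤ h) (hPh : 2 * P ≤ h) (q : ℕ)
    {T : ℝ} (hT0 : 0 ≤ T) (f : ℕ → Pt → ℝ) (F : Pt → ℝ) (hF : ∀ x ∈ cb K M, 0 ≤ F x)
    (hJ : ∀ k ≤ K, ∀ x ∈ cb K M, A k (cx k x) →
      ∑ y ∈ cb k (cx k x), f k y ≤ ∑ y ∈ cb k (cx k x), F y)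
    (hT : ∀ k ≤ K, ∀ x ∈ cb K M, A k (cx k x) → ∑ y ∈ cb k (cx k x), f k y ≤ T * 8 ^ k) :
    ∑ k ∈ range (K + 1), ∑ x ∈ cb K M, (if A k (cx k x) then f k x else 0) ≤
      (1 + h * q) * ∑ x ∈ cb K M, F x + T * P * (1 / 2) ^ q * 8 ^ K := by
  set I : ℕ := 1 + h * q with hI
  have e1 : ∑ k ∈ range (K + 1), ∑ x ∈ cb K M, (if A k (cx k x) then f k x else 0) =
      ∑ k ∈ range (K + 1), ∑ x ∈ cb K M, (if A k (cx k x) ∧ ct A K k x ≤ I then f k x else 0) +
      ∑ k ∈ range (K + 1), ∑ x ∈ cb K M, (if A k (cx k x) ∧ I < ct A K k x then f k x else 0) := by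
    rw [← sum_add_distrib]
    refine sum_congr rfl fun k _ => ?_
    rw [← sum_add_distrib]
    refine sum_congr rfl fun x _ => ?_
    by_cases ha : A k (cx k x)
    · rcases le_or_gt (ct A K k x) I with hc | hc
      · rw [if_pos ha, if_pos ⟨ha, hc⟩, if_neg (fun h => absurd hc (not_le.2 h.2)), add_zero]
      · rw [if_pos ha, if_neg (fun h => absurd h.2 (not_le.2 hc)), if_pos ⟨ha, hc⟩, zero_add]
    · rw [if_neg ha, if_neg (fun h => ha h.1), if_neg (fun h => ha h.1), add_zero]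
  rw [e1]
  refine add_le_add ?_ ?_
  · have h1 : ∀ k ∈ range (K + 1), ∑ x ∈ cb K M,
        (if A k (cx k x) ∧ ct A K k x ≤ I then f k x else 0) ≤
        ∑ x ∈ cb K M, (if A k (cx k x) ∧ ct A K k x ≤ I then F x else 0) := by
      intro k hk
      have hk' : k ≤ K := by rw [mem_range] at hk; omega
      refine cell_le hk' M (fun x => A k (cx k x) ∧ ct A K k x ≤ I) ?_ _ _ ?_
      · intro x y e h
        rw [← e, ← ct_cx A K e]
        exact h
      · exact fun x hx h => hJ k hk' x hx h.1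
    refine (sum_le_sum h1).trans ?_
    rw [sum_comm, mul_sum]
    refine sum_le_sum fun x hx => ?_
    rw [← sum_filter, sum_const, nsmul_eq_mul]
    have h2 := card_le_I A K I x
    have h3 : (((range (K + 1)).filter fun k => A k (cx k x) ∧ ct A K k x ≤ I).card : ℝ) ≤
        1 + h * q := by
      have : (((range (K + 1)).filter fun k => A k (cx k x) ∧ ct A K k x ≤ I).card : ℝ) ≤ I := by
        exact_mod_cast h2
      rw [hI] at this
      push_cast at this
      exact this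
    exact mul_le_mul_of_nonneg_right h3 (hF x hx)
  · have h1 : ∀ k ∈ range (K + 1), ∑ x ∈ cb K M,
        (if A k (cx k x) ∧ I < ct A K k x then f k x else 0) ≤
        ∑ x ∈ cb K M, (if A k (cx k x) ∧ I < ct A K k x then T else 0) := by
      intro k hk
      have hk' : k ≤ K := by rw [mem_range] at hk; omega
      refine cell_le hk' M (fun x => A k (cx k x) ∧ I < ct A K k x) ?_ _ _ ?_
      · intro x y e h
        rw [← e, ← ct_cx A K e]
        exact h
      · intro x hx h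
        rw [sum_const, card_cb, nsmul_eq_mul]
        push_cast
        rw [mul_comm]
        exact hT k hk' x hx h.1
    refine (sum_le_sum h1).trans ?_
    rw [sum_comm]
    have h2 : ∀ x ∈ cb K M, ∑ k ∈ range (K + 1),
        (if A k (cx k x) ∧ I < ct A K k x then T else 0) = T * (ovr A K I x : ℝ) := by
      intro x _
      rw [← sum_filter, sum_const, nsmul_eq_mul, mul_comm]
      rfl
    rw [sum_congr rfl h2, ← mul_sum]
    have h3 := ovr_sum hp hP (I := I) (by omega)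
    have h4 := big_pow hp hP hh hPh q
    calc T * ∑ x ∈ cb K M, (ovr A K I x : ℝ) ≤ T * (P * ((1 / 2) ^ q * 8 ^ K)) :=
          mul_le_mul_of_nonneg_left (h3.trans (mul_le_mul_of_nonneg_left h4 hP)) hT0
      _ = T * P * (1 / 2) ^ q * 8 ^ K := by ring

end Tree

/-! ### Packing of the affected nodes from squares, real ties -/

/-- packing of the squares of a face at fixed `x0`, local form (= `BSl.pack`) -/
def QPack (n : ℕ) (Q : ℕ → Pt → Prop) (cP : ℝ) : Prop :=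
  ∀ x0 : ℤ, ∀ K ≤ n, ∀ r s : ℤ, ∑ k ∈ range (K + 1), ∑ r' ∈ iv (K - k) r,
    ∑ s' ∈ iv (K - k) s, (if Q k (ix k x0, r', s') then (4 : ℝ) ^ k else 0) ≤ cP * 4 ^ K

/-- the node over a square of the face of `F1 (x0, x2, x3)` -/
def nA1 (o : ℤ) (Q : ℕ → Pt → Prop) (k : ℕ) (m : Pt) : Prop :=
  Q k (m.1, o - 2 - m.1 - m.2.1 - m.2.2, m.2.2)

/-- the node over a square of the face of `F3 (x0, x1, x2)` -/
def nA3 (o : ℤ) (Q : ℕ → Pt → Prop) (k : ℕ) (m : Pt) : Prop :=
  Q k (m.1, m.2.1, o - 2 - m.1 - m.2.1 - m.2.2)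

theorem iv_part {k K : ℕ} (hk : k ≤ K) (R : ℤ) (f : ℤ → ℝ) :
    ∑ x ∈ iv K R, f x = ∑ a ∈ iv (K - k) R, ∑ x ∈ iv k a, f x := by
  have hmap : ∀ x ∈ iv K R, ix k x ∈ iv (K - k) R := by
    intro x hx
    rw [mem_iv] at hx ⊢
    rw [ix_ix, Nat.add_sub_cancel' hk]
    exact hx
  rw [← sum_fiberwise_of_maps_to hmap]
  refine sum_congr rfl fun a ha => sum_congr ?_ fun _ _ => rfl
  ext x
  rw [mem_filter, mem_iv, mem_iv]
  constructor
  · exact fun h => h.2
  · intro h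
    refine ⟨?_, h⟩
    rw [mem_iv] at ha
    rw [← ha, ← h, ix_ix, Nat.add_sub_cancel' hk]

theorem iv_const {k K : ℕ} (hk : k ≤ K) (R : ℤ) (g : ℤ → ℝ) :
    ∑ x ∈ iv K R, g (ix k x) = 2 ^ k * ∑ a ∈ iv (K - k) R, g a := by
  rw [iv_part hk, mul_sum]
  refine sum_congr rfl fun a _ => ?_
  rw [sum_congr rfl fun x hx => by rw [mem_iv.1 hx], sum_const, card_iv, nsmul_eq_mul]
  push_cast
  ring

/-- the tied cells lie over three cells -/
theorem tie_le {o : ℤ} (ho : o = 1 ∨ o = -1) {d : ℕ} {M0 M1 M3 m0 b : ℤ} (h0 : m0 ∈ iv d M0)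
    (hb : b ∈ iv d M3) (φ : ℤ → ℝ) (hφ : ∀ r, 0 ≤ φ r) :
    ∑ a ∈ iv d M1, φ (o - 2 - m0 - a - b) ≤
      ∑ i ∈ range 3, ∑ r ∈ iv d (-(M0 + M1 + M3) - 1 - (i : ℤ)), φ r := by
  have h1 : ∑ a ∈ iv d M1, φ (o - 2 - m0 - a - b) =
      ∑ r ∈ (iv d M1).image (fun a => o - 2 - m0 - a - b), φ r := by
    rw [sum_image]
    intro a _ a' _ h
    simp only at h
    omega
  have h2 : ∑ i ∈ range 3, ∑ r ∈ iv d (-(M0 + M1 + M3) - 1 - (i : ℤ)), φ r =
      ∑ r ∈ (range 3).biUnion (fun i => iv d (-(M0 + M1 + M3) - 1 - (i : ℤ))), φ r := by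
    rw [sum_biUnion]
    intro i _ j _ hij
    rw [Function.onFun, disjoint_left]
    intro r hr hr'
    rw [mem_iv] at hr hr'
    apply hij
    have : (-(M0 + M1 + M3) - 1 - (i : ℤ)) = -(M0 + M1 + M3) - 1 - (j : ℤ) := hr.symm.trans hr'
    omega
  rw [h1, h2]
  refine sum_le_sum_of_subset_of_nonneg ?_ fun r _ _ => hφ r
  intro r hr
  obtain ⟨a, ha, rfl⟩ := mem_image.1 hr
  rw [mem_biUnion]
  unfold PL.iv at h0 hb ha ⊢
  rw [mem_Ico] at h0 hb ha
  set D : ℤ := 2 ^ d with hD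
  have e0 : ∀ i : ℤ, D * (-(M0 + M1 + M3) - 1 - i) = -(D * M0 + D * M1 + D * M3) - D - D * i := by
    intro i
    ring
  have c0 : D * ((0 : ℕ) : ℤ) = 0 := by simp
  have c1 : D * ((1 : ℕ) : ℤ) = D := by simp
  have c2 : D * ((2 : ℕ) : ℤ) = 2 * D := by push_cast; ring
  generalize D * M0 = p0 at *
  generalize D * M1 = p1 at *
  generalize D * M3 = p3 at *
  rcases lt_or_ge (o - 2 - m0 - a - b) (-(p0 + p1 + p3) - 2 * D) with h | h
  · refine ⟨2, by simp, ?_⟩
    rw [mem_Ico, e0, c2]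
    rcases ho with rfl | rfl <;> constructor <;> omega
  · rcases lt_or_ge (o - 2 - m0 - a - b) (-(p0 + p1 + p3) - D) with h' | h'
    · refine ⟨1, by simp, ?_⟩
      rw [mem_Ico, e0, c1]
      rcases ho with rfl | rfl <;> constructor <;> omega
    · refine ⟨0, by simp, ?_⟩
      rw [mem_Ico, e0, c0]
      rcases ho with rfl | rfl <;> constructor <;> omega

theorem ix_mem {j k : ℕ} (h : j ≤ k) {x m : ℤ} (hx : x ∈ iv k m) : ix j x ∈ iv (k - j) m := by
  rw [mem_iv] at hx ⊢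
  rw [ix_ix, Nat.add_sub_cancel' h]
  exact hx

/-- local packing of the nodes over the squares of `F1` -/
theorem pack1 {n : ℕ} {Q : ℕ → Pt → Prop} {cP : ℝ} (hQ : QPack n Q cP) {o : ℤ}
    (ho : o = 1 ∨ o = -1) {k : ℕ} (hk : k ≤ n) (m : Pt) :
    ∑ y ∈ cb k m, ∑ j ∈ range (k + 1), (if nA1 o Q j (cx j y) then (1 : ℝ) else 0) ≤
      3 * cP * 8 ^ k := by
  have key : ∀ y0 ∈ iv k m.1, ∑ y1 ∈ iv k m.2.1, ∑ y3 ∈ iv k m.2.2, ∑ j ∈ range (k + 1),
      (if nA1 o Q j (cx j (y0, y1, y3)) then (1 : ℝ) else 0) ≤ 3 * cP * 4 ^ k := by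
    intro y0 hy0
    have e1 : ∑ y1 ∈ iv k m.2.1, ∑ y3 ∈ iv k m.2.2, ∑ j ∈ range (k + 1),
        (if nA1 o Q j (cx j (y0, y1, y3)) then (1 : ℝ) else 0) =
        ∑ j ∈ range (k + 1), ∑ b ∈ iv (k - j) m.2.2, ∑ a ∈ iv (k - j) m.2.1,
          (if Q j (ix j y0, o - 2 - ix j y0 - a - b, b) then (4 : ℝ) ^ j else 0) := by
      rw [sum_congr rfl fun y1 _ => sum_comm, sum_comm]
      refine sum_congr rfl fun j hj => ?_
      have hj' : j ≤ k := by rw [mem_range] at hj; omega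
      have e2 : ∀ y1 ∈ iv k m.2.1, ∑ y3 ∈ iv k m.2.2,
          (if nA1 o Q j (cx j (y0, y1, y3)) then (1 : ℝ) else 0) =
          2 ^ j * ∑ b ∈ iv (k - j) m.2.2,
            (if Q j (ix j y0, o - 2 - ix j y0 - ix j y1 - b, b) then (1 : ℝ) else 0) := by
        intro y1 _
        rw [← iv_const hj' m.2.2
          (fun b => if Q j (ix j y0, o - 2 - ix j y0 - ix j y1 - b, b) then (1 : ℝ) else 0)]
        rfl
      rw [sum_congr rfl e2, iv_const hj' m.2.1 (fun a => 2 ^ j * ∑ b ∈ iv (k - j) m.2.2,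
        (if Q j (ix j y0, o - 2 - ix j y0 - a - b, b) then (1 : ℝ) else 0)), mul_sum, sum_comm,
        sum_comm]
      simp only [mul_sum]
      rw [sum_comm]
      refine sum_congr rfl fun b _ => sum_congr rfl fun a _ => ?_
      rw [show (4 : ℝ) ^ j = 2 ^ j * 2 ^ j by rw [← mul_pow]; norm_num]
      split_ifs <;> ring
    rw [e1]
    have h1 : ∀ j ∈ range (k + 1), ∑ b ∈ iv (k - j) m.2.2, ∑ a ∈ iv (k - j) m.2.1,
        (if Q j (ix j y0, o - 2 - ix j y0 - a - b, b) then (4 : ℝ) ^ j else 0) ≤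
        ∑ i ∈ range 3, ∑ r ∈ iv (k - j) (-(m.1 + m.2.1 + m.2.2) - 1 - (i : ℤ)),
          ∑ b ∈ iv (k - j) m.2.2, (if Q j (ix j y0, r, b) then (4 : ℝ) ^ j else 0) := by
      intro j hj
      have hj' : j ≤ k := by rw [mem_range] at hj; omega
      refine (sum_le_sum fun b hb => tie_le ho (ix_mem hj' hy0) hb
        (fun r => if Q j (ix j y0, r, b) then (4 : ℝ) ^ j else 0)
        (fun r => by split_ifs <;> positivity)).trans (le_of_eq ?_)
      rw [sum_comm]
      exact sum_congr rfl fun i _ => sum_comm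
    refine (sum_le_sum h1).trans ?_
    rw [sum_comm]
    refine (sum_le_sum fun i _ => hQ y0 k hk _ _).trans (le_of_eq ?_)
    rw [sum_const, card_range]
    simp
    ring
  unfold PL.cb
  rw [sum_product]
  simp only [sum_product]
  refine (sum_le_sum key).trans (le_of_eq ?_)
  rw [sum_const, card_iv, nsmul_eq_mul]
  push_cast
  rw [show (8 : ℝ) ^ k = 2 ^ k * 4 ^ k by rw [← mul_pow]; norm_num]
  ring

/-- local packing of the nodes over the squares of `F3` -/
theorem pack3 {n : ℕ} {Q : ℕ → Pt → Prop} {cP : ℝ} (hQ : QPack n Q cP) {o : ℤ}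
    (ho : o = 1 ∨ o = -1) {k : ℕ} (hk : k ≤ n) (m : Pt) :
    ∑ y ∈ cb k m, ∑ j ∈ range (k + 1), (if nA3 o Q j (cx j y) then (1 : ℝ) else 0) ≤
      3 * cP * 8 ^ k := by
  have key : ∀ y0 ∈ iv k m.1, ∑ y1 ∈ iv k m.2.1, ∑ y3 ∈ iv k m.2.2, ∑ j ∈ range (k + 1),
      (if nA3 o Q j (cx j (y0, y1, y3)) then (1 : ℝ) else 0) ≤ 3 * cP * 4 ^ k := by
    intro y0 hy0
    have e1 : ∑ y1 ∈ iv k m.2.1, ∑ y3 ∈ iv k m.2.2, ∑ j ∈ range (k + 1),
        (if nA3 o Q j (cx j (y0, y1, y3)) then (1 : ℝ) else 0) =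
        ∑ j ∈ range (k + 1), ∑ a ∈ iv (k - j) m.2.1, ∑ b ∈ iv (k - j) m.2.2,
          (if Q j (ix j y0, a, o - 2 - ix j y0 - b - a) then (4 : ℝ) ^ j else 0) := by
      rw [sum_congr rfl fun y1 _ => sum_comm, sum_comm]
      refine sum_congr rfl fun j hj => ?_
      have hj' : j ≤ k := by rw [mem_range] at hj; omega
      have e2 : ∀ y1 ∈ iv k m.2.1, ∑ y3 ∈ iv k m.2.2,
          (if nA3 o Q j (cx j (y0, y1, y3)) then (1 : ℝ) else 0) =
          2 ^ j * ∑ b ∈ iv (k - j) m.2.2,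
            (if Q j (ix j y0, ix j y1, o - 2 - ix j y0 - ix j y1 - b) then (1 : ℝ) else 0) := by
        intro y1 _
        rw [← iv_const hj' m.2.2
          (fun b => if Q j (ix j y0, ix j y1, o - 2 - ix j y0 - ix j y1 - b)
            then (1 : ℝ) else 0)]
        rfl
      rw [sum_congr rfl e2, iv_const hj' m.2.1 (fun a => 2 ^ j * ∑ b ∈ iv (k - j) m.2.2,
        (if Q j (ix j y0, a, o - 2 - ix j y0 - a - b) then (1 : ℝ) else 0)), mul_sum]
      simp only [mul_sum]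
      refine sum_congr rfl fun a _ => sum_congr rfl fun b _ => ?_
      rw [show (4 : ℝ) ^ j = 2 ^ j * 2 ^ j by rw [← mul_pow]; norm_num,
        show o - 2 - ix j y0 - b - a = o - 2 - ix j y0 - a - b by ring]
      split_ifs <;> ring
    rw [e1]
    have h1 : ∀ j ∈ range (k + 1), ∑ a ∈ iv (k - j) m.2.1, ∑ b ∈ iv (k - j) m.2.2,
        (if Q j (ix j y0, a, o - 2 - ix j y0 - b - a) then (4 : ℝ) ^ j else 0) ≤
        ∑ i ∈ range 3, ∑ a ∈ iv (k - j) m.2.1,
          ∑ r ∈ iv (k - j) (-(m.1 + m.2.2 + m.2.1) - 1 - (i : ℤ)),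
            (if Q j (ix j y0, a, r) then (4 : ℝ) ^ j else 0) := by
      intro j hj
      have hj' : j ≤ k := by rw [mem_range] at hj; omega
      refine (sum_le_sum fun a ha => tie_le ho (ix_mem hj' hy0) ha
        (fun r => if Q j (ix j y0, a, r) then (4 : ℝ) ^ j else 0)
        (fun r => by split_ifs <;> positivity)).trans (le_of_eq ?_)
      rw [sum_comm]
    refine (sum_le_sum h1).trans ?_
    rw [sum_comm]
    refine (sum_le_sum fun i _ => hQ y0 k hk _ _).trans (le_of_eq ?_)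
    rw [sum_const, card_range]
    simp
    ring
  unfold PL.cb
  rw [sum_product]
  simp only [sum_product]
  refine (sum_le_sum key).trans (le_of_eq ?_)
  rw [sum_const, card_iv, nsmul_eq_mul]
  push_cast
  rw [show (8 : ℝ) ^ k = 2 ^ k * 4 ^ k by rw [← mul_pow]; norm_num]
  ring

/-- local packing of the squares of `F2` -/
theorem pack2 {n : ℕ} {Q : ℕ → Pt → Prop} {cP : ℝ} (hQ : QPack n Q cP) {k : ℕ} (hk : k ≤ n)
    (m : Pt) :
    ∑ y ∈ cb k m, ∑ j ∈ range (k + 1), (if Q j (cx j y) then (1 : ℝ) else 0) ≤ cP * 8 ^ k := by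
  have key : ∀ y0 ∈ iv k m.1, ∑ y1 ∈ iv k m.2.1, ∑ y3 ∈ iv k m.2.2, ∑ j ∈ range (k + 1),
      (if Q j (cx j (y0, y1, y3)) then (1 : ℝ) else 0) ≤ cP * 4 ^ k := by
    intro y0 _
    refine le_trans (le_of_eq ?_) (hQ y0 k hk m.2.1 m.2.2)
    rw [sum_congr rfl fun y1 _ => sum_comm, sum_comm]
    refine sum_congr rfl fun j hj => ?_
    have hj' : j ≤ k := by rw [mem_range] at hj; omega
    have e2 : ∀ y1 ∈ iv k m.2.1, ∑ y3 ∈ iv k m.2.2,
        (if Q j (cx j (y0, y1, y3)) then (1 : ℝ) else 0) =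
        2 ^ j * ∑ b ∈ iv (k - j) m.2.2, (if Q j (ix j y0, ix j y1, b) then (1 : ℝ) else 0) := by
      intro y1 _
      rw [← iv_const hj' m.2.2 (fun b => if Q j (ix j y0, ix j y1, b) then (1 : ℝ) else 0)]
      rfl
    rw [sum_congr rfl e2, iv_const hj' m.2.1 (fun a => 2 ^ j * ∑ b ∈ iv (k - j) m.2.2,
      (if Q j (ix j y0, a, b) then (1 : ℝ) else 0)), mul_sum]
    simp only [mul_sum]
    refine sum_congr rfl fun a _ => sum_congr rfl fun b _ => ?_
    rw [show (4 : ℝ) ^ j = 2 ^ j * 2 ^ j by rw [← mul_pow]; norm_num]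
    split_ifs <;> ring
  unfold PL.cb
  rw [sum_product]
  simp only [sum_product]
  refine (sum_le_sum key).trans (le_of_eq ?_)
  rw [sum_const, card_iv, nsmul_eq_mul]
  push_cast
  rw [show (8 : ℝ) ^ k = 2 ^ k * 4 ^ k by rw [← mul_pow]; norm_num]
  ring

/-- the affected nodes: over an affected square of one of the three faces -/
def nAff (o : ℤ) (Q1 Q2 Q3 : ℕ → Pt → Prop) (k : ℕ) (m : Pt) : Prop :=
  nA1 o Q1 k m ∨ Q2 k m ∨ nA3 o Q3 k m

/-- **Local packing of the affected nodes.** -/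
theorem lpack_aff {n : ℕ} {Q1 Q2 Q3 : ℕ → Pt → Prop} {c1 c2 c3 : ℝ} (h1 : QPack n Q1 c1)
    (h2 : QPack n Q2 c2) (h3 : QPack n Q3 c3) {o : ℤ} (ho : o = 1 ∨ o = -1) {K : ℕ} (hK : K ≤ n)
    (M : Pt) : LPack (nAff o Q1 Q2 Q3) K M (3 * c1 + c2 + 3 * c3) := by
  intro k hk x _ _
  have e : ∀ y : Pt, ∑ j ∈ range (k + 1), (if nAff o Q1 Q2 Q3 j (cx j y) then (1 : ℝ) else 0) ≤
      ∑ j ∈ range (k + 1), (if nA1 o Q1 j (cx j y) then (1 : ℝ) else 0) +
      ∑ j ∈ range (k + 1), (if Q2 j (cx j y) then (1 : ℝ) else 0) +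
      ∑ j ∈ range (k + 1), (if nA3 o Q3 j (cx j y) then (1 : ℝ) else 0) := by
    intro y
    rw [← sum_add_distrib, ← sum_add_distrib]
    refine sum_le_sum fun j _ => ?_
    unfold nAff
    by_cases a1 : nA1 o Q1 j (cx j y) <;> by_cases a2 : Q2 j (cx j y) <;>
      by_cases a3 : nA3 o Q3 j (cx j y) <;> simp [a1, a2, a3]
  refine (sum_le_sum fun y _ => e y).trans ?_
  rw [sum_add_distrib, sum_add_distrib]
  have g1 := pack1 h1 ho (hk.trans hK) (cx k x)
  have g2 := pack2 h2 (hk.trans hK) (cx k x)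
  have g3 := pack3 h3 ho (hk.trans hK) (cx k x)
  linarith

/-! ### The moving slot -/

section Slot

variable {κ : Type*} [Fintype κ]

/-- a martingale in `x0` (= `H483.Mart`) -/
def Mrt (n : ℕ) (V : ℕ → ℤ → κ → ℝ) : Prop :=
  ∀ k < n, ∀ m, V (k + 1) m = (1 / 2 : ℝ) • (V k (2 * m) + V k (2 * m + 1))

theorem nsq_nonneg (w : κ → ℝ) : 0 ≤ w ⬝ᵥ w := by
  unfold dotProduct
  exact sum_nonneg fun i _ => mul_self_nonneg (w i)

theorem nsq_half (a b : κ → ℝ) : ((1 / 2 : ℝ) • (a + b)) ⬝ᵥ ((1 / 2 : ℝ) • (a + b)) ≤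
    1 / 2 * (a ⬝ᵥ a) + 1 / 2 * (b ⬝ᵥ b) := by
  unfold dotProduct
  rw [mul_sum, mul_sum, ← sum_add_distrib]
  refine sum_le_sum fun i _ => ?_
  simp only [Pi.smul_apply, Pi.add_apply, smul_eq_mul]
  nlinarith [sq_nonneg (a i - b i)]

theorem iv_succ (k : ℕ) (m : ℤ) (f : ℤ → ℝ) :
    ∑ x ∈ iv (k + 1) m, f x = ∑ x ∈ iv k (2 * m), f x + ∑ x ∈ iv k (2 * m + 1), f x := by
  rw [iv_part (Nat.le_succ k) m f]
  have e : iv (k + 1 - k) m = {2 * m, 2 * m + 1} := by
    rw [Nat.add_sub_cancel_left]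
    unfold PL.iv
    ext z
    rw [mem_Ico, mem_insert, mem_singleton]
    omega
  rw [e, sum_pair (by omega)]

/-- **Jensen along the tree.** -/
theorem jensen {n : ℕ} {V : ℕ → ℤ → κ → ℝ} (hV : Mrt n V) {k : ℕ} (hk : k ≤ n) (m : ℤ) :
    2 ^ k * (V k m ⬝ᵥ V k m) ≤ ∑ x ∈ iv k m, V 0 x ⬝ᵥ V 0 x := by
  induction k generalizing m with
  | zero =>
    have : iv 0 m = {m} := by
      unfold PL.iv
      ext z
      rw [mem_Ico, mem_singleton]
      omega
    rw [this, sum_singleton, pow_zero, one_mul]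
  | succ k ih =>
    rw [iv_succ]
    have h1 := ih (by omega) (2 * m)
    have h2 := ih (by omega) (2 * m + 1)
    have h3 := nsq_half (V k (2 * m)) (V k (2 * m + 1))
    rw [← hV k (by omega) m] at h3
    have h4 : (0 : ℝ) < 2 ^ k := by positivity
    calc 2 ^ (k + 1) * (V (k + 1) m ⬝ᵥ V (k + 1) m)
        ≤ 2 ^ (k + 1) * (1 / 2 * (V k (2 * m) ⬝ᵥ V k (2 * m)) +
            1 / 2 * (V k (2 * m + 1) ⬝ᵥ V k (2 * m + 1))) :=
          mul_le_mul_of_nonneg_left h3 (by positivity)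
      _ = 2 ^ k * (V k (2 * m) ⬝ᵥ V k (2 * m)) +
            2 ^ k * (V k (2 * m + 1) ⬝ᵥ V k (2 * m + 1)) := by rw [pow_succ]; ring
      _ ≤ _ := add_le_add h1 h2

/-- energies of the scalar factor on the lines of `x0` -/
def Lin (K : ℕ) (L : ℝ) (Z : ℕ → Pt → ℝ) : Prop :=
  ∀ k ≤ K, ∀ m x1 x3 : ℤ, ∑ x0 ∈ iv k m, Z k (x0, x1, x3) ^ 2 ≤ L * 2 ^ k

/-- the energy of the slot on a cell -/
theorem slot_cell {K : ℕ} {L : ℝ} {Z : ℕ → Pt → ℝ} (hZ : Lin K L Z)
    (V : ℤ → ℤ → ℕ → ℤ → κ → ℝ) {k : ℕ} (hk : k ≤ K) (m : Pt) :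
    ∑ y ∈ cb k m, Z k y ^ 2 *
      (V y.2.1 y.2.2 k (ix k y.1) ⬝ᵥ V y.2.1 y.2.2 k (ix k y.1)) ≤
      ∑ y1 ∈ iv k m.2.1, ∑ y3 ∈ iv k m.2.2, L * (2 ^ k * (V y1 y3 k m.1 ⬝ᵥ V y1 y3 k m.1)) := by
  unfold PL.cb
  rw [sum_product]
  simp only [sum_product]
  rw [sum_comm]
  refine sum_le_sum fun y1 _ => ?_
  rw [sum_comm]
  refine sum_le_sum fun y3 _ => ?_
  have e : ∑ y0 ∈ iv k m.1, Z k (y0, y1, y3) ^ 2 *
      (V y1 y3 k (ix k y0) ⬝ᵥ V y1 y3 k (ix k y0)) =
      (∑ y0 ∈ iv k m.1, Z k (y0, y1, y3) ^ 2) * (V y1 y3 k m.1 ⬝ᵥ V y1 y3 k m.1) := by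
    rw [sum_mul]
    exact sum_congr rfl fun y0 h => by rw [mem_iv.1 h]
  rw [e]
  have := mul_le_mul_of_nonneg_right (hZ k hk m.1 y1 y3) (nsq_nonneg (V y1 y3 k m.1))
  linarith

/-- **The moving slot at the affected nodes.** `V x1 x3 k m` : the slot on the cell `(k, m)` of
`x0`, at the points `x1`, `x3`; `τ` : local mass at the affected nodes. -/
theorem slot_aff {A : ℕ → Pt → Prop} {K : ℕ} {M : Pt} {P : ℝ} (hp : LPack A K M P) (hP : 0 ≤ P)
    {h : ℕ} (hh : 1 ≤ h) (hPh : 2 * P ≤ h) (q : ℕ) {L τ : ℝ} (hL : 0 ≤ L) (hτ : 0 ≤ τ)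
    {Z : ℕ → Pt → ℝ} (hZ : Lin K L Z) {V : ℤ → ℤ → ℕ → ℤ → κ → ℝ} (hV : ∀ x1 x3, Mrt K (V x1 x3))
    (hτm : ∀ k ≤ K, ∀ x ∈ cb K M, A k (cx k x) → ∑ y1 ∈ iv k (ix k x.2.1),
      ∑ y3 ∈ iv k (ix k x.2.2), (V y1 y3 k (ix k x.1) ⬝ᵥ V y1 y3 k (ix k x.1)) ≤ τ * 4 ^ k) :
    ∑ k ∈ range (K + 1), ∑ x ∈ cb K M, (if A k (cx k x) then Z k x ^ 2 *
      (V x.2.1 x.2.2 k (ix k x.1) ⬝ᵥ V x.2.1 x.2.2 k (ix k x.1)) else 0) ≤
      (1 + h * q) * ∑ x ∈ cb K M, L * (V x.2.1 x.2.2 0 x.1 ⬝ᵥ V x.2.1 x.2.2 0 x.1) +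
        L * τ * P * (1 / 2) ^ q * 8 ^ K := by
  refine tree_aff hp hP hh hPh q (mul_nonneg hL hτ) (fun k x => Z k x ^ 2 *
      (V x.2.1 x.2.2 k (ix k x.1) ⬝ᵥ V x.2.1 x.2.2 k (ix k x.1)))
    (fun x => L * (V x.2.1 x.2.2 0 x.1 ⬝ᵥ V x.2.1 x.2.2 0 x.1))
    (fun x _ => mul_nonneg hL (nsq_nonneg _)) ?_ ?_
  · intro k hk x _ _
    refine (slot_cell hZ V hk (cx k x)).trans ?_
    have e : ∑ y ∈ cb k (cx k x), L * (V y.2.1 y.2.2 0 y.1 ⬝ᵥ V y.2.1 y.2.2 0 y.1) =
        ∑ y1 ∈ iv k (cx k x).2.1, ∑ y3 ∈ iv k (cx k x).2.2,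
          L * ∑ y0 ∈ iv k (cx k x).1, (V y1 y3 0 y0 ⬝ᵥ V y1 y3 0 y0) := by
      unfold PL.cb
      rw [sum_product]
      simp only [sum_product]
      rw [sum_comm]
      refine sum_congr rfl fun y1 _ => ?_
      rw [sum_comm]
      refine sum_congr rfl fun y3 _ => ?_
      rw [← mul_sum]
    rw [e]
    refine sum_le_sum fun y1 _ => sum_le_sum fun y3 _ => ?_
    exact mul_le_mul_of_nonneg_left (jensen (hV y1 y3) hk _) hL
  · intro k hk x hx ha
    refine (slot_cell hZ V hk (cx k x)).trans ?_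
    have h1 := hτm k hk x hx ha
    have e : ∑ y1 ∈ iv k (cx k x).2.1, ∑ y3 ∈ iv k (cx k x).2.2,
        L * (2 ^ k * (V y1 y3 k (cx k x).1 ⬝ᵥ V y1 y3 k (cx k x).1)) =
        L * (2 ^ k * ∑ y1 ∈ iv k (ix k x.2.1), ∑ y3 ∈ iv k (ix k x.2.2),
          (V y1 y3 k (ix k x.1) ⬝ᵥ V y1 y3 k (ix k x.1))) := by
      simp only [mul_sum]
      rfl
    rw [e, show (8 : ℝ) ^ k = 2 ^ k * 4 ^ k by rw [← mul_pow]; norm_num]
    calc L * (2 ^ k * ∑ y1 ∈ iv k (ix k x.2.1), ∑ y3 ∈ iv k (ix k x.2.2),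
          (V y1 y3 k (ix k x.1) ⬝ᵥ V y1 y3 k (ix k x.1))) ≤ L * (2 ^ k * (τ * 4 ^ k)) :=
          mul_le_mul_of_nonneg_left (mul_le_mul_of_nonneg_left h1 (by positivity)) hL
      _ = L * τ * (2 ^ k * 4 ^ k) := by ring

/-- Cauchy-Schwarz over the affected nodes -/
theorem aff_cs (A : ℕ → Pt → Prop) (K : ℕ) (M : Pt) (Z : ℕ → Pt → ℝ)
    (V w : ℕ → Pt → κ → ℝ) :
    ∑ k ∈ range (K + 1), ∑ x ∈ cb K M,
      (if A k (cx k x) then |Z k x * (V k x ⬝ᵥ w k x)| else 0) ≤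
      √(∑ k ∈ range (K + 1), ∑ x ∈ cb K M,
        (if A k (cx k x) then Z k x ^ 2 * (V k x ⬝ᵥ V k x) else 0)) *
      √(∑ k ∈ range (K + 1), ∑ x ∈ cb K M, (if A k (cx k x) then w k x ⬝ᵥ w k x else 0)) := by
  have hcs : ∀ a b : κ → ℝ, |a ⬝ᵥ b| ≤ √(a ⬝ᵥ a) * √(b ⬝ᵥ b) := by
    intro a b
    rw [← Real.sqrt_mul (nsq_nonneg a)]
    refine Real.abs_le_sqrt ?_
    have := sum_mul_sq_le_sq_mul_sq univ a b
    unfold dotProduct
    simpa [sq] using this
  rw [← sum_product', ← sum_product', ← sum_product']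
  refine le_trans (sum_le_sum fun z _ => ?_) (Real.sum_sqrt_mul_sqrt_le _ (fun z => ?_) (fun z => ?_))
  · split_ifs
    · rw [abs_mul, Real.sqrt_mul (sq_nonneg _), Real.sqrt_sq_eq_abs, mul_assoc]
      exact mul_le_mul_of_nonneg_left (hcs _ _) (abs_nonneg _)
    · simp
  · split_ifs
    · exact mul_nonneg (sq_nonneg _) (nsq_nonneg _)
    · exact le_rfl
  · split_ifs
    · exact nsq_nonneg _
    · exact le_rfl

end Slot

end

end Vale.Agent.P141.H460
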